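import Vale.Agent.P159.H316.Zb12
import Vale.Agent.P159.H363.Vb8
import Vale.Agent.P159.H896.TypI

/-!
P159, V list part B (VB9 = ZB), helper316: the inputs of the zero background relation from the
typical law, Gaussian domination, the relation at a Dini point.
-/

open MeasureTheory Finset Matrix Filter Topology
open scoped ComplexConjugate
open Vale.Agent.P159.TM.H104 (EM nh li Ex Lg Gr)
open Vale.Agent.P159.H37 (wM ZM qf bf Zn Zq Un Ev gau gau_shift cellP)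
open Vale.Agent.P159.H896
open Vale.Agent.P159.TM.Spec (V)
open Vale.Agent.P159.TM.SpecC (Tor wT)
open Vale.Agent.P159.TM.H764 (EE)
open Vale.Agent.P159.H864 (TI sym MC cl cobV fc)
open Vale.Agent.P159.H963 (Pn nMC nM ntr gw_wT mf_MC eq2 An)
open Vale.Agent.P159.H363 (acl lf Rcl Wcl gm sn Nf)

set_option linter.unusedSectionVars false

namespace Vale.Agent.P159.H316

noncomputable section

/-! ### Gaussian domination -/

section dom

variable {I J K Λ : Type} [Fintype I] [Fintype J] [Fintype K] [Fintype Λ]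

lemma law_real (A : Matrix Λ I ℝ) (B : Matrix Λ J ℝ) (h : A * Aᵀ = B * Bᵀ) {S : Set (Λ → ℝ)}
    (hS : MeasurableSet S) :
    (gau I).real {g | A *ᵥ g ∈ S} = (gau J).real {g | B *ᵥ g ∈ S} := by
  have h1 : ((gau I).map fun g => A *ᵥ g).real S = ((gau J).map fun g => B *ᵥ g).real S := by
    rw [H363.law_eq A B h]
  rwa [map_measureReal_apply (H363.measurable_mulVec A) hS,
    map_measureReal_apply (H363.measurable_mulVec B) hS] at h1

lemma cols_plus (B : Matrix Λ J ℝ) (D : Matrix Λ K ℝ) :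
    fromCols B D * (fromCols B D)ᵀ = B * Bᵀ + D * Dᵀ := by
  rw [transpose_fromCols, fromCols_mul_fromRows]

lemma cols_minus (B : Matrix Λ J ℝ) (D : Matrix Λ K ℝ) :
    fromCols B (-D) * (fromCols B (-D))ᵀ = B * Bᵀ + D * Dᵀ := by
  rw [transpose_fromCols, fromCols_mul_fromRows, transpose_neg, Matrix.neg_mul, Matrix.mul_neg,
    neg_neg]

lemma cols_zero (B : Matrix Λ J ℝ) :
    fromCols B (0 : Matrix Λ K ℝ) * (fromCols B (0 : Matrix Λ K ℝ))ᵀ = B * Bᵀ := by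
  rw [transpose_fromCols, fromCols_mul_fromRows, transpose_zero, Matrix.mul_zero, add_zero]

lemma cols_mv (B : Matrix Λ J ℝ) (D : Matrix Λ K ℝ) (g : J ⊕ K → ℝ) :
    fromCols B D *ᵥ g = B *ᵥ (g ∘ Sum.inl) + D *ᵥ (g ∘ Sum.inr) :=
  fromCols_mulVec _ _ _

/-- symmetric convex tails are dominated -/
theorem prob_dom (A : Matrix Λ I ℝ) (B : Matrix Λ J ℝ) (D : Matrix Λ K ℝ)
    (h : A * Aᵀ = B * Bᵀ + D * Dᵀ) {f : (Λ → ℝ) → ℝ} (hf : Measurable f)
    (hc : ∀ x y, f x ≤ (f (x + y) + f (x - y)) / 2) (r : ℝ) :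
    (gau J).real {g | r < f (B *ᵥ g)} ≤ 2 * (gau I).real {g | r < f (A *ᵥ g)} := by
  have hS : MeasurableSet {x : Λ → ℝ | r < f x} := measurableSet_lt measurable_const hf
  have e1 : (gau J).real {g | r < f (B *ᵥ g)} =
      (gau (J ⊕ K)).real {g | r < f (fromCols B (0 : Matrix Λ K ℝ) *ᵥ g)} :=
    law_real B _ (cols_zero B).symm hS
  have e2 : (gau I).real {g | r < f (A *ᵥ g)} =
      (gau (J ⊕ K)).real {g | r < f (fromCols B D *ᵥ g)} :=
    law_real A _ (by rw [cols_plus, h]) hS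
  have e3 : (gau I).real {g | r < f (A *ᵥ g)} =
      (gau (J ⊕ K)).real {g | r < f (fromCols B (-D) *ᵥ g)} :=
    law_real A _ (by rw [cols_minus, h]) hS
  have h1 : {g : J ⊕ K → ℝ | r < f (fromCols B (0 : Matrix Λ K ℝ) *ᵥ g)} ⊆
      {g | r < f (fromCols B D *ᵥ g)} ∪ {g | r < f (fromCols B (-D) *ᵥ g)} := by
    intro g hg
    have hg' : r < f (fromCols B (0 : Matrix Λ K ℝ) *ᵥ g) := hg
    rw [cols_mv, zero_mulVec, add_zero] at hg'
    by_contra hcon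
    rw [Set.mem_union, not_or] at hcon
    obtain ⟨h2, h3⟩ := hcon
    have h2' : f (B *ᵥ (g ∘ Sum.inl) + D *ᵥ (g ∘ Sum.inr)) ≤ r := by
      rw [← cols_mv]
      exact not_lt.1 h2
    have h3' : f (B *ᵥ (g ∘ Sum.inl) - D *ᵥ (g ∘ Sum.inr)) ≤ r := by
      rw [sub_eq_add_neg, ← neg_mulVec, ← cols_mv]
      exact not_lt.1 h3
    have h4 := hc (B *ᵥ (g ∘ Sum.inl)) (D *ᵥ (g ∘ Sum.inr))
    linarith
  have h2 := (measureReal_mono (μ := gau (J ⊕ K)) h1).trans (measureReal_union_le _ _)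
  rw [e1]
  linarith

/-- convex averages are dominated -/
theorem int_dom (A : Matrix Λ I ℝ) (B : Matrix Λ J ℝ) (D : Matrix Λ K ℝ)
    (h : A * Aᵀ = B * Bᵀ + D * Dᵀ) {f : (Λ → ℝ) → ℝ} (hf : Measurable f) (h0 : ∀ x, 0 ≤ f x)
    (hc : ∀ x y, f x ≤ (f (x + y) + f (x - y)) / 2)
    (hi : Integrable (fun g => f (A *ᵥ g)) (gau I)) :
    ∫ g, f (B *ᵥ g) ∂(gau J) ≤ ∫ g, f (A *ᵥ g) ∂(gau I) := by
  have key : ∀ C : Matrix Λ (J ⊕ K) ℝ, A * Aᵀ = C * Cᵀ →
      Integrable (fun g => f (C *ᵥ g)) (gau (J ⊕ K)) ∧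
        ∫ g, f (C *ᵥ g) ∂(gau (J ⊕ K)) = ∫ g, f (A *ᵥ g) ∂(gau I) := by
    intro C hC
    refine ⟨?_, (H363.law_integral_eq A C hC f hf.stronglyMeasurable).symm⟩
    have h1 := (integrable_map_measure hf.aestronglyMeasurable
      (H363.measurable_mulVec A).aemeasurable).2 hi
    rw [H363.law_eq A C hC] at h1
    exact (integrable_map_measure hf.aestronglyMeasurable
      (H363.measurable_mulVec C).aemeasurable).1 h1
  obtain ⟨i1, v1⟩ := key (fromCols B D) (by rw [cols_plus, h])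
  obtain ⟨i2, v2⟩ := key (fromCols B (-D)) (by rw [cols_minus, h])
  have e1 : ∫ g, f (B *ᵥ g) ∂(gau J) =
      ∫ g, f (fromCols B (0 : Matrix Λ K ℝ) *ᵥ g) ∂(gau (J ⊕ K)) :=
    H363.law_integral_eq B _ (cols_zero B).symm f hf.stronglyMeasurable
  have e2 : ∫ g, f (A *ᵥ g) ∂(gau I) =
      ∫ g, (f (fromCols B D *ᵥ g) + f (fromCols B (-D) *ᵥ g)) / 2 ∂(gau (J ⊕ K)) := by
    rw [integral_div, integral_add i1 i2, v1, v2]
    ring
  rw [e1, e2]
  refine integral_mono_of_nonneg (Eventually.of_forall fun g => h0 _) ((i1.add i2).div_const 2)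
    (Eventually.of_forall fun g => ?_)
  simp only
  rw [cols_mv, cols_mv, cols_mv, zero_mulVec, add_zero, neg_mulVec, ← sub_eq_add_neg]
  exact hc _ _

end dom

variable {N l : ℕ} [NeZero N] [NeZero (N / l)] {b t τ τ' : ℝ}

/-! ### convexity of the remainder on cell fields -/

lemma Rcl_mid (hb : 0 ≤ b) (hl : l ∣ N) (hτ : 0 < τ) (h : τ ≤ t) (x y : V (N / l) → ℝ) :
    Rcl N l b t τ x ≤ (Rcl N l b t τ (x + y) + Rcl N l b t τ (x - y)) / 2 := by
  have h1 := (H789.Rs_convex ((gw_wT (N := N) hb).em_nM (mf_MC hl hτ h) 0)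
    ((gw_wT (N := N) hb).ev_nM _ _ 0) ((gw_wT (N := N) hb).pk_nM (mf_MC hl hτ h) 0)).2
    (Set.mem_univ (ntr (MC N l t τ) τ *ᵥ lf N l (x + y)))
    (Set.mem_univ (ntr (MC N l t τ) τ *ᵥ lf N l (x - y)))
    (show (0 : ℝ) ≤ 1 / 2 by norm_num) (show (0 : ℝ) ≤ 1 / 2 by norm_num) (by norm_num)
  have e : (1 / 2 : ℝ) • (ntr (MC N l t τ) τ *ᵥ lf N l (x + y)) +
      (1 / 2 : ℝ) • (ntr (MC N l t τ) τ *ᵥ lf N l (x - y)) =
      ntr (MC N l t τ) τ *ᵥ lf N l x := by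
    rw [← smul_add, ← mulVec_add, ← H363.lf_add, ← mulVec_smul, ← H363.lf_smul]
    congr 2
    module
  rw [e] at h1
  simp only [smul_eq_mul] at h1
  unfold Rcl nMC
  linarith

lemma Rcl_mid_smul (hb : 0 ≤ b) (hl : l ∣ N) (hτ : 0 < τ) (h : τ ≤ t) (c : ℝ)
    (x y : V (N / l) → ℝ) :
    Rcl N l b t τ (c • x) ≤ (Rcl N l b t τ (c • (x + y)) + Rcl N l b t τ (c • (x - y))) / 2 := by
  have := Rcl_mid (b := b) hb hl hτ h (c • x) (c • y)
  rwa [← smul_add, ← smul_sub] at this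

lemma Wcl_mid (hb : 0 ≤ b) (hl : l ∣ N) (hτ : 0 < τ) (h : τ ≤ t) (x y : V (N / l) → ℝ) :
    Wcl N l b t τ x ≤ (Wcl N l b t τ (x + y) + Wcl N l b t τ (x - y)) / 2 := by
  have h1 := Rcl_mid (b := b) hb hl hτ h x y
  unfold Wcl
  set u := Rcl N l b t τ (x + y)
  set v := Rcl N l b t τ (x - y)
  have h2 : Real.exp (Rcl N l b t τ x) ≤ Real.exp ((u + v) / 2) := Real.exp_le_exp.2 h1
  have h3 : Real.exp ((u + v) / 2) = Real.exp (u / 2) * Real.exp (v / 2) := by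
    rw [← Real.exp_add]; congr 1; ring
  have h4 : Real.exp u = Real.exp (u / 2) ^ 2 := by
    rw [← Real.exp_nat_mul]; congr 1; push_cast; ring
  have h5 : Real.exp v = Real.exp (v / 2) ^ 2 := by
    rw [← Real.exp_nat_mul]; congr 1; push_cast; ring
  rw [h3] at h2
  rw [h4, h5]
  nlinarith [sq_nonneg (Real.exp (u / 2) - Real.exp (v / 2))]

/-! ### covariances -/

section cov

variable {n : ℕ} [NeZero n] {A : Matrix (V n) (V n) ℝ}

lemma ti_Qn : TI (Qn (V n)) := by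
  rw [Qn_eq]
  exact H963.ti_Pn

lemma Qn_gm_dom (hA : Nf A) {s : ℝ} (hs : 0 ≤ s) :
    H363.pin A * (H363.pin A)ᵀ = (Qn (V n) * gm s A) * (Qn (V n) * gm s A)ᵀ +
      fc (fun a => √(a⁻¹ - s * (1 + s * a)⁻¹)) A * (fc (fun a => √(a⁻¹ - s * (1 + s * a)⁻¹)) A)ᵀ := by
  have tG : TI (Qn (V n) * gm s A) := ti_Qn.mul (H363.ti_gm s A)
  have tD : TI (fc (fun a => √(a⁻¹ - s * (1 + s * a)⁻¹)) A) := H864.ti_fc _ _
  rw [(H363.ti_pin A).transpose, tG.transpose, tD.transpose]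
  refine H864.sym_inj ((H363.ti_pin A).mul (H363.ti_pin A)) ((tG.mul tG).add (tD.mul tD))
    fun k => ?_
  rw [H864.sym_add, H864.sym_mul (H363.ti_pin A) (H363.ti_pin A), H864.sym_mul tG tG,
    H864.sym_mul tD tD, H864.sym_mul ti_Qn (H363.ti_gm s A), Qn_eq, H963.sym_Pn, H363.sym_pin]
  unfold gm
  rw [H864.sym_fc, H864.sym_fc]
  by_cases hk : k = 0
  · rw [if_pos hk, hk, hA.zero]
    have : √((0 : ℝ)⁻¹ - s * (1 + s * 0)⁻¹) = 0 := by
      apply Real.sqrt_eq_zero_of_nonpos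
      simpa using hs
    rw [this]
    simp
  · rw [if_neg hk, one_mul]
    have h1 := hA.pos k hk
    have h2 : 0 < 1 + s * sym A k := by positivity
    have h3 : 0 ≤ (sym A k)⁻¹ - s * (1 + s * sym A k)⁻¹ := by
      rw [sub_nonneg, ← div_eq_mul_inv, inv_eq_one_div, div_le_div_iff₀ h2 h1]
      linarith
    rw [Real.mul_self_sqrt (by positivity), Real.mul_self_sqrt (by positivity),
      Real.mul_self_sqrt h3]
    ring

lemma Qn_im_dom (hA : Nf A) {s1 s2 lam : ℝ} (h1 : 0 < s1) (h : s1 ≤ s2)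
    (hk : ∀ k, k ≠ 0 → 1 ≤ lam ^ 2 * (s1 * sym A k)) :
    (lam • H363.pin A) * (lam • H363.pin A)ᵀ = (Qn (V n) * im s1 s2 A) * (Qn (V n) * im s1 s2 A)ᵀ +
      fc (fun a => √(lam ^ 2 * a⁻¹ - dv s1 s2 a)) A *
        (fc (fun a => √(lam ^ 2 * a⁻¹ - dv s1 s2 a)) A)ᵀ := by
  have tG : TI (Qn (V n) * im s1 s2 A) := ti_Qn.mul (ti_im s1 s2 A)
  have tD : TI (fc (fun a => √(lam ^ 2 * a⁻¹ - dv s1 s2 a)) A) := H864.ti_fc _ _
  have tP : TI (lam • H363.pin A) := (H363.ti_pin A).smul _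
  rw [tP.transpose, tG.transpose, tD.transpose]
  refine H864.sym_inj (tP.mul tP) ((tG.mul tG).add (tD.mul tD)) fun k => ?_
  rw [H864.sym_add, H864.sym_mul tP tP, H864.sym_mul tG tG,
    H864.sym_mul tD tD, H864.sym_mul ti_Qn (ti_im s1 s2 A), Qn_eq, H963.sym_Pn, H864.sym_smul,
    H363.sym_pin]
  unfold im
  rw [H864.sym_fc, H864.sym_fc]
  by_cases hk0 : k = 0
  · rw [if_pos hk0, hk0, hA.zero]
    have : √(lam ^ 2 * (0 : ℝ)⁻¹ - dv s1 s2 0) = 0 := by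
      apply Real.sqrt_eq_zero_of_nonpos
      simp only [dv, _root_.inv_zero, mul_zero, add_zero, inv_one, mul_one, zero_sub]
      linarith
    rw [this]
    simp
  · rw [if_neg hk0, one_mul]
    have h3 := hA.pos k hk0
    have h4 := hk k hk0
    have h5 := dv_le h1 h h3
    have h6 : 1 / (s1 * sym A k ^ 2) ≤ lam ^ 2 * (sym A k)⁻¹ := by
      rw [← div_eq_mul_inv, div_le_div_iff₀ (by positivity) h3]
      have : lam ^ 2 * (s1 * sym A k ^ 2) = lam ^ 2 * (s1 * sym A k) * sym A k := by ring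
      rw [this]
      exact mul_le_mul_of_nonneg_right h4 h3.le
    have h7 : 0 ≤ (sym A k)⁻¹ := by positivity
    have e1 : lam * √((sym A k)⁻¹) * (lam * √((sym A k)⁻¹)) = lam ^ 2 * (sym A k)⁻¹ := by
      have := Real.mul_self_sqrt h7
      calc lam * √((sym A k)⁻¹) * (lam * √((sym A k)⁻¹)) =
            lam ^ 2 * (√((sym A k)⁻¹) * √((sym A k)⁻¹)) := by ring
        _ = _ := by rw [this]
    rw [e1, Real.mul_self_sqrt (dv_nonneg h1.le h h3.le), Real.mul_self_sqrt (by linarith)]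
    ring

end cov

/-- typical law inputs at the base mass `t` -/
structure TyIn (N l : ℕ) [NeZero N] [NeZero (N / l)] (b t η p : ℝ) : Prop where
  it : Integrable (fun g => Wcl N l b t t (H363.pin (acl N l b t t) *ᵥ g)) (gau (V (N / l)))
  nm : ∫ g, Wcl N l b t t (H363.pin (acl N l b t t) *ᵥ g) ∂(gau (V (N / l))) ≤ 1 + η
  tl : (gau (V (N / l))).real {g | 1 < Rcl N l b t t
      ((8 : ℝ) • (H363.pin (acl N l b t t) *ᵥ g))} ≤ p

theorem TyIn.zbIn {η p : ℝ} (H : TyIn N l b t η p) (hb : 0 ≤ b) (hl : l ∣ N) {τ1 a0 : ℝ} {j : ℕ}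
    (hτ1 : 0 < τ1) (h1 : τ1 < t) (hA : Nf (acl N l b t t)) (ha0 : 0 < a0)
    (ha : ∀ k, k ≠ 0 → a0 ≤ sym (acl N l b t t) k) (hj : (4 : ℝ) ^ j ≤ sn l t τ1 * a0) :
    ZbIn N l b t τ1 ((l : ℝ) ^ 2 / (sn l t τ1 * a0 ^ 2)) ((1 / 4) ^ j) η (2 * p) (2 * p) := by
  have ht : 0 < t := hτ1.trans h1
  have hlp : (0 : ℝ) < l := by exact_mod_cast H864.l_pos hl
  set A := acl N l b t t with hAd
  set s1 := sn l t τ1 with hs1
  have s1p : 0 < s1 := H363.sn_pos hl hτ1 h1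
  have hRc : Continuous (Rcl N l b t t) := H363.continuous_Rcl (b := b) (t := t) hb hl ht le_rfl
  have mR : ∀ c : ℝ, Measurable fun F : V (N / l) → ℝ => Rcl N l b t t (c • F) := fun c =>
    (hRc.comp (continuous_const_smul c)).measurable
  have hQ : ∀ (c : ℝ) (F : V (N / l) → ℝ), Rcl N l b t t (c • (Qn (V (N / l)) *ᵥ F)) =
      Rcl N l b t t (c • F) := by
    intro c F
    rw [← mulVec_smul, Rcl_Qn hl ht le_rfl]
  have s12 : ∀ τ2, 0 < τ2 → τ2 < τ1 → s1 ≤ sn l t τ2 := by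
    intro τ2 h2 h21
    rw [hs1]
    unfold sn
    have : τ1⁻¹ ≤ τ2⁻¹ := inv_anti₀ h2 h21.le
    gcongr
  refine ⟨?_, ?_, ?_, ?_⟩
  · intro τ2 h2 h21 k hk
    have h3 := hA.pos k hk
    have h4 := dv_le s1p (s12 τ2 h2 h21) h3
    have h5 := ha k hk
    have h6 : 1 / (s1 * sym A k ^ 2) ≤ 1 / (s1 * a0 ^ 2) := by
      have : a0 ^ 2 ≤ sym A k ^ 2 := pow_le_pow_left₀ ha0.le h5 2
      gcongr
    calc (l : ℝ) ^ 2 * dv s1 (sn l t τ2) (sym A k) ≤ (l : ℝ) ^ 2 * (1 / (s1 * a0 ^ 2)) :=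
          mul_le_mul_of_nonneg_left (h4.trans h6) (by positivity)
      _ = _ := by ring
  · intro τ2 h2 h21
    have s2p : 0 < sn l t τ2 := H363.sn_pos hl h2 (h21.trans_lt h1)
    have h3 := int_dom _ _ _ (Qn_gm_dom hA s2p.le)
      (H363.continuous_Wcl (b := b) (t := t) hb hl ht le_rfl).measurable
      (fun F => (Real.exp_pos _).le) (Wcl_mid hb hl ht le_rfl) H.it
    refine le_trans (le_of_eq ?_) (h3.trans H.nm)
    refine integral_congr_ae (Eventually.of_forall fun g => ?_)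
    simp only
    unfold Wcl
    rw [← mulVec_mulVec, Rcl_Qn hl ht le_rfl]
  · have h3 := prob_dom _ _ _ (Qn_gm_dom hA s1p.le) (mR 2) (Rcl_mid_smul hb hl ht le_rfl 2)
      (1 / 4)
    have e : ∀ g, Rcl N l b t t ((2 : ℝ) • ((Qn (V (N / l)) * gm s1 A) *ᵥ g)) =
        Rcl N l b t t ((2 : ℝ) • (gm s1 A *ᵥ g)) := by
      intro g
      rw [← mulVec_mulVec, hQ]
    simp only [e] at h3
    refine h3.trans (mul_le_mul_of_nonneg_left (le_trans (measureReal_mono fun g hg => ?_) H.tl)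
      (by norm_num))
    simp only [Set.mem_ofPred_eq] at hg ⊢
    have h4 := Rcl_quarter (b := b) hb hl ht ((8 : ℝ) • (H363.pin A *ᵥ g)) 2
    rw [smul_smul] at h4
    norm_num at h4
    linarith
  · intro τ2 h2 h21
    have h3 := prob_dom _ _ _ (Qn_im_dom (lam := (1 / 2) ^ j) hA s1p (s12 τ2 h2 h21)
      (fun k hk => by
        have h4 : (4 : ℝ) ^ j ≤ s1 * sym A k :=
          hj.trans (mul_le_mul_of_nonneg_left (ha k hk) s1p.le)
        have h5 : (((1 : ℝ) / 2) ^ j) ^ 2 * 4 ^ j = 1 := by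
          rw [← pow_mul, mul_comm j 2, pow_mul, ← mul_pow]
          norm_num
        calc (1 : ℝ) = (((1 : ℝ) / 2) ^ j) ^ 2 * 4 ^ j := h5.symm
          _ ≤ _ := mul_le_mul_of_nonneg_left h4 (by positivity))) (mR 8)
      (Rcl_mid_smul hb hl ht le_rfl 8) ((1 / 4) ^ j)
    have e : ∀ g, Rcl N l b t t ((8 : ℝ) • ((Qn (V (N / l)) * im s1 (sn l t τ2) A) *ᵥ g)) =
        Rcl N l b t t ((8 : ℝ) • (im s1 (sn l t τ2) A *ᵥ g)) := by
      intro g
      rw [← mulVec_mulVec, hQ]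
    simp only [e] at h3
    refine h3.trans (mul_le_mul_of_nonneg_left (le_trans (measureReal_mono fun g hg => ?_) H.tl)
      (by norm_num))
    simp only [Set.mem_ofPred_eq] at hg ⊢
    have h4 := Rcl_quarter (b := b) hb hl ht ((8 : ℝ) • (H363.pin A *ᵥ g)) j
    have e2 : (8 : ℝ) • ((((1 : ℝ) / 2) ^ j • H363.pin A) *ᵥ g) =
        ((1 : ℝ) / 2) ^ j • (8 : ℝ) • (H363.pin A *ᵥ g) := by
      rw [smul_mulVec, smul_smul, smul_smul, mul_comm]
    rw [e2] at hg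
    have h5 : ((1 : ℝ) / 4) ^ j * 1 < (1 / 4) ^ j * Rcl N l b t t ((8 : ℝ) • (H363.pin A *ᵥ g)) := by
      rw [mul_one]
      exact hg.trans_le h4
    exact lt_of_mul_lt_mul_left h5 (by positivity)

/-- the typical law inputs from the law of the sources of the neutral channel at small prior
masses -/
theorem tyIn_src (hb : 0 ≤ b) (hl : l ∣ N) (ht : 0 < t) (hA : Nf (acl N l b t t))
    (hi : Integrable (fun g => Wcl N l b t t (H363.pin (acl N l b t t) *ᵥ g)) (gau (V (N / l))))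
    {m : ℕ} (hm : 3 ≤ m) {δ : ℝ} (hδ0 : 0 ≤ δ) (hδ1 : δ ≤ 1 / 2)
    (hδ : ∀ᶠ a in 𝓝[>] (0 : ℝ), 1 - δ ≤ H37.Ech (nMC N l b t a 0) 0 (H963.obsN N l (t - a))
      ({J : V N → ℝ | H37.Rs (nMC N l b t t 0) ((2 : ℝ) ^ m • J) ≤ 1}.indicator fun _ => (1 : ℝ))) :
    TyIn N l b t (4 * (1 / 4) ^ m + 2 * δ) (3 * δ) := by
  set Gs : Set (V N → ℝ) := {J : V N → ℝ | H37.Rs (nMC N l b t t 0) ((2 : ℝ) ^ m • J) ≤ 1} with hGs
  have mG : MeasurableSet Gs := by
    refine measurableSet_le ?_ measurable_const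
    exact ((H114.continuous_Rs ((gw_wT (N := N) hb).em_nM (mf_MC hl ht le_rfl) 0)).comp
      (continuous_const_smul _)).measurable
  have hx : ((1 : ℝ) / 4) ^ m ≤ 1 / 64 := by
    calc ((1 : ℝ) / 4) ^ m ≤ (1 / 4) ^ 3 :=
          pow_le_pow_of_le_one (by norm_num) (by norm_num) hm
      _ = 1 / 64 := by norm_num
  have hx0 : (0 : ℝ) < (1 / 4) ^ m := by positivity
  -- good sources
  have hsm : ∀ F : V (N / l) → ℝ, ∀ c : ℝ, H37.Rs (nMC N l b t t 0) (c • srcF N l t t F) =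
      Rcl N l b t t (c • F) := by
    intro F c
    rw [Rcl_eq, srcF, srcF, H363.lf_smul, mulVec_smul]
  have hgood : ∀ F : V (N / l) → ℝ, srcF N l t t F ∈ Gs → ∀ j : ℕ, j ≤ m →
      Rcl N l b t t ((2 : ℝ) ^ j • F) ≤ (1 / 4) ^ (m - j) := by
    intro F hF j hj
    have h1 : Rcl N l b t t ((2 : ℝ) ^ m • F) ≤ 1 := by
      rw [← hsm]
      exact hF
    have h2 := Rcl_quarter (b := b) hb hl ht ((2 : ℝ) ^ m • F) (m - j)
    have e : ((1 : ℝ) / 2) ^ (m - j) • (2 : ℝ) ^ m • F = (2 : ℝ) ^ j • F := by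
      rw [smul_smul]
      congr 1
      have h3 : (2 : ℝ) ^ m = 2 ^ (m - j) * 2 ^ j := by rw [← pow_add, Nat.sub_add_cancel hj]
      rw [h3, ← mul_assoc, ← mul_pow]
      norm_num
    rw [e] at h2
    refine h2.trans ?_
    have : (0 : ℝ) ≤ (1 / 4) ^ (m - j) := by positivity
    nlinarith
  have hbad := typ_bad hb hl ht le_rfl hA hi mG hδ
  have hmp : Measurable fun g : V (N / l) → ℝ => H363.pin (acl N l b t t) *ᵥ g :=
    H363.measurable_mulVec _
  set Bd : Set (V (N / l) → ℝ) := (srcF N l t t) ⁻¹' Gsᶜ with hBd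
  have hB : MeasurableSet Bd := (measurable_srcF N l t t) mG.compl
  have hη : ∀ g : V (N / l) → ℝ, g ∉ (fun g => H363.pin (acl N l b t t) *ᵥ g) ⁻¹' Bd →
      Wcl N l b t t (H363.pin (acl N l b t t) *ᵥ g) ≤ 1 + 2 * (1 / 4) ^ m := by
    intro g hg
    have h2 : srcF N l t t (H363.pin (acl N l b t t) *ᵥ g) ∈ Gs := by
      by_contra hc
      exact hg hc
    have h3 := hgood _ h2 0 (Nat.zero_le m)
    rw [pow_zero, one_smul, Nat.sub_zero] at h3
    unfold Wcl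
    refine (Real.exp_le_exp.2 h3).trans ?_
    have h4 := Real.abs_exp_sub_one_le (x := (1 / 4) ^ m) (by
      rw [abs_of_pos hx0]; linarith)
    rw [abs_of_pos hx0] at h4
    have := (abs_le.1 h4).2
    linarith
  have hms := typ_mass (hmp hB) hi (η := 2 * (1 / 4) ^ m) (δ := δ) hη (by positivity)
    (by linarith) hbad
  have hmass : (1 + 2 * (1 / 4) ^ m) / (1 - δ) ≤ 1 + (4 * (1 / 4) ^ m + 2 * δ) := by
    rw [div_le_iff₀ (by linarith)]
    nlinarith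
  have hmass2 : (1 + 2 * (1 / 4) ^ m) / (1 - δ) ≤ 3 := by
    rw [div_le_iff₀ (by linarith)]
    linarith
  refine ⟨hi, hms.1.trans hmass, ?_⟩
  have h5 := hms.2 hδ0
  have h6 : {g : V (N / l) → ℝ | 1 < Rcl N l b t t ((8 : ℝ) • (H363.pin (acl N l b t t) *ᵥ g))} ⊆
      (fun g => H363.pin (acl N l b t t) *ᵥ g) ⁻¹' Bd := by
    intro g hg
    simp only [Set.mem_ofPred_eq] at hg
    by_contra hc
    have h2 : srcF N l t t (H363.pin (acl N l b t t) *ᵥ g) ∈ Gs := by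
      by_contra hc'
      exact hc hc'
    have h3 := hgood _ h2 3 hm
    have e8 : (2 : ℝ) ^ 3 = 8 := by norm_num
    rw [e8] at h3
    have h4 : ((1 : ℝ) / 4) ^ (m - 3) ≤ 1 := pow_le_one₀ (by norm_num) (by norm_num)
    linarith
  have h7 := measureReal_mono (μ := gau (V (N / l))) h6
  have h8 : (gau (V (N / l))).real ((fun g => H363.pin (acl N l b t t) *ᵥ g) ⁻¹' Bd) ≤
      ∫ g in (fun g => H363.pin (acl N l b t t) *ᵥ g) ⁻¹' Bd,
        Wcl N l b t t (H363.pin (acl N l b t t) *ᵥ g) ∂(gau (V (N / l))) := by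
    have h9 : ∫ _g in (fun g => H363.pin (acl N l b t t) *ᵥ g) ⁻¹' Bd, (1 : ℝ) ∂(gau (V (N / l))) ≤
        ∫ g in (fun g => H363.pin (acl N l b t t) *ᵥ g) ⁻¹' Bd,
        Wcl N l b t t (H363.pin (acl N l b t t) *ᵥ g) ∂(gau (V (N / l))) := by
      refine integral_mono (integrable_const _) hi.integrableOn fun g => ?_
      exact H363.one_le_Wcl hb hl ht le_rfl _
    rw [setIntegral_const, smul_eq_mul, mul_one] at h9
    exact h9
  refine h7.trans (h8.trans (h5.trans ?_))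
  nlinarith [mul_le_mul_of_nonneg_left hmass2 hδ0]

/-- cell mass against the scalar mass above it -/
lemma omh_le_omt (hb : 0 ≤ b) (hl : l ∣ N) (hτ : 0 < τ) (h : τ ≤ t) :
    omh N l b t τ ≤ omt N b t := by
  have ht : 0 < t := hτ.trans_le h
  have hσ : 0 ≤ τ⁻¹ - t⁻¹ := sub_nonneg.2 (inv_anti₀ hτ h)
  have hch := chn_Mc (lift_cob (N := N) (l := l) hl) ht hσ
  have hWc : WM (wT b N) (Mc (cobV N l)ᵀ t (τ⁻¹ - t⁻¹)) :=
    (ad_wT hb).wm _ hch.sym' (Chn.coe hch (coe_smul ht))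
  have h1 := om_mono hch hWc 1
  rw [omh, Ex_MC_eq hb hl hτ h, omt_eq hb ht]
  exact mul_le_mul_of_nonneg_left h1 (Real.exp_pos _).le

/-- **the zero background relation at a small step point of the octave** -/
theorem zb_dini (hb : 0 < b) : ∃ C c : ℝ, 0 < C ∧ 0 < c ∧
    ∀ (N l : ℕ) [NeZero N] [NeZero (N / l)], l ∣ N → ∀ (t τ1 β r η p1 p2 a lam M κ : ℝ) (J : ℕ),
    0 < t → 9 ≤ t * (N : ℝ) ^ 2 → 4 * t * (l : ℝ) ^ 2 ≤ 1 → 0 < τ1 → τ1 < t →
    (∀ ts, t ≤ ts → ts ≤ 4 * t → ZbIn N l b ts τ1 β r η p1 p2) → r ≤ 1 → 0 < β → 0 < lam →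
    1 < M →
    (∀ r : ℝ, 0 < r → r ≤ 4 * t → 0 < om (wT b N) (r • (1 : Matrix (V N) (V N) ℝ)) 1) →
    kap N l (4 * t) β r lam J ≤ κ → κ ≤ 1 / 2 → 0 < a →
    128 / 3 * t * Real.log M * β + κ ^ 2 / 2 ≤ a ^ 2 → 0 ≤ η → 0 ≤ p1 → 0 ≤ p2 →
    ∃ ts, t ≤ ts ∧ ts ≤ 4 * t ∧
    omh N l b ts τ1 ≤ Yn N b + C * √(t * (N : ℝ) ^ 2) * (t * (l : ℝ) ^ 2) ^ c +
      omt N b (4 * t) * (M⁻¹ + (4 * η + 2 * a + 6 * κ + 2 * p1 + 2 * (p2 + 1 / lam))) := by
  obtain ⟨C, c, hC, hc, hU⟩ := H375.val_zero (b := b) hb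
  refine ⟨C * √4 * 4 ^ c, c, by positivity, hc, ?_⟩
  intro N l _ _ hl t τ1 β r η p1 p2 a lam M κ J ht htN htl hτ1 h1 H hr1 hβ hlam hM hpos hκ hκ1 ha
    haE hη hp1 hp2
  have hlp : (0 : ℝ) < l := by exact_mod_cast H864.l_pos hl
  have hM0 : 0 < M := by linarith
  have hlogM : 0 < Real.log M := Real.log_pos hM
  have hκ0 : 0 ≤ κ := (kap_nonneg N l (4 * t) β r lam J).trans hκ
  have p4 : 0 < omt N b (4 * t) := omt_pos hb.le (by positivity) (hpos _ (by positivity) le_rfl)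
  have pt : 0 < omt N b t := omt_pos hb.le ht (hpos _ ht (by linarith))
  set E : ℝ := 4 * η + 2 * a + 6 * κ + 2 * p1 + 2 * (p2 + 1 / lam) with hE
  have hE0 : 0 ≤ E := by positivity
  have hY0 : 0 ≤ Yn N b := Yn_nonneg hb
  have hF0 : 0 ≤ C * √4 * 4 ^ c * √(t * (N : ℝ) ^ 2) * (t * (l : ℝ) ^ 2) ^ c := by positivity
  by_cases hcase : omt N b t ≤ M⁻¹ * omt N b (4 * t)
  · -- the activity drops in one octave
    have h2 := omh_le_omt (N := N) (l := l) hb.le hl hτ1 h1.le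
    have h3 : 0 ≤ omt N b (4 * t) * E := mul_nonneg p4.le hE0
    have h4 : omt N b (4 * t) * (M⁻¹ + E) = M⁻¹ * omt N b (4 * t) + omt N b (4 * t) * E := by ring
    have h5 := h2.trans hcase
    refine ⟨t, le_rfl, by linarith, ?_⟩
    rw [h4]
    refine h5.trans ?_
    have h6 := add_nonneg hY0 hF0
    exact le_add_of_nonneg_of_le h6 (le_add_of_nonneg_right h3)
  · push Not at hcase
    have hflp : ∀ s : ℝ, 1 / (4 * t) ≤ s → 0 < s ∧
        0 < om (wT b N) (s⁻¹ • (1 : Matrix (V N) (V N) ℝ)) 1 := by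
      intro s hs
      have hs0 : 0 < s := lt_of_lt_of_le (by positivity) hs
      refine ⟨hs0, hpos _ (by positivity) ?_⟩
      rw [inv_le_comm₀ hs0 (by positivity)]
      rwa [one_div] at hs
    have hab : 1 / (4 * t) < 1 / t := by
      rw [div_lt_div_iff₀ (by positivity) ht]
      linarith
    have hanti : AntitoneOn (fl (wT b N)) (Set.Icc (1 / (4 * t)) (1 / t)) := by
      intro x hx y hy hxy
      obtain ⟨hx0, -⟩ := hflp x hx.1
      have h3 := fl_anti (ad_wT (N := N) hb.le) (s := x) (δ := y - x) hx0 (by linarith) (by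
        rw [add_sub_cancel]
        exact (hflp y hy.1).2)
      rwa [add_sub_cancel] at h3
    have hdrop : fl (wT b N) (1 / (4 * t)) - fl (wT b N) (1 / t) <
        (8 / 3 * t * Real.log M) * (1 / t - 1 / (4 * t)) := by
      rw [fl_log hb.le (by positivity) (hflp _ le_rfl).2,
        fl_log hb.le (by positivity) (hflp _ hab.le).2]
      have e1 : (1 / (4 * t))⁻¹ = 4 * t := by rw [one_div, inv_inv]
      have e2 : (1 / t)⁻¹ = t := by rw [one_div, inv_inv]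
      have e3 : (8 / 3 * t * Real.log M) * (1 / t - 1 / (4 * t)) = 2 * Real.log M := by
        field_simp
        norm_num
      rw [e1, e2, e3]
      have h3 : Real.log (M⁻¹ * omt N b (4 * t)) < Real.log (omt N b t) :=
        Real.log_lt_log (by positivity) hcase
      rw [Real.log_mul (by positivity) p4.ne', Real.log_inv] at h3
      linarith
    obtain ⟨s, hs1, hs2, hs3⟩ := dini hab hanti hdrop
    obtain ⟨hs0, -⟩ := hflp s hs1
    have hts1 : t ≤ s⁻¹ := by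
      rw [le_inv_comm₀ ht hs0]
      rw [one_div] at hs2
      exact hs2.le
    have hts2 : s⁻¹ ≤ 4 * t := by
      rw [inv_le_comm₀ hs0 (by positivity)]
      rwa [one_div] at hs1
    have hts0 : 0 < s⁻¹ := by positivity
    have hkap : kap N l s⁻¹ β r lam J ≤ κ := (kap_mono hts0.le hts2 hβ.le hlam.le).trans hκ
    have hlim := zb_lim (N := N) (l := l) hb hl (t := s⁻¹) (τ1 := τ1) (β := β) (r := r) (η := η)
      (p1 := p1) (p2 := p2) (c := 8 / 3 * t * Real.log M) (a := a) (lam := lam) (J := J) hts0 hτ1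
      (h1.trans_le hts1) (H _ hts1 hts2) hr1 hβ (by positivity) hlam
      (fun r hr hr' => hpos r hr (hr'.trans hts2))
      (fun δ0 hδ0 => by
        rw [inv_inv]
        obtain ⟨δ, hδ1, hδ2, -, hδ3⟩ := hs3 δ0 hδ0
        exact ⟨δ, hδ1, hδ2, hδ3⟩)
      (hkap.trans hκ1) ha (by
        have h3 := pow_le_pow_left₀ (kap_nonneg N l s⁻¹ β r lam J) hkap 2
        refine le_trans ?_ haE
        have e : 16 * (8 / 3 * t * Real.log M) * β = 128 / 3 * t * Real.log M * β := by ring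
        rw [e]
        linarith)
    have hfine := hU N s⁻¹ hts0 (by
      have : t * (N : ℝ) ^ 2 ≤ s⁻¹ * (N : ℝ) ^ 2 := mul_le_mul_of_nonneg_right hts1 (by positivity)
      linarith) l hl (by
      have : s⁻¹ * (l : ℝ) ^ 2 ≤ 4 * t * (l : ℝ) ^ 2 :=
        mul_le_mul_of_nonneg_right hts2 (by positivity)
      linarith) (0 : V N) (H963.cq 1 0) (fun h => Real.abs_cos_le_one _)
    have hfine2 := zb_fine (C := C) (c := c) (t := t) (ts := s⁻¹) (Nr := (N : ℝ)) (lr := (l : ℝ))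
      hC.le hc.le ht.le hts0.le hts2
    have h6 := omt_mono (N := N) hb.le hts0 hts2
    have h7 := (abs_le.1 hfine).2
    have h8 : omt N b s⁻¹ * (4 * η + 2 * a + 6 * kap N l s⁻¹ β r lam J + 2 * p1 +
        2 * (p2 + 1 / lam)) ≤ omt N b (4 * t) * E := by
      have h9 : 4 * η + 2 * a + 6 * kap N l s⁻¹ β r lam J + 2 * p1 + 2 * (p2 + 1 / lam) ≤ E :=
        zb_aux1 hkap
      have h10 : 0 ≤ 4 * η + 2 * a + 6 * kap N l s⁻¹ β r lam J + 2 * p1 + 2 * (p2 + 1 / lam) :=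
        zb_aux2 hη ha.le (kap_nonneg N l s⁻¹ β r lam J) hp1 hp2 hlam
      exact mul_le_mul h6 h9 h10 p4.le
    have h11 : 0 ≤ omt N b (4 * t) * M⁻¹ := mul_nonneg p4.le (inv_nonneg.2 hM0.le)
    have h12 : omt N b (4 * t) * (M⁻¹ + E) = omt N b (4 * t) * M⁻¹ + omt N b (4 * t) * E := by ring
    refine ⟨s⁻¹, hts1, hts2, ?_⟩
    rw [h12]
    exact zb_aux3 le_rfl hlim h7 hfine2 h8 h11

end

end Vale.Agent.P159.H316
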