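import Vale.Agent.P159.H316.St1

/-!
P159 (helper316), CRK part 1: numbers of the second harmonic at the mass `16 tn m`.
-/

set_option linter.unusedSectionVars false

namespace Vale.Agent.P159.H316

open Filter Topology
open Vale.Agent.P159.H972 (Par lg)
open Vale.Agent.P159.H37 (small_rpow lg_lo lg_hi)

noncomputable section

/-- `A e ^ s <= B` -/
lemma pw_small {s : ℝ} (hs : 0 < s) (A : ℝ) {B : ℝ} (hB : 0 < B) :
    ∃ E, 0 < E ∧ ∀ e : ℝ, 0 < e → e ≤ E → A * e ^ s ≤ B := by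
  obtain ⟨E, hE, h⟩ := small_rpow (s := s) (A := |A|) hs hB
  refine ⟨E, hE, fun e he hle => ?_⟩
  have := h e he hle
  exact (mul_le_mul_of_nonneg_right (le_abs_self A) (Real.rpow_nonneg he.le _)).trans this

/-- `exp (- e^(-th/128)) <= e exp (- e^(-c1))` -/
lemma exp_two {th c1 : ℝ} (hth : 0 < th) (hc : c1 ≤ th / 256) : ∃ E, 0 < E ∧ ∀ e : ℝ, 0 < e →
    e ≤ E → Real.exp (-(e ^ (-(th / 128)))) ≤ e * Real.exp (-(e ^ (-c1))) := by
  obtain ⟨E1, hE1, h1⟩ := exp_small (c := 1) (th := th / 256) one_pos (by positivity) 1 1 one_pos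
  obtain ⟨E2, hE2, h2⟩ := pw_small (s := th / 256) (by positivity) 2 one_pos
  refine ⟨min (min E1 E2) 1, by positivity, fun e he hle => ?_⟩
  have g1 := h1 e he (hle.trans ((min_le_left _ _).trans (min_le_left _ _)))
  have g2 := h2 e he (hle.trans ((min_le_left _ _).trans (min_le_right _ _)))
  have he1 : e ≤ 1 := hle.trans (min_le_right _ _)
  rw [one_mul, one_mul, one_mul, Real.rpow_one] at g1
  set x : ℝ := e ^ (-(th / 256)) with hx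
  have hx0 : 0 < x := Real.rpow_pos_of_pos he _
  have hx2 : 2 ≤ x := by
    have h3 := mul_le_mul_of_nonneg_right g2 hx0.le
    rw [mul_assoc, hx, ← Real.rpow_add he, add_neg_cancel, Real.rpow_zero, mul_one, one_mul] at h3
    exact h3
  have e1 : e ^ (-(th / 128)) = x * x := by
    rw [hx, ← Real.rpow_add he]
    congr 1
    ring
  have e2 : e ^ (-c1) ≤ x := Real.rpow_le_rpow_of_exponent_ge he he1 (by linarith)
  rw [e1]
  have h3 : Real.exp (-(x * x)) ≤ Real.exp (-x) * Real.exp (-x) := by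
    rw [← Real.exp_add]
    exact Real.exp_le_exp.2 (by nlinarith)
  refine h3.trans ?_
  have h4 : Real.exp (-x) ≤ Real.exp (-(e ^ (-c1))) := Real.exp_le_exp.2 (by linarith)
  exact mul_le_mul g1 h4 (Real.exp_pos _).le he.le

/-- the core, abstract numbers: `q = 2 ^ (-d/2)`, `p = 2 ^ d`, `G1 = e ^ (-th/4)`, `G2 = e ^ (1/21)` -/
lemma core16 {p q κ u Y C G1 G2 H5 U T4 Z y : ℝ} (hp0 : 0 < p) (hq0 : 0 < q) (hqp : q ^ 2 * p = 1)
    (hκ0 : 0 ≤ κ) (hu : u = p * κ) (hY0 : 0 ≤ Y) (hG1 : 0 < G1) (hG2 : 0 < G2)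
    (hκ4 : G1 * κ ^ 4 ≤ 256 * H5) (hH5 : 1 ≤ H5) (hU : u ^ 2 ≤ U) (hA : 4 * (U * Y) ≤ 1)
    (h2 : 4 * (U ^ 2 * G2) ≤ q) (h3 : 8 * (U ^ 2 * Y) ≤ q) (hC : C ≤ u ^ 2 * (2 * Y))
    (h4 : T4 ≤ Z * y) :
    u ^ 2 * ((G1 * q ^ 9 + G2) * (C + 2 * (2 * (u ^ 2 * Y)) ^ 2)) +
      (2 * (2 * (u ^ 2 * Y)) ^ 2 + T4) ≤ 4096 * (H5 * q * Y) + Z * y := by
  have hu20 : 0 ≤ u ^ 2 := sq_nonneg u
  have hU0 : 0 ≤ U := hu20.trans hU
  have hA' : 4 * (u ^ 2 * Y) ≤ 1 := by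
    have := mul_le_mul_of_nonneg_right hU hY0
    linarith
  have hu4 : u ^ 4 ≤ U ^ 2 := by
    have : u ^ 4 = (u ^ 2) ^ 2 := by ring
    rw [this]
    exact pow_le_pow_left₀ hu20 hU 2
  have b1 : C + 2 * (2 * (u ^ 2 * Y)) ^ 2 ≤ 4 * (u ^ 2 * Y) := by
    have a1 : 0 ≤ u ^ 2 * Y := mul_nonneg hu20 hY0
    nlinarith
  have G0 : 0 ≤ G1 * q ^ 9 + G2 := by positivity
  have b2 : u ^ 2 * ((G1 * q ^ 9 + G2) * (C + 2 * (2 * (u ^ 2 * Y)) ^ 2)) ≤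
      4 * (u ^ 4 * (G1 * q ^ 9) * Y) + 4 * (u ^ 4 * G2 * Y) := by
    have a1 := mul_le_mul_of_nonneg_left (mul_le_mul_of_nonneg_left b1 G0) hu20
    refine a1.trans (le_of_eq ?_)
    ring
  have t1 : u ^ 4 * (G1 * q ^ 9) * Y ≤ 256 * (H5 * q * Y) := by
    have a1 : u ^ 4 * (G1 * q ^ 9) * Y = G1 * κ ^ 4 * (q * Y) * (q ^ 2 * p) ^ 4 := by
      rw [hu]
      ring
    rw [a1, hqp, one_pow, mul_one]
    have a2 := mul_le_mul_of_nonneg_right hκ4 (mul_nonneg hq0.le hY0)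
    linarith
  have t5 : q * Y ≤ H5 * q * Y := by
    have a2 : 0 ≤ q * Y := mul_nonneg hq0.le hY0
    nlinarith
  have t2' : 4 * (u ^ 4 * G2 * Y) ≤ q * Y := by
    have a1 := mul_le_mul_of_nonneg_right hu4 hG2.le
    have a2 := mul_le_mul_of_nonneg_right (a1.trans (by linarith : U ^ 2 * G2 ≤ q / 4)) hY0
    linarith
  have t3 : 2 * (2 * (u ^ 2 * Y)) ^ 2 ≤ q * Y := by
    have a0 : 2 * (2 * (u ^ 2 * Y)) ^ 2 = 8 * (u ^ 4 * Y) * Y := by ring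
    rw [a0]
    refine mul_le_mul_of_nonneg_right ?_ hY0
    have a1 := mul_le_mul_of_nonneg_right hu4 hY0
    linarith
  have t6 : 0 ≤ H5 * q * Y := by
    have : 0 ≤ H5 := by linarith
    positivity
  linarith

lemma half_pow (d : ℕ) : 0 < (2 : ℝ) ^ (-((d : ℝ) / 2)) ∧
    ((2 : ℝ) ^ (-((d : ℝ) / 2))) ^ 2 * 2 ^ d = 1 ∧
    (2 : ℝ) ^ (-(9 / 2 * (d : ℝ))) = ((2 : ℝ) ^ (-((d : ℝ) / 2))) ^ 9 := by
  refine ⟨Real.rpow_pos_of_pos two_pos _, ?_, ?_⟩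
  · rw [← Real.rpow_natCast 2 d, ← Real.rpow_natCast _ 2, ← Real.rpow_mul (by norm_num),
      ← Real.rpow_add (by norm_num)]
    have : -((d : ℝ) / 2) * ((2 : ℕ) : ℝ) + (d : ℝ) = 0 := by push_cast; ring
    rw [this, Real.rpow_zero]
  · rw [← Real.rpow_natCast _ 9, ← Real.rpow_mul (by norm_num)]
    congr 1
    push_cast
    ring

/-- the window in powers of `e` -/
lemma win_pow {thp e : ℝ} (hthp : 0 ≤ thp) (he : 0 < e) (he1 : e ≤ 1) {d : ℕ}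
    (hd : d ≤ 4 * lg thp e) : (2 : ℝ) ^ d ≤ 16 * e ^ (-(4 * thp)) ∧
    e ^ (2 * thp) ≤ 4 * (2 : ℝ) ^ (-((d : ℝ) / 2)) := by
  have R : ∀ a b : ℝ, e ^ a * e ^ b = e ^ (a + b) := fun a b => (Real.rpow_add he a b).symm
  have P0 : ∀ a : ℝ, 0 < e ^ a := fun a => Real.rpow_pos_of_pos he a
  have hp1 : (2 : ℝ) ^ d ≤ 16 * e ^ (-(4 * thp)) := by
    have a1 : (2 : ℝ) ^ d ≤ 2 ^ (4 * lg thp e) := pow_le_pow_right₀ (by norm_num) hd
    have a2 : (2 : ℝ) ^ (4 * lg thp e) = (2 ^ lg thp e) ^ 4 := by rw [← pow_mul, mul_comm]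
    have a3 : (2 : ℝ) ^ lg thp e ≤ 2 * e ^ (-thp) := lg_hi hthp he he1
    have a4 : ((2 : ℝ) ^ lg thp e) ^ 4 ≤ (2 * e ^ (-thp)) ^ 4 :=
      pow_le_pow_left₀ (by positivity) a3 4
    have a5 : (2 * e ^ (-thp)) ^ 4 = 16 * e ^ (-(4 * thp)) := by
      rw [mul_pow, ← Real.rpow_natCast (e ^ (-thp)), ← Real.rpow_mul he.le]
      norm_num
      ring_nf
    rw [a2] at a1
    rw [← a5]
    exact a1.trans a4
  refine ⟨hp1, ?_⟩
  obtain ⟨hq0, hqp, -⟩ := half_pow d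
  obtain ⟨q, hq⟩ : ∃ q : ℝ, q = (2 : ℝ) ^ (-((d : ℝ) / 2)) := ⟨_, rfl⟩
  rw [← hq] at hq0 hqp ⊢
  have a1 : e ^ (4 * thp) ≤ 16 * q ^ 2 := by
    have a2 := mul_le_mul_of_nonneg_left hp1 (P0 (4 * thp)).le
    have a3 : e ^ (4 * thp) * (16 * e ^ (-(4 * thp))) = 16 := by
      have := R (4 * thp) (-(4 * thp))
      rw [add_neg_cancel, Real.rpow_zero] at this
      linear_combination 16 * this
    rw [a3] at a2
    have a4 := mul_le_mul_of_nonneg_left a2 (sq_nonneg q)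
    have a5 : q ^ 2 * (e ^ (4 * thp) * 2 ^ d) = e ^ (4 * thp) * (q ^ 2 * 2 ^ d) := by ring
    rw [a5, hqp, mul_one] at a4
    linarith
  have a5 : (e ^ (2 * thp)) ^ 2 ≤ (4 * q) ^ 2 := by
    have : (e ^ (2 * thp)) ^ 2 = e ^ (4 * thp) := by
      rw [pow_two, R]
      congr 1
      ring
    rw [this]
    linarith
  exact (pow_le_pow_iff_left₀ (P0 _).le (by positivity) two_ne_zero).1 a5

/-- the numbers of the second harmonic in the window -/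
theorem num16 {th thp c1 : ℝ} (hth : 0 < th) (h1000 : 1000 * th ≤ thp) (hthp : thp ≤ 1 / 4000)
    (hc : c1 ≤ th / 256) : ∃ E0 : ℝ, 0 < E0 ∧ ∀ (e : ℝ), 0 < e → e ≤ E0 →
    ∀ (d : ℕ) (κ u Y y C : ℝ), d ≤ 4 * lg thp e → 0 ≤ κ → κ ≤ 4 * e ^ (-th) →
      u = 2 ^ d * κ → 0 ≤ Y → Y ≤ e ^ (-(thp / 20)) * y → y ≤ e ^ (20 / 39 : ℝ) →
      Real.exp (-(e ^ (-c1))) ≤ y →
      4 * (u ^ 2 * Y) ≤ 1 ∧
      (C ≤ u ^ 2 * (2 * Y) →
      u ^ 2 * ((e ^ (-(th / 4)) * (2 : ℝ) ^ (-(9 / 2 * (d : ℝ))) + e ^ (1 / 21 : ℝ)) *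
        (C + 2 * (2 * (u ^ 2 * Y)) ^ 2)) +
        (2 * (2 * (u ^ 2 * Y)) ^ 2 + Real.exp (-(e ^ (-(th / 128))))) ≤
      4096 * (e ^ (-(5 * th)) * (2 : ℝ) ^ (-((d : ℝ) / 2)) * Y) + e * y) := by
  have hthp0 : 0 < thp := by linarith
  obtain ⟨E1, hE1, h1⟩ := pw_small (s := 20 / 39 - thp / 20 - 8 * thp - 2 * th) (by linarith)
    16384 one_pos
  obtain ⟨E2, hE2, h2⟩ := pw_small (s := 1 / 21 - 18 * thp - 4 * th) (by linarith)
    (4 * (4 * 4096 * 4096)) one_pos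
  obtain ⟨E3, hE3, h3⟩ := pw_small (s := 20 / 39 - thp / 20 - 18 * thp - 4 * th) (by linarith)
    (4 * (8 * 4096 * 4096)) one_pos
  obtain ⟨E4, hE4, h4⟩ := exp_two (c1 := c1) hth hc
  refine ⟨min (min (min E1 E2) (min E3 E4)) 1, by positivity, fun e he hle => ?_⟩
  have g1 := h1 e he (hle.trans ((min_le_left _ _).trans ((min_le_left _ _).trans
    (min_le_left _ _))))
  have g2 := h2 e he (hle.trans ((min_le_left _ _).trans ((min_le_left _ _).trans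
    (min_le_right _ _))))
  have g3 := h3 e he (hle.trans ((min_le_left _ _).trans ((min_le_right _ _).trans
    (min_le_left _ _))))
  have g4 := h4 e he (hle.trans ((min_le_left _ _).trans ((min_le_right _ _).trans
    (min_le_right _ _))))
  have he1 : e ≤ 1 := hle.trans (min_le_right _ _)
  intro d κ u Y y C hd hκ0 hκ hu hY0 hY hy hyL
  have hy0 : 0 < y := (Real.exp_pos _).trans_le hyL
  have R : ∀ a b : ℝ, e ^ a * e ^ b = e ^ (a + b) := fun a b => (Real.rpow_add he a b).symm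
  have P0 : ∀ a : ℝ, 0 < e ^ a := fun a => Real.rpow_pos_of_pos he a
  obtain ⟨hp1, hqlow⟩ := win_pow hthp0.le he he1 hd
  obtain ⟨hq0, hqp, hq9⟩ := half_pow d
  have hu0 : 0 ≤ u := by rw [hu]; positivity
  obtain ⟨U, hUd⟩ : ∃ U : ℝ, U = 4096 * e ^ (-(8 * thp + 2 * th)) := ⟨_, rfl⟩
  have hu2 : u ^ 2 ≤ U := by
    have a1 : u ≤ 16 * e ^ (-(4 * thp)) * (4 * e ^ (-th)) := by
      rw [hu]
      exact mul_le_mul hp1 hκ hκ0 (by have := P0 (-(4 * thp)); positivity)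
    have a2 : 16 * e ^ (-(4 * thp)) * (4 * e ^ (-th)) = 64 * e ^ (-(4 * thp + th)) := by
      have := R (-(4 * thp)) (-th)
      rw [show -(4 * thp + th) = -(4 * thp) + -th by ring, ← this]
      ring
    rw [a2] at a1
    refine (pow_le_pow_left₀ hu0 a1 2).trans (le_of_eq ?_)
    rw [hUd, mul_pow, pow_two (e ^ _), R]
    norm_num
    ring_nf
  have hU2 : U ^ 2 = 4096 * 4096 * e ^ (-(16 * thp + 4 * th)) := by
    rw [hUd, mul_pow, pow_two (e ^ _), R]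
    norm_num
    ring_nf
  have hYb : Y ≤ e ^ (20 / 39 - thp / 20) := by
    refine hY.trans ((mul_le_mul_of_nonneg_left hy (P0 _).le).trans (le_of_eq ?_))
    rw [R]
    congr 1
    ring
  have hA : 4 * (U * Y) ≤ 1 := by
    have a1 : U * Y ≤ U * e ^ (20 / 39 - thp / 20) :=
      mul_le_mul_of_nonneg_left hYb ((sq_nonneg u).trans hu2)
    have a2 : U * e ^ (20 / 39 - thp / 20) = 4096 * e ^ (20 / 39 - thp / 20 - 8 * thp - 2 * th) := by
      rw [hUd, mul_assoc, R]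
      congr 2
      ring
    rw [a2] at a1
    linarith
  refine ⟨le_trans (mul_le_mul_of_nonneg_left (mul_le_mul_of_nonneg_right hu2 hY0) (by norm_num))
    hA, fun hC => ?_⟩
  have hκ4 : e ^ (-(th / 4)) * κ ^ 4 ≤ 256 * e ^ (-(5 * th)) := by
    have a1 : κ ^ 4 ≤ 256 * e ^ (-(4 * th)) := by
      refine (pow_le_pow_left₀ hκ0 hκ 4).trans (le_of_eq ?_)
      rw [mul_pow, ← Real.rpow_natCast (e ^ (-th)), ← Real.rpow_mul he.le]
      norm_num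
      ring_nf
    have a2 := mul_le_mul_of_nonneg_left a1 (P0 (-(th / 4))).le
    have a3 := R (-(th / 4)) (-(4 * th))
    have a5 : e ^ (-(th / 4) + -(4 * th)) ≤ e ^ (-(5 * th)) :=
      Real.rpow_le_rpow_of_exponent_ge he he1 (by linarith)
    rw [← a3] at a5
    linarith
  rw [hq9]
  obtain ⟨q, hq⟩ : ∃ q : ℝ, q = (2 : ℝ) ^ (-((d : ℝ) / 2)) := ⟨_, rfl⟩
  rw [← hq] at hq0 hqp hqlow ⊢
  refine core16 (U := U) (by positivity : (0 : ℝ) < 2 ^ d) hq0 hqp hκ0 hu hY0 (P0 _) (P0 _) hκ4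
    (Real.one_le_rpow_of_pos_of_le_one_of_nonpos he he1 (by linarith)) hu2 hA ?_ ?_ hC
    (g4.trans (mul_le_mul_of_nonneg_left hyL he.le))
  · rw [hU2]
    have a2 : 4096 * 4096 * e ^ (-(16 * thp + 4 * th)) * e ^ (1 / 21 : ℝ) =
        4096 * 4096 * (e ^ (1 / 21 - 18 * thp - 4 * th) * e ^ (2 * thp)) := by
      rw [mul_assoc, R, R]
      congr 2
      ring
    rw [a2]
    have a3 := mul_le_mul_of_nonneg_right g2 (P0 (2 * thp)).le
    linarith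
  · have a1 : U ^ 2 * Y ≤ U ^ 2 * e ^ (20 / 39 - thp / 20) :=
      mul_le_mul_of_nonneg_left hYb (sq_nonneg U)
    have a2 : U ^ 2 * e ^ (20 / 39 - thp / 20) =
        4096 * 4096 * (e ^ (20 / 39 - thp / 20 - 18 * thp - 4 * th) * e ^ (2 * thp)) := by
      rw [hU2, mul_assoc, R, R]
      congr 2
      ring
    rw [a2] at a1
    have a3 := mul_le_mul_of_nonneg_right g3 (P0 (2 * thp)).le
    linarith

end

end Vale.Agent.P159.H316
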