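import Vale.Agent.P159.H316.Sti2
import Vale.Agent.P159.H972.Upz2
import Vale.Agent.P159.H889.Vdef

/-!
P159 (helper316): the V half of the master from the family of `VStep` and the family of the start.
-/

set_option linter.unusedSectionVars false

namespace Vale.Agent.P159.H316

open Filter Topology
open Vale.Agent.P159.H972 (Par Good YBn FL StepP' StartP tn)
open Vale.Agent.P159.H801 (Ev FLC Start5 MS PIn VStep)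
open Vale.Agent.P159.H889 (EvC VSs VF)
open Vale.Agent.P159.H43 (CHB)

noncomputable section

/-- the upper bound of the activities (helper972) -/
def UPq (P : Par) (b C1 c1 A1 : ℝ) (u : ℕ → ℝ) : Prop :=
  ∀ m e z, 0 < e → e ≤ P.es → Good P b m e → (∃ s ζ, VSs P b C1 A1 (1 / (8 * C1)) m e z s ζ) →
    z ^ (39 / 20 : ℝ) ≤ e → Real.log (1 / z) ≤ e ^ (-(2 * c1)) → z ≤ u m

/-- family of `VStep` -/
def FVS (b A1 : ℝ) (P : Par) (c1 C1 : ℝ) : Prop :=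
  ∀ a : ℕ → ℝ, FLC P b a → Tendsto a atTop (𝓝 (Real.pi / 2)) → ∀ u : ℕ → ℝ,
    UPq P b C1 c1 A1 u → ∀ᶠ N0 in atTop,
      VStep P b (VF P b C1 A1 (1 / (8 * C1))) u a (P.x1 / 100) (1 / 20) (17 / 20) c1 N0

/-- the V half at one parameter -/
def VHq (K b : ℝ) (P : Par) (c1 : ℝ) : Prop :=
  ∀ a : ℕ → ℝ, FLC P b a → Tendsto a atTop (𝓝 (Real.pi / 2)) → ∃ VS u,
    (∃ C1 A1 dl : ℝ, P.C0 ≤ C1 ∧ C1 ≤ K * P.C0 ∧ ∀ n ε z, VS n ε z → ∃ (s : ℕ) (ζ : ℂ),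
      VSs P b C1 A1 dl n ε z s ζ ∧ CHB P b n ε (z ^ (2 - P.x1 / 50) + z * ε ^ (2 : ℝ))) ∧
    Tendsto u atTop (𝓝 0) ∧
    (∀ᶠ N in atTop, VStep P b VS u a (P.x1 / 100) (1 / 20) (17 / 20) c1 N) ∧
    Start5 (MS (Good P b) (YBn P b) VS u (P.x1 / 100)) (1 / 20) c1

/-- at one parameter -/
lemma vhq_at {P : Par} {b K C1 c1 A1 : ℝ} (hc1 : 0 < c1) (hC2 : P.C0 ≤ C1) (hC3 : C1 ≤ K * P.C0)
    (hUP : ∀ a : ℕ → ℝ, FLC P b a → Tendsto a atTop (𝓝 (Real.pi / 2)) →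
      ∃ u : ℕ → ℝ, Tendsto u atTop (𝓝 0) ∧ UPq P b C1 c1 A1 u)
    (hV : FVS b A1 P c1 C1) (hS : STG b A1 P c1 C1) : VHq K b P c1 := by
  intro a hfl ha
  obtain ⟨u, hu, hUq⟩ := hUP a hfl ha
  refine ⟨VF P b C1 A1 (1 / (8 * C1)), u, ⟨C1, A1, 1 / (8 * C1), hC2, hC3, ?_⟩, hu,
    hV a hfl ha u hUq, hS a _ u hfl ha ?_ ?_⟩
  · rintro n ε z ⟨⟨s, ζ, h⟩, h2, -⟩
    exact ⟨s, ζ, h, h2⟩
  · intro n e ζ hF
    obtain ⟨s, hs⟩ := hF.vs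
    exact ⟨⟨s, ζ, hs⟩, hF.chb, hF.zu⟩
  · filter_upwards with N0 n e ζ _ he hes hF
    obtain ⟨s, hs⟩ := hF.vs
    have he1 : e ≤ 1 := hes.trans (P.es1.trans (by norm_num))
    have h1 : ‖ζ‖ ≤ u n := hUq n e ‖ζ‖ he hes hF.G ⟨s, ζ, hs⟩ hF.zu
      (hF.zl.trans (Real.rpow_le_rpow_of_exponent_ge he he1 (by linarith)))
    have h2 : 0 ≤ u n := (norm_nonneg ζ).trans h1
    have h3 : 1 ≤ e ^ (-(P.x1 / 100)) :=
      Real.one_le_rpow_of_pos_of_le_one_of_nonpos he he1 (by have := P.x10; linarith)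
    nlinarith

/-- `24 ≤ P.C0` -/
theorem ev_C0 (b1 b2 pf : ℝ) (Q : ℕ) (A : ℝ) : Ev b1 b2 pf Q fun P _ => A ≤ P.C0 :=
  Ev.of ⟨0, fun _ _ => ⟨1, one_pos, fun _ _ _ => ⟨0, fun _ _ => ⟨1, one_pos, fun _ _ _ =>
    ⟨1, one_pos, fun _ _ _ => ⟨1, one_pos, fun _ _ _ => ⟨A, fun _ h => ⟨1, one_pos, fun _ _ _ =>
    ⟨1, one_pos, fun P hP => by rw [hP.eC0]; exact h⟩⟩⟩⟩⟩⟩⟩⟩⟩

/-- **THE V HALF** from the family of `VStep` and the family of the start -/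
theorem vhalf_of {b b1 b2 K A1 : ℝ} {Q : ℕ} (hb1 : 0 < b1) (h1 : b1 ≤ b) (h2 : b ≤ b2)
    (hel : helicity b = 2 / Real.pi) (hK : 1 ≤ K) (hV : EvC b1 b2 (9 / 10) Q K (FVS b A1))
    (hS : EvC b1 b2 (9 / 10) Q K fun P c1 C1 => 24 ≤ C1 → STG b A1 P c1 C1) :
    Ev b1 b2 (9 / 10) Q (VHq K b) := by
  have hU : EvC b1 b2 (9 / 10) Q K fun P c1 C1 => ∀ a : ℕ → ℝ, FLC P b a →
      Tendsto a atTop (𝓝 (Real.pi / 2)) → ∃ u : ℕ → ℝ, Tendsto u atTop (𝓝 0) ∧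
        UPq P b C1 c1 A1 u := H972.Up.up_fam hb1 h1 h2 hel A1
  have hall := ((ev_C0 b1 b2 (9 / 10) Q 24).and (ev_c1 b1 b2 (9 / 10) Q)).and
    (show Ev b1 b2 (9 / 10) Q _ from EvC.and hU (EvC.and hV hS))
  refine hall.mono fun P c1 _ h => ?_
  obtain ⟨⟨hC, hc1⟩, h⟩ := h
  obtain ⟨g1, g2, g3⟩ := h P.C0 (by linarith) le_rfl (by have := P.C00; nlinarith)
  exact vhq_at hc1 le_rfl (by have := P.C00; nlinarith) g1 g2 (g3 hC)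

end

end Vale.Agent.P159.H316
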