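import Vale.Agent.P159.H37.Rxg
import Vale.Agent.P159.H972.StepG

/-!
P159 (helper316), persistence of the zero background numbers, part 1: the integrality effect on all
tori of side at least `K(e) ξ` from ONE torus of side `K(ε) ξ` (helper37's `rng_family`).
-/

set_option linter.unusedSectionVars false

namespace Vale.Agent.P159.H316

open Filter Topology
open Vale.Agent.P159.TM
open Vale.Agent.P159.TM.Spec (V GT Rng ThmA)
open Vale.Agent.P159.TM.H764 (EE Gh pw Hyp)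
open Vale.Agent.P159.H963 (Gnh Pin)
open Vale.Agent.P159.H864 (yt)
open Vale.Agent.P159.H972 (Par lg tn RNG FL)
open Vale.Agent.P159.H37 (Pik small_rpow lg_lo lg_hi rng_family Prof Pik_zero_le)

noncomputable section

lemma tn_pos' (n : ℕ) : 0 < tn n := by unfold tn; positivity

lemma tn_inv (n : ℕ) : tn n = 1 / ((2 ^ n : ℕ) : ℝ) ^ 2 := by
  unfold tn
  push_cast
  rw [← pow_mul, mul_comm n 2, pow_mul, one_div]
  norm_num

/-- the integrality effect from the range -/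
lemma yt_of_rng {b1 b2 a W ys : ℝ} {X N : ℕ} [NeZero N] {b : ℝ} {j : ℕ} {y : ℝ}
    (h : Rng b1 b2 a W ys X N b (2 ^ j) y) : yt N b (tn j) ≤ y := by
  have h1 : (1 - y) * ((2 ^ j : ℕ) : ℝ) ^ 2 - a * ((2 ^ j : ℕ) : ℝ) ^ 4 *
      EE (0 : ZMod N × ZMod N) ≤ Gh (TM.H41.G b N ((2 ^ j : ℕ) : ℝ)) 0 := h.hyp.qu.qk 0
  rw [H764.EE_zero, mul_zero, sub_zero] at h1
  have hξ : (0 : ℝ) < ((2 ^ j : ℕ) : ℝ) := by positivity
  rw [← H864.Ght_eq_Gh hξ 0, ← tn_inv] at h1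
  have h2 : tn j * ((2 ^ j : ℕ) : ℝ) ^ 2 = 1 := by
    rw [tn_inv]
    field_simp
  have h3 := mul_le_mul_of_nonneg_left h1 (tn_pos' j).le
  have h4 : tn j * ((1 - y) * ((2 ^ j : ℕ) : ℝ) ^ 2) =
      (1 - y) * (tn j * ((2 ^ j : ℕ) : ℝ) ^ 2) := by ring
  rw [h4, h2] at h3
  unfold yt
  linarith

/-- the profile of one torus at the natural mass of level `j` -/
lemma prof_of_fl {W : ℝ} {b a η y : ℝ} {j k : ℕ} (hb : 0 < b) (hη0 : 0 ≤ η)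
    (hηW : η * (2 * W ^ 2 + 2) ≤ 1 / 10) (ha1 : 11 / 10 ≤ a) (ha2 : a ≤ 19 / 10)
    (hFL : FL b (tn j) a η (2 ^ (j + k))) (hy0 : 0 < y) (hy1 : y ≤ 1 / 2)
    (hyt : yt (2 ^ (j + k)) b (tn j) ≤ y) :
    Prof (2 ^ (j + k)) b (2 ^ k) (2 ^ j) W (tn j) 1 (2 * y) η (a + η * (2 * W ^ 2 + 2)) := by
  have hxi : ((2 ^ j : ℕ) : ℝ) ^ 2 = 4 ^ j := by
    push_cast
    rw [← pow_mul, mul_comm, pow_mul]
    norm_num
  refine ⟨by rw [← pow_add]; congr 1; omega, (tn_inv j).ge, by rw [one_mul]; exact (tn_inv j).le,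
    by positivity, hη0, ?_, ?_, ?_, ?_⟩
  · have : 0 ≤ η * (2 * W ^ 2 + 2) := by positivity
    linarith
  · linarith
  · refine (Pik_zero_le hb (tn_pos' j) hyt hy1).trans (le_of_eq ?_)
    rw [tn_inv]
    ring
  · intro k' hk' hEk
    obtain ⟨z, a', hz0, hz, ha', hF⟩ := hFL
    have h1 := (abs_le.1 (hF k' hk')).2
    have hE0 : 0 ≤ EE k' := H764.EE_nonneg k'
    have h2 : z ≤ η * (1 / ((2 ^ j : ℕ) : ℝ) ^ 2) := by
      rw [hxi]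
      have h3 : (4 : ℝ) ^ j ≤ ((2 ^ (j + k) : ℕ) : ℝ) ^ 2 := by
        push_cast
        rw [← pow_mul, mul_comm, pow_mul]
        norm_num
        exact pow_le_pow_right₀ (by norm_num) (by omega)
      have h4 : z * 4 ^ j ≤ η := le_trans (mul_le_mul_of_nonneg_left h3 hz0) hz
      rw [mul_one_div, le_div_iff₀ (by positivity)]
      exact h4
    rw [hxi] at hEk
    have h5 : η * EE k' ^ 2 / tn j ≤ η * (2 * W ^ 2 + 1) * EE k' := by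
      unfold tn
      rw [div_inv_eq_mul]
      calc η * EE k' ^ 2 * 4 ^ j = η * EE k' * (EE k' * 4 ^ j) := by ring
        _ ≤ η * EE k' * (2 * W ^ 2 + 1) := by gcongr
        _ = η * (2 * W ^ 2 + 1) * EE k' := by ring
    have h7 : a' * EE k' ≤ (a + η) * EE k' := by
      apply mul_le_mul_of_nonneg_right _ hE0
      have := (abs_le.1 ha').2
      linarith
    calc Pin (2 ^ (j + k)) b (tn j) k' ≤ z + a' * EE k' + η * EE k' ^ 2 / tn j := by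
          linarith
      _ ≤ η * (1 / ((2 ^ j : ℕ) : ℝ) ^ 2) + (a + η) * EE k' + η * (2 * W ^ 2 + 1) * EE k' := by
          linarith
      _ = η * (1 / ((2 ^ j : ℕ) : ℝ) ^ 2) + (a + η * (2 * W ^ 2 + 2)) * EE k' := by ring

/-- the small numbers of `yt_core` -/
lemma core_num {c C es1 th : ℝ} (hc : 0 < c) (hC : 0 < C) (hes1 : 0 < es1) (hth : 0 < th)
    (hth1 : th ≤ 1 / 32) (W : ℝ) (X : ℕ) :
    ∃ es : ℝ, 0 < es ∧ es ≤ 1 / 4 ∧ ∀ (ε y η : ℝ) (k i : ℕ), 0 < ε → ε ≤ es →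
      k ≤ lg th ε + 1 → 0 ≤ η → η ≤ ε ^ (1 / 4 : ℝ) → 0 < y → y ≤ 4 * ε ^ (1 / 4 : ℝ) →
      lg th es ≤ i → i ≤ k →
      y ≤ 1 / 2 ∧ η * (2 * W ^ 2 + 2) ≤ 1 / 10 ∧ X ≤ 2 ^ i ∧
      Real.exp (-(c * 2 ^ i)) ≤ es1 ∧
      2 * y + η + C * (1 * ((2 : ℝ) ^ k * √(2 * y))) ≤ ε ^ (1 / 16 : ℝ) ∧
      ε ^ (1 / 16 : ℝ) ≤ es1 ∧ (2 : ℝ) ^ k * (ε ^ (1 / 16 : ℝ)) ^ 5 ≤ 1 ∧
      (2 : ℝ) ^ i * (2 * y) ≤ c ∧ 2 * C * (y + Real.exp (-(c * 2 ^ i))) ≤ 1 / 2 := by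
  obtain ⟨e1, he1, h1⟩ := small_rpow (s := 1 / 16) (A := 1) (by norm_num) hes1
  obtain ⟨e2, he2, h2⟩ := small_rpow (s := 1 / 32) (A := 10 + 24 * C) (by norm_num) one_pos
  obtain ⟨e3, he3, h3⟩ := small_rpow (s := 1 / 4) (A := 2 * W ^ 2 + 2) (by norm_num)
    (show (0 : ℝ) < 1 / 10 by norm_num)
  obtain ⟨e4, he4, h4⟩ := small_rpow (s := th) (A := (X : ℝ)) hth one_pos
  obtain ⟨e5, he5, h5⟩ := small_rpow (s := 1 / 8) (A := 32) (by norm_num) hc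
  obtain ⟨e6, he6, h6⟩ := small_rpow (s := th) (A := -Real.log es1) hth hc
  obtain ⟨e7, he7, h7⟩ := small_rpow (s := 1 / 4) (A := 8) (by norm_num)
    (show (0 : ℝ) < 1 by norm_num)
  obtain ⟨e8, he8, h8⟩ := small_rpow (s := th) (A := Real.log (8 * C + 1)) hth hc
  obtain ⟨e9, he9, h9⟩ := small_rpow (s := 1 / 4) (A := 32 * C) (by norm_num)
    (show (0 : ℝ) < 1 by norm_num)
  refine ⟨min (min (min e1 e2) (min e3 e4)) (min (min e5 e6) (min (min e7 e8) (min e9 (1 / 4)))),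
    by positivity, ?_, ?_⟩
  · exact (min_le_right _ _).trans ((min_le_right _ _).trans ((min_le_right _ _).trans
      (min_le_right _ _)))
  set es : ℝ := min (min (min e1 e2) (min e3 e4)) (min (min e5 e6) (min (min e7 e8)
    (min e9 (1 / 4)))) with hes
  have es0 : 0 < es := by positivity
  have hall : es ≤ e1 ∧ es ≤ e2 ∧ es ≤ e3 ∧ es ≤ e4 ∧ es ≤ e5 ∧ es ≤ e6 ∧ es ≤ e7 ∧ es ≤ e8 ∧
      es ≤ e9 ∧ es ≤ 1 / 4 := by
    have h10 : es ≤ min (min (min e1 e2) (min e3 e4)) (min (min e5 e6) (min (min e7 e8)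
      (min e9 (1 / 4)))) := le_rfl
    simp only [le_min_iff] at h10
    obtain ⟨⟨⟨a1, a2⟩, a3, a4⟩, ⟨a5, a6⟩, ⟨a7, a8⟩, a9, a10⟩ := h10
    exact ⟨a1, a2, a3, a4, a5, a6, a7, a8, a9, a10⟩
  clear_value es
  obtain ⟨q1, q2, q3, q4, q5, q6, q7, q8, q9, q10⟩ := hall
  intro ε y η k i hε hεe hk hη0 hη hy0 hyε hi hik
  have hε4 : ε ≤ 1 / 4 := hεe.trans q10
  have hε1 : ε ≤ 1 := by linarith
  have hi1 : es ^ (-th) ≤ (2 : ℝ) ^ i := by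
    refine (lg_lo (c := th) es0).trans ?_
    exact pow_le_pow_right₀ (by norm_num) hi
  have hTm : ∀ A B : ℝ, 0 < B → A * es ^ th ≤ B → A ≤ B * 2 ^ i := by
    intro A B hB hA
    have h10 : 0 < es ^ (-th) := Real.rpow_pos_of_pos es0 _
    have h11 := mul_le_mul_of_nonneg_right hA h10.le
    rw [mul_assoc, ← Real.rpow_add es0, add_neg_cancel, Real.rpow_zero, mul_one] at h11
    exact h11.trans (mul_le_mul_of_nonneg_left hi1 hB.le)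
  have hk2 : (2 : ℝ) ^ k ≤ 4 * ε ^ (-th) := by
    calc (2 : ℝ) ^ k ≤ 2 ^ (lg th ε + 1) := pow_le_pow_right₀ (by norm_num) hk
      _ = 2 ^ lg th ε * 2 := pow_succ _ _
      _ ≤ (2 * ε ^ (-th)) * 2 := by
          have := lg_hi hth.le hε hε1
          gcongr
      _ = _ := by ring
  have hth16 : ε ^ (-th) ≤ ε ^ (-(1 / 32) : ℝ) :=
    Real.rpow_le_rpow_of_exponent_ge hε hε1 (by linarith)
  have hk3 : (2 : ℝ) ^ k ≤ 4 * ε ^ (-(1 / 32) : ℝ) := by linarith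
  have hi3 : (2 : ℝ) ^ i ≤ 4 * ε ^ (-(1 / 32) : ℝ) :=
    (pow_le_pow_right₀ (by norm_num) hik).trans hk3
  have hsq : √(2 * y) ≤ 3 * ε ^ (1 / 8 : ℝ) := by
    rw [Real.sqrt_le_left (by positivity), mul_pow, ← Real.rpow_natCast (ε ^ (1 / 8 : ℝ)),
      ← Real.rpow_mul hε.le]
    have e : (1 / 8 : ℝ) * ((2 : ℕ) : ℝ) = 1 / 4 := by norm_num
    rw [e]
    have h10 : (0 : ℝ) ≤ ε ^ (1 / 4 : ℝ) := by positivity
    linarith
  have hexp0 : 0 < Real.exp (-(c * 2 ^ i)) := Real.exp_pos _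
  refine ⟨?_, ?_, ?_, ?_, ?_, ?_, ?_, ?_, ?_⟩
  · have := h7 ε hε (hεe.trans q7)
    linarith
  · refine le_trans ?_ (h3 ε hε (hεe.trans q3))
    rw [mul_comm]
    exact mul_le_mul_of_nonneg_left hη (by positivity)
  · have h10 := hTm X 1 one_pos (h4 es es0 q4)
    rw [one_mul] at h10
    exact_mod_cast h10
  · have h10 := hTm _ _ hc (h6 es es0 q6)
    have h11 : -(c * 2 ^ i) ≤ Real.log es1 := by linarith
    calc Real.exp (-(c * 2 ^ i)) ≤ Real.exp (Real.log es1) := Real.exp_le_exp.2 h11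
      _ = es1 := Real.exp_log hes1
  · have h10 : ((2 : ℝ) ^ k * √(2 * y)) ≤ 12 * ε ^ (3 / 32 : ℝ) := by
      calc (2 : ℝ) ^ k * √(2 * y) ≤ (4 * ε ^ (-(1 / 32) : ℝ)) * (3 * ε ^ (1 / 8 : ℝ)) :=
            mul_le_mul hk3 hsq (Real.sqrt_nonneg _) (by positivity)
        _ = 12 * ε ^ (3 / 32 : ℝ) := by
            rw [show (4 * ε ^ (-(1 / 32) : ℝ)) * (3 * ε ^ (1 / 8 : ℝ)) =
              12 * (ε ^ (-(1 / 32) : ℝ) * ε ^ (1 / 8 : ℝ)) by ring, ← Real.rpow_add hε]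
            norm_num
    have e2 : ε ^ (1 / 4 : ℝ) ≤ ε ^ (3 / 32 : ℝ) :=
      Real.rpow_le_rpow_of_exponent_ge hε hε1 (by norm_num)
    have e3 : (10 + 24 * C) * ε ^ (1 / 32 : ℝ) ≤ 1 := h2 ε hε (hεe.trans q2)
    have e4 : ε ^ (3 / 32 : ℝ) = ε ^ (1 / 32 : ℝ) * ε ^ (1 / 16 : ℝ) := by
      rw [← Real.rpow_add hε]; norm_num
    have e5 : 0 ≤ ε ^ (1 / 16 : ℝ) := by positivity
    have e6 : 0 ≤ ε ^ (3 / 32 : ℝ) := by positivity
    have e7 := mul_le_mul_of_nonneg_left h10 hC.le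
    calc 2 * y + η + C * (1 * ((2 : ℝ) ^ k * √(2 * y))) ≤
          (9 + 12 * C) * ε ^ (3 / 32 : ℝ) := by linarith
      _ ≤ (10 + 24 * C) * ε ^ (3 / 32 : ℝ) := by
          apply mul_le_mul_of_nonneg_right _ e6
          linarith
      _ = ((10 + 24 * C) * ε ^ (1 / 32 : ℝ)) * ε ^ (1 / 16 : ℝ) := by rw [e4]; ring
      _ ≤ 1 * ε ^ (1 / 16 : ℝ) := mul_le_mul_of_nonneg_right e3 e5
      _ = _ := one_mul _
  · have := h1 ε hε (hεe.trans q1)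
    rwa [one_mul] at this
  · have h10 : (ε ^ (1 / 16 : ℝ)) ^ 5 = ε ^ (5 / 16 : ℝ) := by
      rw [← Real.rpow_natCast, ← Real.rpow_mul hε.le]; norm_num
    rw [h10]
    calc (2 : ℝ) ^ k * ε ^ (5 / 16 : ℝ) ≤ (4 * ε ^ (-(1 / 32) : ℝ)) * ε ^ (5 / 16 : ℝ) :=
          mul_le_mul_of_nonneg_right hk3 (by positivity)
      _ = 4 * ε ^ (9 / 32 : ℝ) := by
          rw [mul_assoc, ← Real.rpow_add hε]; norm_num
      _ ≤ 8 * ε ^ (1 / 4 : ℝ) := by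
          have e1 : ε ^ (9 / 32 : ℝ) ≤ ε ^ (1 / 4 : ℝ) :=
            Real.rpow_le_rpow_of_exponent_ge hε hε1 (by norm_num)
          have : 0 ≤ ε ^ (1 / 4 : ℝ) := by positivity
          linarith
      _ ≤ 1 := h7 ε hε (hεe.trans q7)
  · calc (2 : ℝ) ^ i * (2 * y) ≤ (4 * ε ^ (-(1 / 32) : ℝ)) * (2 * (4 * ε ^ (1 / 4 : ℝ))) :=
          mul_le_mul hi3 (by linarith) (by positivity) (by positivity)
      _ = 32 * ε ^ (7 / 32 : ℝ) := by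
          rw [show (4 * ε ^ (-(1 / 32) : ℝ)) * (2 * (4 * ε ^ (1 / 4 : ℝ))) =
            32 * (ε ^ (-(1 / 32) : ℝ) * ε ^ (1 / 4 : ℝ)) by ring, ← Real.rpow_add hε]
          norm_num
      _ ≤ 32 * ε ^ (1 / 8 : ℝ) := by
          have : ε ^ (7 / 32 : ℝ) ≤ ε ^ (1 / 8 : ℝ) :=
            Real.rpow_le_rpow_of_exponent_ge hε hε1 (by norm_num)
          linarith
      _ ≤ c := h5 ε hε (hεe.trans q5)
  · have h10 := hTm _ _ hc (h8 es es0 q8)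
    have h11 : (8 * C + 1) = Real.exp (Real.log (8 * C + 1)) := (Real.exp_log (by positivity)).symm
    have hexp2 : (8 * C + 1) * Real.exp (-(c * 2 ^ i)) ≤ 1 := by
      rw [h11, ← Real.exp_add, Real.exp_le_one_iff]
      linarith
    have e1 := h9 ε hε (hεe.trans q9)
    have e3 : 2 * C * y ≤ 1 / 4 := by
      calc 2 * C * y ≤ 2 * C * (4 * ε ^ (1 / 4 : ℝ)) := by gcongr
        _ = (32 * C * ε ^ (1 / 4 : ℝ)) / 4 := by ring
        _ ≤ 1 / 4 := by linarith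
    have e4 : 2 * C * (y + Real.exp (-(c * 2 ^ i))) = 2 * C * y +
      (8 * C + 1) * Real.exp (-(c * 2 ^ i)) / 4 - Real.exp (-(c * 2 ^ i)) / 4 := by ring
    rw [e4]
    linarith

/-- **all tori from one torus**, core: level `j`, base torus `2 ^ (j + k)`,
`K(ε) ≤ 2 ^ k ≤ 2 K(ε)` -/
theorem yt_core {b1 : ℝ} (hb1 : 0 < b1) (b2 : ℝ) :
    ∃ W₀ : ℝ, ∀ W : ℝ, W₀ ≤ W → ∃ c C : ℝ, 0 < c ∧ 0 < C ∧ ∀ th : ℝ, 0 < th → th ≤ 1 / 32 →
      ∃ (es : ℝ) (M₀ : ℕ), 0 < es ∧ es ≤ 1 / 4 ∧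
    ∀ (b : ℝ) (j k : ℕ) (ε a η y : ℝ), b1 ≤ b → b ≤ b2 → 0 < ε → ε ≤ es → M₀ ≤ j →
      k ≤ lg th ε + 1 → 0 ≤ η → η ≤ ε ^ (1 / 4 : ℝ) →
      11 / 10 ≤ a → a ≤ 19 / 10 → FL b (tn j) a η (2 ^ (j + k)) → 0 < y → y ≤ 4 * ε ^ (1 / 4 : ℝ) →
      yt (2 ^ (j + k)) b (tn j) ≤ y →
      ∀ i : ℕ, lg th es ≤ i → i ≤ k → ∀ r, j + i ≤ r →
        Rng b1 b2 (5 / 2) W (1 / 2) 1 (2 ^ r) b (2 ^ j) (C * (y + Real.exp (-(c * 2 ^ i)))) ∧
        yt (2 ^ r) b (tn j) ≤ C * (y + Real.exp (-(c * 2 ^ i))) := by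
  obtain ⟨W₀, h⟩ := rng_family hb1 b2
  refine ⟨W₀, fun W hW => ?_⟩
  obtain ⟨c, C, es1, X, hc, hC, hes1, hX8, h⟩ := h W hW
  refine ⟨c, 2 * C, hc, by positivity, ?_⟩
  intro th hth hth1
  obtain ⟨es, es0, es4, hn⟩ := core_num hc hC hes1 hth hth1 W X
  refine ⟨es, X, es0, es4, ?_⟩
  intro b j k ε a η y hbb1 hbb2 hε hεe hM hk hη0 hη ha1 ha2 hFL hy0 hyε hyt i hi hik r hr
  obtain ⟨n1, n2, n3, n4, n5, n6, n7, n8, n9⟩ := hn ε y η k i hε hεe hk hη0 hη hy0 hyε hi hik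
  have hb : 0 < b := lt_of_lt_of_le hb1 hbb1
  have hj2 : (j : ℕ) < 2 ^ j := Nat.lt_two_pow_self
  have hXj : X ≤ 2 ^ j := hM.trans hj2.le
  have hP := prof_of_fl (W := W) (y := y) hb hη0 n2 ha1 ha2 hFL hy0 n1 hyt
  have hXk : X ≤ 2 ^ k := n3.trans (Nat.pow_le_pow_right (by norm_num) hik)
  have ek : ((2 ^ k : ℕ) : ℝ) = 2 ^ k := by push_cast; rfl
  have ei : ((2 ^ i : ℕ) : ℝ) = 2 ^ i := by push_cast; rfl
  rw [← ek] at n5 n7
  rw [← ei] at n4 n8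
  have hR := h (2 ^ (j + k)) b (2 ^ k) (2 ^ j) (tn j) 1 (2 * y) η (a + η * (2 * W ^ 2 + 2))
    (ε ^ (1 / 16 : ℝ)) hbb1 hbb2 hXj hXk hP n5 n6 n7 (2 ^ i) n3
    (Nat.pow_le_pow_right (by norm_num) hik) n8 n4
    (2 * C * (y + Real.exp (-(c * 2 ^ i)))) (by
      rw [ei]
      have e2 : 0 < Real.exp (-(c * 2 ^ i)) := Real.exp_pos _
      nlinarith [mul_pos hC e2]) (2 ^ r) (1 / 2) 1
    (by rw [← pow_add]; exact Nat.pow_le_pow_right (by norm_num) (by omega))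
    (pow_dvd_pow _ (by omega)) n9 (Nat.one_le_two_pow)
    (by rw [one_mul]; exact Nat.pow_le_pow_right (by norm_num) (by omega))
  exact ⟨hR, yt_of_rng hR⟩

end

end Vale.Agent.P159.H316
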