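import Vale.Agent.P159.H316.Yb4
import Vale.Agent.P159.H801.StartM2
import Vale.Agent.P159.H801.ParEv

/-!
P159 (helper316), the start: the instance of the dichotomy `Dich2` (helper801) at the states
`Good P b` and the zero background numbers `y0 P b`, in the order of constants.  NORMAL is the
negation of a drop of `y0` in the window.
-/

set_option linter.unusedSectionVars false

namespace Vale.Agent.P159.H316

open Filter Topology
open Vale.Agent.P159.TM
open Vale.Agent.P159.TM.Spec (V Rng)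
open Vale.Agent.P159.H864 (yt yt_nonneg yt_lt_one)
open Vale.Agent.P159.H972 (Par lg tn RNG FL Good YBn GP StepP' StartP)
open Vale.Agent.P159.H37 (small_rpow lg_lo lg_hi)
open Vale.Agent.P159.H801 (FLC Bw Dich2 Ev PS)

noncomputable section

/-- NORMAL: the zero background number does not drop by a power in the window -/
def Nmd (P : Par) (b a : ℝ) (n : ℕ) (ε : ℝ) : Prop :=
  Real.log (1 / y0 P b (n + P.w ε) (ε / 2)) < Real.log (1 / y0 P b n ε) + a * P.w ε

/-- **the instance of the dichotomy**, exponents `sg`, `c` depending on `x1` -/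
theorem dich_evx {b b1 b2 pf g a' : ℝ} {sgf cf : ℝ → ℝ} {Q : ℕ} (hb1 : 0 < b1) (hbb1 : b1 ≤ b)
    (hbb2 : b ≤ b2) (hel : helicity b = 2 / Real.pi) (hpf : 1 / 4 ≤ pf) (hg : 0 < g)
    (ha' : 0 < a') (hx : ∃ r0 : ℝ, 0 < r0 ∧ ∀ x, 0 < x → x ≤ r0 →
      0 ≤ sgf x ∧ 0 < cf x ∧ g * (1 + sgf x + 2 * cf x) < 2) :
    Ev b1 b2 pf Q fun P c1 => c1 < P.th ∧ ∀ a : ℕ → ℝ, FLC P b a →
      Tendsto a atTop (𝓝 (Real.pi / 2)) → StartP P b → ∀ᶠ N0 in atTop,
        StepP' P b (sgf P.x1) N0 →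
        0 < c1 → ∃ c' C, Dich2 (Good P b) (Nmd P b a') (YBn P b) (y0 P b) P.w (Bw P) P.thp
          (sgf P.x1) (cf P.x1) g a' P.th c1 c' C P.es N0 := by
  have hb : 0 < b := hb1.trans_le hbb1
  obtain ⟨D, M0, hlow⟩ := y0_low hb hel (d := a' / 4) (by positivity)
  obtain ⟨Wa, hWa⟩ := ybn_base hb1 b2
  obtain ⟨Ca, hCa, hya⟩ := hWa Wa le_rfl
  obtain ⟨Wb, hWb⟩ := y0_reg hb1 b2
  obtain ⟨c', C', hc', hyb⟩ := hWb Wb le_rfl
  obtain ⟨r0, hr0, hx⟩ := hx
  apply Ev.of
  refine ⟨0, fun W _ => ⟨1, one_pos, fun ys _ _ => ⟨0, fun X0 _ => ⟨r0, hr0,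
    fun x1 hx1 hx1r => ⟨1, one_pos, fun thp hthp _ => ⟨min (min (a' / 32) 1) (1 / 32),
    by positivity, fun th hth hth1 => ⟨0, fun C0 _ => ⟨th / 2, by positivity,
    fun c1 hc1 hc1th => ?_⟩⟩⟩⟩⟩⟩⟩⟩
  obtain ⟨hsg, hc, hgs⟩ := hx x1 hx1 hx1r
  set sg := sgf x1 with hsgd
  set c := cf x1 with hcd
  have h1 : th ≤ a' / 32 := hth1.trans ((min_le_left _ _).trans (min_le_left _ _))
  have h2 : th ≤ 1 := hth1.trans ((min_le_left _ _).trans (min_le_right _ _))
  have h3 : th ≤ 1 / 32 := hth1.trans (min_le_right _ _)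
  obtain ⟨e1, he1, hy1⟩ := hya th hth h3
  obtain ⟨e2, he2, hy2⟩ := hyb th hth h3
  obtain ⟨e3, he3, hy3⟩ := y0_start hb hel hg hth
  obtain ⟨e4, he4, hy4⟩ := small_rpow (s := c) (A := Ca) hc one_pos
  refine ⟨min (min e1 e2) (min e3 e4), by positivity, fun P hP => ?_⟩
  have hE1 : P.es ≤ e1 := hP.ees.trans ((min_le_left _ _).trans (min_le_left _ _))
  have hE2 : P.es ≤ e2 := hP.ees.trans ((min_le_left _ _).trans (min_le_right _ _))
  have hE3 : P.es ≤ e3 := hP.ees.trans ((min_le_right _ _).trans (min_le_left _ _))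
  have hE4 : P.es ≤ e4 := hP.ees.trans ((min_le_right _ _).trans (min_le_right _ _))
  have hpfP : 1 / 4 ≤ P.pf := by rw [hP.epf]; exact hpf
  have hPth := hP.eth
  rw [hP.ex1, ← hsgd, ← hcd]
  refine ⟨by rw [hPth]; linarith, fun a hfl ha hstart => ?_⟩
  obtain ⟨n1, hn1⟩ := eventually_atTop.1 (hy1 P b a hP.adm hPth hE1 hpfP hbb1 hbb2 hfl ha)
  obtain ⟨n2, hn2⟩ := eventually_atTop.1 (hy2 P b a hP.adm hPth hE2 hpfP hbb1 hbb2 hfl ha)
  filter_upwards [eventually_ge_atTop n1, eventually_ge_atTop n2, eventually_ge_atTop M0,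
    eventually_ge_atTop 1] with N0 hN1 hN2 hN3 hN4 hstep hc1'
  have hP8 : 8 * P.th ≤ a' / 4 := by rw [hPth]; linarith
  have hP1 : P.th ≤ 1 := by rw [hPth]; exact h2
  have hpos : ∀ n ε, N0 ≤ n → 0 < ε → ε ≤ P.es → 0 < y0 P b n ε := fun n ε hn hε hεs =>
    (hlow P hP8 hP1 n ε (hN3.trans hn) hε (hεs.trans (P.es1.trans (by norm_num)))).1
  have hGe : ∀ n ε, Good P b n ε → ε ≤ P.es → y0 P b n ε ^ g ≤ ε → N0 ≤ n → 0 < ε := by
    intro n ε hG hεs hyε hn
    by_contra hcon
    rw [not_lt] at hcon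
    have h4 : 0 ≤ y0 P b n ε ^ g := Real.rpow_nonneg (y0_nonneg hb n ε) _
    have h5 : ε = 0 := le_antisymm hcon (h4.trans hyε)
    -- at ε = 0 the number is positive
    subst h5
    have h6 : y0 P b n 0 = 0 := by
      by_contra h7
      have h8 : 0 < y0 P b n 0 := lt_of_le_of_ne (y0_nonneg hb n 0) (Ne.symm h7)
      have := Real.rpow_pos_of_pos h8 g
      linarith
    have hk0 : P.kE 0 = 0 := by
      unfold Par.kE lg
      simp
    have hk1 : P.kE 1 = 0 := by
      unfold Par.kE lg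
      simp
    have h9 := (hlow P hP8 hP1 n 1 (hN3.trans hn) one_pos le_rfl).1
    have h10 : y0 P b n 0 = y0 P b n 1 := by
      unfold y0
      simp only [hk0, hk1]
    rw [← h10, h6] at h9
    exact lt_irrefl _ h9
  refine ⟨c', C', ?_⟩
  exact
    { B0 := H801.Bw_pos P
      b00 := P.thp0
      sg00 := hsg
      c00 := hc.le
      g0 := hg
      gs := hgs
      a0 := ha'
      c10 := hc1'
      cth := by rw [hPth]; linarith
      c'0 := hc'
      es0 := P.es0
      es1 := P.es1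
      w1 := fun _ h1 h2 => H972.w1 h1 h2
      w2 := by
        intro ε hε hεs
        have h4 : P.w (ε / 2) ≤ P.w ε + 1 := H972.lg_half' P.thp0 hP.adm.thp1 hε le_rfl
        have h5 : P.kE ε ≤ P.w ε := H972.kE_le_w hP.adm.hth hε
          (hεs.trans (P.es1.trans (by norm_num)))
        have h6 : P.kE P.es ≤ P.kE ε := H972.lg_anti P.th0.le hε hεs
        have h7 := hP.adm.hk
        omega
      w3 := fun _ h1 h2 => H972.w3 h1 h2
      w4 := by
        intro ε hε hεs
        have hl2 := Real.log_two_lt_d9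
        have hl2' := Real.log_two_gt_d9
        have h4 : P.thp * Real.logb 2 (1 / ε) ≤ P.w ε := Nat.le_ceil _
        refine le_trans ?_ h4
        apply mul_le_mul_of_nonneg_left _ P.thp0.le
        have h5 : 0 ≤ Real.log (1 / ε) := Real.log_nonneg (by
          rw [le_div_iff₀ hε]
          linarith [hεs.trans P.es1])
        unfold Real.logb
        rw [le_div_iff₀ (by linarith)]
        nlinarith
      mono := fun _ _ _ h1 h2 => h1.mono h2
      y00 := hpos
      yB := by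
        intro n ε hn hε hεs hG
        have hε1 : ε ≤ 1 := hεs.trans (P.es1.trans (by norm_num))
        have h4 : 0 ≤ ε ^ (1 / 4 : ℝ) := by positivity
        have h5 : y0 P b n ε ≤ ε ^ (1 / 4 : ℝ) := y0_good (hN4.trans hn) hεs hG
        have h6 := hpos n ε hn hε hεs
        have h7 := hy4 ε hε (hεs.trans hE4)
        have h8 : 0 < ε ^ (-c) := Real.rpow_pos_of_pos hε _
        refine hn1 n (hN1.trans hn) ε hε hεs hG (y0 P b n ε) h6 (by linarith) le_rfl _
          (mul_pos h8 h6) ((le_max_left _ _).trans' ?_)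
        have h9 : ε ^ c * ε ^ (-c) = 1 := by
          rw [← Real.rpow_add hε, add_neg_cancel, Real.rpow_zero]
        have h10 : Ca ≤ ε ^ (-c) := by
          have h11 := mul_le_mul_of_nonneg_right h7 h8.le
          rw [mul_assoc, h9] at h11
          linarith
        exact mul_le_mul_of_nonneg_right h10 h6.le
      yt := fun ε hε hεs => hy3 P hPth hE3 ε hε hεs
      yl := ⟨D, fun n ε hn hε hεs => (hlow P hP8 hP1 n ε (hN3.trans hn) hε
        (hεs.trans (P.es1.trans (by norm_num)))).2⟩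
      start := fun e he hes => hstart.good he hes
      stepP := fun n m ε Y hn h1 h2 h3 h4 h5 h6 => hstep n m ε Y hn h1 h2 h3 h4 h5 h6
      reg := by
        intro n ε hn hG hyg hεs _
        have hε := hGe n ε hG hεs hyg hn
        have h4 := hn2 n (hN2.trans hn) ε hε hεs hG (hpos n ε hn hε hεs)
          (hpos _ (ε / 2) (hn.trans (Nat.le_add_right _ _)) (by positivity) (by linarith))
        rw [hPth]
        exact h4
      drop := by
        intro n ε _ _ _ _ _ hN
        unfold Nmd at hN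
        exact not_lt.1 hN }

/-- the instance of the dichotomy, fixed exponents -/
theorem dich_ev {b b1 b2 pf sg c g a' : ℝ} {Q : ℕ} (hb1 : 0 < b1) (hbb1 : b1 ≤ b) (hbb2 : b ≤ b2)
    (hel : helicity b = 2 / Real.pi) (hpf : 1 / 4 ≤ pf) (hsg : 0 ≤ sg) (hc : 0 < c) (hg : 0 < g)
    (hgs : g * (1 + sg + 2 * c) < 2) (ha' : 0 < a') :
    Ev b1 b2 pf Q fun P c1 => c1 < P.th ∧ ∀ a : ℕ → ℝ, FLC P b a →
      Tendsto a atTop (𝓝 (Real.pi / 2)) → StartP P b → ∀ᶠ N0 in atTop, StepP' P b sg N0 →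
        0 < c1 → ∃ c' C, Dich2 (Good P b) (Nmd P b a') (YBn P b) (y0 P b) P.w (Bw P) P.thp sg c g a'
          P.th c1 c' C P.es N0 :=
  dich_evx (sgf := fun _ => sg) (cf := fun _ => c) hb1 hbb1 hbb2 hel hpf hg ha'
    ⟨1, one_pos, fun _ _ _ => ⟨hsg, hc, hgs⟩⟩

end

end Vale.Agent.P159.H316
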