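import Vale.Agent.P159.H316.St0
import Vale.Agent.P159.H316.Yb5
import Vale.Agent.P159.H415.EvE
import Vale.Agent.P159.H43.Chb3
import Vale.Agent.P159.H889.Vvs

/-!
P159 (helper316), START of V: the statements of the two parts of the start (contract of the pieces).

`GS` general step, `CRK`, `PERS`, `INI`, `LKU`, `LKL`, ... = inputs; `S2J` = state number `j` of the
second part; `Part1`, `Part2` = the two theorems; `StartGoal` = what the master needs.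
-/

set_option linter.unusedSectionVars false

namespace Vale.Agent.P159.H316

open Filter Topology
open Vale.Agent.P159.TM.Spec (V)
open Vale.Agent.P159.H864 (yt)
open Vale.Agent.P159.H972 (Par Good YBn FL StepP' tn)
open Vale.Agent.P159.H801 (Ev)
open Vale.Agent.P159.H415 (CI)
open Vale.Agent.P159.H43 (CHB)
open Vale.Agent.P159.H889 (Cx Cw SV TV VB lam nu Dc QP Mw hS CH2 VSs)

noncomputable section

/-! ### inputs -/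

/-- **(INI)** initial data on ONE torus `2 ^ r`, any activity `ζ` -/
def INI (P : Par) (b C1 c1 A1 : ℝ) (N0 : ℕ) : Prop :=
  ∀ (n s r : ℕ) (e y Y : ℝ) (ζ : ℂ), N0 ≤ n → Cx P b C1 c1 n s e y → P.TT n e r →
    r ≤ n + P.kE e + P.w e → yt (2 ^ r) b (4 * tn n) ≤ Y → 4 * ((2 : ℝ) ^ (r - n)) ^ 2 * Y ≤ 1 →
    ‖ζ‖ ≤ 1 → V1 P b A1 n s e r ζ (4 * ((2 : ℝ) ^ (r - n) * Y) + ‖ζ‖)
      (56 * (((2 : ℝ) ^ (r - n)) ^ 2 * Y) ^ 2)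

/-- **(LKU)** the massless torus number from the activity, one torus -/
def LKU (P : Par) (b C1 c1 A1 κ : ℝ) (N0 : ℕ) : Prop :=
  ∀ (n s r : ℕ) (e y Y : ℝ) (ζ : ℂ) (Δ E : ℝ), N0 ≤ n → Cx P b C1 c1 n s e y → P.TT n e r →
    r ≤ n + P.kE e + P.w e → yt (2 ^ r) b (4 * tn n) ≤ Y → 4 * ((2 : ℝ) ^ (r - n)) ^ 2 * Y ≤ 1 →
    V1 P b A1 n s e r ζ Δ E → Yn (2 ^ r) b ≤ e ^ (-(κ * P.th)) *
      (‖ζ‖ + (4 : ℝ) ^ r / 4 ^ n * Δ + E + e ^ (10 * P.thp) * Y)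

/-- **(LKL)** the activity from the base number, one torus -/
def LKL (P : Par) (b C1 c1 A1 κ : ℝ) (N0 : ℕ) : Prop :=
  ∀ (n s r : ℕ) (e y Y : ℝ) (ζ : ℂ) (Δ E : ℝ), N0 ≤ n → Cx P b C1 c1 n s e y → P.TT n e r →
    r ≤ n + P.kE e + P.w e → yt (2 ^ r) b (4 * tn n) ≤ Y → 4 * ((2 : ℝ) ^ (r - n)) ^ 2 * Y ≤ 1 →
    V1 P b A1 n s e r ζ Δ E → ‖ζ‖ ≤ e ^ (-(κ * P.th)) *
      (((2 : ℝ) ^ (r - n)) ^ 2 * Y + (4 : ℝ) ^ r / 4 ^ n * Δ + E)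

/-- **(COR)** all tori from the base torus (`good_core`) -/
def COR (P : Par) (b c1 : ℝ) (N0 : ℕ) : Prop :=
  ∀ (n : ℕ) (e y : ℝ), N0 ≤ n → 0 < e → e ≤ P.es → Good P b n e → 0 < y →
    y ≤ 4 * e ^ (1 / 4 : ℝ) → Real.log (1 / y) ≤ 2 * e ^ (-c1) → y0 P b n e ≤ y →
    ∀ r, n + P.kE e ≤ r → yt (2 ^ r) b (4 * tn n) ≤ e ^ (-P.th) * y

/-- **(YBB)** the bound `YBn` from the base torus (`ybn_base`) -/
def YBB (P : Par) (b : ℝ) (N0 : ℕ) : Prop :=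
  ∀ (n : ℕ) (e y : ℝ), N0 ≤ n → 0 < e → e ≤ P.es → Good P b n e → 0 < y →
    y ≤ 4 * e ^ (1 / 4 : ℝ) → y0 P b n e ≤ y → YBn P b n e (e ^ (-(P.thp / 200)) * y)

/-- the step of `CH2` (helper415, `ev_ch2b`) and its crude start -/
def CHS (P : Par) (b c1 : ℝ) : Prop :=
  (∀ (n m : ℕ) (e e' y y' g g' : ℝ), CI P b c1 n m e e' y y' → 0 ≤ g' → g' ≤ 1 / 2 →
    g' ≤ g + P.thp / 200 → CH2 P b n e (y * e ^ g) → CH2 P b m e' (y' * e' ^ g')) ∧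
  ∀ (n : ℕ) (e y : ℝ), 0 < e → e ≤ P.es → 0 < y → y ^ (39 / 20 : ℝ) ≤ e →
    (∀ r, P.TT n e r → yt (2 ^ r) b (4 * tn n) ≤ e ^ (-(P.thp / 20)) * y) →
    CH2 P b n e (2 * (e ^ (-(P.thp / 20)) * y))

/-- the step of `CHB` (helper43, `ev_chbc`) and its crude start -/
def CBS (P : Par) (b c1 : ℝ) : Prop :=
  (∀ (n m : ℕ) (e e' y y' g g' : ℝ), CI P b c1 n m e e' y y' → e' ≤ e ^ (19 / 20 : ℝ) →
    y ≤ (2 : ℝ) ^ (1 / 5 * ((m - n : ℕ) : ℝ)) * y' → -(P.thp / 10) ≤ g → g' ≤ 2 →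
    g' ≤ g + P.thp / 400 → CHB P b n e (y ^ (2 - P.x1 / 50) + y * e ^ g) →
    CHB P b m e' (y' ^ (2 - P.x1 / 50) + y' * e' ^ g')) ∧
  ∀ (n : ℕ) (e y : ℝ), 0 < b → 0 < e → e ≤ P.es → 0 < y → y ^ (39 / 20 : ℝ) ≤ e →
    (∀ r, P.TT n e r → yt (2 ^ r) b (4 * tn n) ≤ e ^ (-(P.thp / 20)) * y) →
    CHB P b n e (y ^ (2 - P.x1 / 50) + y * e ^ (-(P.thp / 10)))

/-- **(DX0)** the numbers are not polynomially small in `2 ^ n` -/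
def DX0 (P : Par) (b C1 : ℝ) (N0 : ℕ) : Prop :=
  ∀ (n : ℕ) (e : ℝ), N0 ≤ n → 0 < e → e ≤ P.es → y0 P b n e ^ (47 / 25 : ℝ) ≤ e →
    0 < y0 P b n e ∧ -Real.log (e * y0 P b n e) ≤ 1 / (64 * C1) * n

/-- the growth exponent is small -/
def AX (a : ℕ → ℝ) (C1 : ℝ) (N0 : ℕ) : Prop :=
  ∀ n, N0 ≤ n → |2 - Real.pi / a n| ≤ 1 / 10 ^ 7 ∧ |2 - Real.pi / a n| ≤ 1 / (64 * C1)

/-! ### the states of the second part -/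

/-- exponent of the deviation -/
def dJ (P : Par) (j : ℕ) : ℝ := min (7 / 8) (P.thp / 2 + j * (P.thp / 200))
/-- exponent of `CH2` -/
def gJ (P : Par) (j : ℕ) : ℝ := min (1 / 2) (j * (P.thp / 200))
/-- exponent of `CHB` -/
def gB (P : Par) (j : ℕ) : ℝ := min 2 (j * (P.thp / 400) - P.thp / 10)
/-- exponent of the error of the functional -/
def eJ (P : Par) (j : ℕ) : ℝ := min (439 / 500) (48 / 100 + j * (P.thp / 200))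
/-- exponent of the upper bound of the activity -/
def uJ (P : Par) (j : ℕ) : ℝ := 531 / 1000 - j * (P.thp / 10 ^ 6)
/-- the reference number: a small power larger than the activity -/
def yr (P : Par) (e : ℝ) (ζ : ℂ) : ℝ := e ^ (-(P.thp / 50)) * ‖ζ‖

/-- **state number `j` of the second part** -/
structure S2J (P : Par) (b C1 c1 A1 : ℝ) (j n s : ℕ) (e : ℝ) (ζ : ℂ) (Δ E : ℝ) : Prop where
  G : Good P b n e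
  e0 : 0 < e
  es : e ≤ P.es
  z0 : ζ ≠ 0
  zu : ‖ζ‖ ≤ e ^ uJ P j
  zl : Real.log (1 / ‖ζ‖) ≤ e ^ (-c1)
  vz : ∀ r, n + P.kE e ≤ r → yt (2 ^ r) b (4 * tn n) ≤ e ^ (-(P.thp / 100)) * ‖ζ‖
  s1 : 1 / 2 * (e * yr P e ζ) ^ (69 / 64 * C1) ≤ lam n s
  s2 : lam n s ≤ (e * yr P e ζ) ^ (69 / 64 * C1)
  dx : -Real.log (e * ‖ζ‖) ≤ 1 / (16 * C1) * n
  ch : CH2 P b n e (yr P e ζ * e ^ gJ P j)
  chb : CHB P b n e (yr P e ζ ^ (2 - P.x1 / 50) + yr P e ζ * e ^ gB P j)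
  sv : SV P b A1 n s e ζ Δ E
  Δ0 : 0 ≤ Δ
  E0 : 0 ≤ E
  dv : Δ ≤ ‖ζ‖ * e ^ dJ P j
  er : E ≤ ‖ζ‖ * e ^ eJ P j

/-! ### the second part -/

/-- the inputs of the second part -/
structure In2 (P : Par) (b : ℝ) (a : ℕ → ℝ) (C1 c1 A1 : ℝ) (N0 : ℕ) : Prop where
  b0 : 0 < b
  b1 : P.b1 ≤ b
  b2 : b ≤ P.b2
  gs : GS P b a C1 c1 A1 N0
  pers : PERS P b C1 c1 A1 N0
  chs : CHS P b c1
  cbs : CBS P b c1
  stp : StepP' P b (1 / 40) N0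
  yb : YBB P b N0
  ax : AX a C1 N0

/-- **(one window)**, size `e -> e / 2`, level `n -> n + w e`, number `j -> j + 1`; the last line
gives `CH2`, `CHB` also with the activity itself as the reference number -/
def Step2 (P : Par) (b C1 c1 A1 : ℝ) (N0 : ℕ) : Prop :=
  ∀ (j n s : ℕ) (e : ℝ) (ζ : ℂ) (Δ E : ℝ), N0 ≤ n → (j : ℝ) * P.thp ≤ 1000 →
    S2J P b C1 c1 A1 j n s e ζ Δ E →
    ∃ (s' : ℕ) (ζ' : ℂ) (Δ' E' : ℝ), S2J P b C1 c1 A1 (j + 1) (n + P.w e) s' (e / 2) ζ' Δ' E' ∧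
      CH2 P b (n + P.w e) (e / 2) (‖ζ'‖ * (e / 2) ^ gJ P (j + 1)) ∧
      CHB P b (n + P.w e) (e / 2)
        (‖ζ'‖ ^ (2 - P.x1 / 50) + ‖ζ'‖ * (e / 2) ^ gB P (j + 1))

/-- **(P2a)** the window of the second part, in the order of constants -/
def Part2a (b1 b2 pf : ℝ) (Q : ℕ) (K : ℝ) : Prop :=
  Ev b1 b2 pf Q fun P c1 => ∀ C1, 24 ≤ C1 → P.C0 ≤ C1 → C1 ≤ K * P.C0 →
    ∀ (b : ℝ) (a : ℕ → ℝ) (A1 : ℝ), ∀ᶠ N0 in atTop, In2 P b a C1 c1 A1 N0 →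
      Step2 P b C1 c1 A1 N0

/-- the state of the master at the end -/
structure Fin2 (P : Par) (b C1 c1 A1 : ℝ) (n : ℕ) (e : ℝ) (ζ : ℂ) : Prop where
  G : Good P b n e
  vs : ∃ s, VSs P b C1 A1 (1 / (8 * C1)) n e ‖ζ‖ s ζ
  chb : CHB P b n e (‖ζ‖ ^ (2 - P.x1 / 50) + ‖ζ‖ * e ^ (2 : ℝ))
  yb : YBn P b n e (e ^ (-(P.x1 / 100)) * ‖ζ‖)
  vz : ∀ r, n + P.kE e ≤ r → yt (2 ^ r) b (4 * tn n) ≤ e ^ (-(P.thp / 100)) * ‖ζ‖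
  zu : ‖ζ‖ ^ (39 / 20 : ℝ) ≤ e
  zl : Real.log (1 / ‖ζ‖) ≤ e ^ (-c1)

/-- **(P2)** the second part -/
def Part2 (b1 b2 pf : ℝ) (Q : ℕ) (K : ℝ) : Prop :=
  Ev b1 b2 pf Q fun P c1 => ∀ C1, 24 ≤ C1 → P.C0 ≤ C1 → C1 ≤ K * P.C0 →
    ∀ (b : ℝ) (a : ℕ → ℝ) (A1 : ℝ), ∀ᶠ N0 in atTop, In2 P b a C1 c1 A1 N0 →
      ∀ (n s : ℕ) (e : ℝ) (ζ : ℂ) (Δ E : ℝ), N0 ≤ n → S2J P b C1 c1 A1 0 n s e ζ Δ E →
        ∃ (n' : ℕ) (e' : ℝ) (ζ' : ℂ), n ≤ n' ∧ 0 < e' ∧ e' ≤ e ∧ Fin2 P b C1 c1 A1 n' e' ζ'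

/-! ### the first part -/

/-- the inputs of the first part -/
structure In1 (P : Par) (b : ℝ) (a : ℕ → ℝ) (C1 c1 A1 κ : ℝ) (N0 : ℕ) : Prop where
  b0 : 0 < b
  b1 : P.b1 ≤ b
  b2 : b ≤ P.b2
  gs : GS P b a C1 c1 A1 N0
  ini : INI P b C1 c1 A1 N0
  lku : LKU P b C1 c1 A1 κ N0
  crk : CRK P b C1 c1 κ N0
  cor : COR P b c1 N0
  chs : CHS P b c1
  cbs : CBS P b c1
  dx0 : DX0 P b C1 N0
  ax : AX a C1 N0

/-- **(P1)** the first part: from NORMAL to the state number `0` of the second part -/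
def Part1 (b1 b2 pf : ℝ) (Q : ℕ) (K κ : ℝ) : Prop :=
  Ev b1 b2 pf Q fun P c1 => ∀ C1, 24 ≤ C1 → P.C0 ≤ C1 → C1 ≤ K * P.C0 →
    ∀ (b : ℝ) (a : ℕ → ℝ) (A1 : ℝ), ∀ᶠ N0 in atTop, In1 P b a C1 c1 A1 κ N0 →
      ∀ (n : ℕ) (e : ℝ), N0 ≤ n → 0 < e → e ≤ P.es →
        (∀ m, n ≤ m → m ≤ n + 2 * P.w e → Good P b m e) → y0 P b n e ^ (47 / 25 : ℝ) ≤ e →
        Real.log (1 / y0 P b n e) ≤ e ^ (-(c1 / 2)) → Nmd P b (1 / 200) n e →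
        ∃ (m s : ℕ) (ζ : ℂ) (Δ E : ℝ), n ≤ m ∧ S2J P b C1 c1 A1 0 m s e ζ Δ E

end

end Vale.Agent.P159.H316
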