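import Vale.Agent.P159.H415.Sum
import Vale.Agent.P159.H43.OscP

/-!
P159, V list part B, helper316: the zero background number `yt` against the activities `om_q`.
`t N² yt = Lc`; `2 om_1 ≤ Om ≤ Lc / 4`; `Lc ≤ 8 π² Σ q² om_q`.
-/

open MeasureTheory Finset Matrix Filter Topology
open Vale.Agent.P159.TM.H104 (EM Ex Cv Gr li Lg)
open Vale.Agent.P159.H37 (wM ZM qf Gm Zn Zq Ev PK)
open Vale.Agent.P159.H145 (LM LM_eq cs mt)
open Vale.Agent.P159.H896 (WM WP om Om ph)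
open Vale.Agent.P159.H43 (Lc ch2)
open Vale.Agent.P159.TM.Spec (V)
open Vale.Agent.P159.TM.SpecC (wT)
open Vale.Agent.P159.H864 (yt)

set_option linter.unusedSectionVars false

namespace Vale.Agent.P159.H316

noncomputable section

section second

variable {V : Type} [Fintype V] {w : (V → ℤ) → ℝ} {M : Matrix V V ℝ}

/-- an upper bound of `log Z(0) - log Z(s)` bounds `Lc` -/
theorem Lc_le_of (hM : M.transpose = M) (hE : EM (wM w M)) (he : ∀ s, LM w M (cs 0 (-s)) =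
    LM w M (cs 0 s)) {q : ℝ}
    (hq : ∀ s : ℝ, LM w M 0 - LM w M (cs 0 s) ≤ q * s ^ 2 / 2) : Lc w M ≤ q := by
  set J : V → ℝ := M.mulVec 1 with hJ
  have e1 : ∀ s : ℝ, LM w M (cs 0 s) = Lg (wM w M) (0 + s • J) - s ^ 2 * qf M 1 / 2 := by
    intro s
    rw [H43.cs_zero_smul, LM_eq hM hE, Matrix.mulVec_smul, H37.qf_smul, zero_add]
  have h1 : ∀ s : ℝ, HasDerivAt (fun s : ℝ => s ^ 2 * qf M 1 / 2 - Lg (wM w M) (0 + s • J))
      (s * qf M 1 - Ex (wM w M) (0 + s • J) (li J)) s := by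
    intro s
    have a1 := TM.H104.hasDerivAt_Lg hE (0 : V → ℝ) J s
    have a2 : HasDerivAt (fun s : ℝ => s ^ 2 * qf M 1 / 2) (s * qf M 1) s := by
      have a3 := (((hasDerivAt_id s).pow 2).mul_const (qf M 1)).div_const 2
      refine a3.congr_deriv ?_
      simp only [id_eq, Nat.cast_ofNat]
      ring
    exact a2.sub a1
  have h2 : ∀ s : ℝ, HasDerivAt (fun s : ℝ => s * qf M 1 - Ex (wM w M) (0 + s • J) (li J))
      (qf M 1 - Cv (wM w M) (0 + s • J) (li J) (li J)) s := by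
    intro s
    have a1 := TM.H104.hasDerivAt_Ex hE (Gr.li J) (0 : V → ℝ) J s
    have a2 : HasDerivAt (fun s : ℝ => s * qf M 1) (qf M 1) s := by
      simpa using (hasDerivAt_id s).mul_const (qf M 1)
    exact a2.sub a1
  have hc : Continuous fun s : ℝ => qf M 1 - Cv (wM w M) (0 + s • J) (li J) (li J) := by
    have a1 := TM.H104.continuous_Cv hE (Gr.li J) (Gr.li J)
    exact continuous_const.sub (a1.comp (by fun_prop))
  have key := TM.H104.second_le h1 h2 hc (q := q) ?_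
  · have e2 : qf M 1 - Cv (wM w M) (0 + (0 : ℝ) • J) (li J) (li J) = Lc w M := by
      rw [zero_smul, add_zero]
      unfold Lc
      rw [H789.qf_Gm hE]
    rw [e2] at key
    exact key
  · intro s
    have b1 := e1 s
    have b2 := e1 (-s)
    have b0 := e1 0
    have b3 := hq s
    have b4 := he s
    have e0 : cs (0 : V → ℝ) 0 = 0 := H145.cs_zero _
    rw [e0] at b0
    have e3 : (-s) ^ 2 = s ^ 2 := by ring
    rw [e3] at b2 ⊢
    have e4 : (0 : ℝ) ^ 2 * qf M 1 / 2 = 0 := by ring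
    rw [e4] at b0 ⊢
    linarith

end second

section series

variable {V : Type} [Fintype V] {w : (V → ℤ) → ℝ} {M : Matrix V V ℝ}

lemma ph_re (q : ℤ) (c : ℝ) : (ph q c).re = Real.cos (2 * Real.pi * q * c) := by
  unfold ph
  have : (-(2 * Real.pi * q * c) * Complex.I : ℂ) =
      ((-(2 * Real.pi * q * c) : ℝ) : ℂ) * Complex.I := by
    push_cast; ring
  rw [this, Complex.exp_ofReal_mul_I_re, Real.cos_neg]

/-- the Fourier series at zero background -/
theorem hasSum_cos (h : WP w M) (c : ℝ) :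
    HasSum (fun q : ℤ => Real.cos (2 * Real.pi * q * c) * om w M q)
      (ZM w M (fun _ => c) / Zn w M 0) := by
  have h1 := H896.hasSum_ZM h 0 c
  have e : (fun x : V => (0 : V → ℝ) x + c) = fun _ => c := by funext x; simp
  rw [e] at h1
  have h2 := (Complex.hasSum_re (h1.div_const (Zn w M 0 : ℂ)))
  have e2 : ((ZM w M (fun _ => c) : ℂ) / (Zn w M 0 : ℂ)).re = ZM w M (fun _ => c) / Zn w M 0 := by
    rw [← Complex.ofReal_div, Complex.ofReal_re]
  rw [e2] at h2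
  refine h2.congr_fun fun q => ?_
  have e3 : ph (-q) c * Zq w M q 0 / (Zn w M 0 : ℂ) = ph (-q) c * (om w M q : ℂ) := by
    rw [← H896.Ph_zero h.toWM]
    unfold H896.Ph
    ring
  rw [e3, Complex.re_mul_ofReal, ph_re]
  congr 1
  push_cast
  rw [show 2 * Real.pi * -(q : ℝ) * c = -(2 * Real.pi * q * c) by ring, Real.cos_neg]

/-- the total activity is at most the oscillation -/
lemma Om_le_osc (h : WP w M) {ω : ℝ} (hO : H145.OscZ w M ω) : Om w M ≤ ω := by
  have hn := H896.Zn_pos h.toWM 0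
  have h1 := hO 0 0 ⟨le_rfl, zero_le_one⟩
  rw [H145.cs_zero] at h1
  have h2 := (abs_le.1 h1).2
  unfold Om
  rw [sub_le_iff_le_add, div_le_iff₀ hn]
  linarith

theorem Om_le_Lc (h : WP w M) (hw : H145.Per w) (he : Ev (wM w M)) (hK : PK (wM w M)) {a : ℝ}
    (ha : Lc w M ≤ a) (ha1 : a ≤ 1) : Om w M ≤ a / 2 :=
  Om_le_osc h (H43.oscZ_of_Lc_le hw h.sym h.em he hK ha ha1)

/-- **`Lc ≤ 8 π² Σ q² om_q`** -/
theorem Lc_le_sum (h : WP w M) (hO : Om w M ≤ 1 / 2) {S : ℝ}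
    (hS : HasSum (fun q : ℤ => (q : ℝ) ^ 2 * om w M q) S) : Lc w M ≤ 8 * Real.pi ^ 2 * S := by
  have hM := h.sym
  have hE := h.em
  have hn := H896.Zn_pos h.toWM 0
  have hZ : ∀ c : ℝ, ZM w M (cs 0 c) = ZM w M (fun _ => c) := by
    intro c
    congr 1
    funext x
    simp [cs]
  have hZ0 : ZM w M 0 = ZM w M (fun _ => (0 : ℝ)) := rfl
  refine Lc_le_of hM hE ?_ ?_
  · intro s
    unfold LM
    rw [hZ, hZ]
    have h1 := hasSum_cos h s
    have h2 := hasSum_cos h (-s)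
    have e : (fun q : ℤ => Real.cos (2 * Real.pi * q * -s) * om w M q) =
        fun q : ℤ => Real.cos (2 * Real.pi * q * s) * om w M q := by
      funext q
      rw [mul_neg, Real.cos_neg]
    rw [e] at h2
    have h3 := h2.unique h1
    rw [div_left_inj' hn.ne'] at h3
    rw [h3]
  · intro s
    unfold LM
    rw [hZ, hZ0]
    have p0 := H37.ZM_pos hM hE (fun _ => (0 : ℝ))
    have ps := H37.ZM_pos hM hE (fun _ => s)
    rw [← Real.log_div p0.ne' ps.ne']
    have h1 := Real.log_le_sub_one_of_pos (div_pos p0 ps)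
    refine h1.trans ?_
    have a0 := hasSum_cos h 0
    have as := hasSum_cos h s
    have h2 := a0.sub as
    have h3 : ZM w M (fun _ => (0 : ℝ)) / Zn w M 0 - ZM w M (fun _ => s) / Zn w M 0 ≤
        2 * Real.pi ^ 2 * s ^ 2 * S := by
      refine hasSum_le (fun q => ?_) h2 (hS.mul_left (2 * Real.pi ^ 2 * s ^ 2))
      have h4 := Real.one_sub_sq_div_two_le_cos (x := 2 * Real.pi * q * s)
      have h5 := H896.om_nonneg h.toWM q
      rw [mul_zero, Real.cos_zero, one_mul]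
      nlinarith [mul_le_mul_of_nonneg_right h4 h5]
    have h4 := H896.abs_ZM_sub_le h 0 s
    have e : (fun x : V => (0 : V → ℝ) x + s) = fun _ => s := by funext x; simp
    rw [e] at h4
    have h5 := (abs_le.1 h4).1
    have h6 : Zn w M 0 / 2 ≤ ZM w M (fun _ => s) := by
      have := mul_le_mul_of_nonneg_right hO hn.le
      linarith
    rw [div_sub_one ps.ne', div_le_iff₀ ps]
    rw [← sub_div, div_le_iff₀ hn] at h3
    have hS0 : 0 ≤ S := hS.nonneg fun q => mul_nonneg (sq_nonneg _)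
      (H896.om_nonneg h.toWM q)
    have h7 : 0 ≤ 2 * Real.pi ^ 2 * s ^ 2 * S := by positivity
    have h8 := mul_le_mul_of_nonneg_left h6 h7
    have h9 : 8 * Real.pi ^ 2 * S * s ^ 2 / 2 * ZM w M (fun _ => s) =
        2 * (2 * Real.pi ^ 2 * s ^ 2 * S * ZM w M (fun _ => s)) := by ring
    rw [h9]
    linarith

lemma summable_q2 (h : WP w M) : Summable fun q : ℤ => (q : ℝ) ^ 2 * om w M q := by
  have hX := h.one
  have h1 := summable_pow_mul_jacobiTheta₂_term_bound 0 (T := 2 * Real.pi / qf M 1)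
    (by positivity) 2
  refine Summable.of_nonneg_of_le
    (fun q => mul_nonneg (sq_nonneg _) (H896.om_nonneg h.toWM q)) (fun q => ?_) h1
  have h2 := H896.om_le_exp h.toWM h.nn h.one q
  have e1 : ((|q| : ℤ) : ℝ) ^ 2 = (q : ℝ) ^ 2 := by
    rw [Int.cast_abs, sq_abs]
  rw [e1]
  refine mul_le_mul_of_nonneg_left (h2.trans (le_of_eq ?_)) (sq_nonneg _)
  congr 1
  ring

end series

section scal

variable {V : Type} [Fintype V] [DecidableEq V] [Nonempty V] {w : (V → ℤ) → ℝ}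

lemma u_exp_le (u : ℝ) : u * Real.exp (-u) ≤ 1 := by
  have h1 := Real.add_one_le_exp u
  have h2 : Real.exp u * Real.exp (-u) = 1 := by rw [← Real.exp_add, add_neg_cancel, Real.exp_zero]
  have h3 := Real.exp_pos (-u)
  nlinarith

/-- **the second moment of the activities** -/
theorem sum_q2_le {t X : ℝ} (ht : 0 < t) (hX : X = t * Fintype.card V)
    (h : WP w (t • (1 : Matrix V V ℝ))) (h2 : WP w ((2 * t) • (1 : Matrix V V ℝ)))
    (h4 : WM w ((2 * (2 * t)) • (1 : Matrix V V ℝ))) :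
    ∑' q : ℤ, (q : ℝ) ^ 2 * om w (t • (1 : Matrix V V ℝ)) q ≤
      2 * om w (t • (1 : Matrix V V ℝ)) 1 +
        X * (√(1 + 4 * √(2 * X)) * ch2 w ((2 * (2 * t)) • (1 : Matrix V V ℝ)) 0) := by
  have hcard : (0 : ℝ) < Fintype.card V := Nat.cast_pos.2 Fintype.card_pos
  have hX0 : 0 < X := by rw [hX]; positivity
  have hs := (summable_q2 h).hasSum
  have h3 := H415.Om_sub_le (w := w) (t := 2 * t) (by positivity) h2 h4
  have e0 : 2 * t * (Fintype.card V : ℝ) = 2 * X := by rw [hX]; ring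
  rw [e0] at h3
  have hs2 := H896.hasSum_om h2
  refine le_of_tendsto hs (Filter.eventually_atTop.2 ⟨{0, 1, -1}, fun Q hQ => ?_⟩)
  rw [← sum_sdiff hQ]
  have e1 : ∑ q ∈ ({0, 1, -1} : Finset ℤ), (q : ℝ) ^ 2 * om w (t • (1 : Matrix V V ℝ)) q =
      2 * om w (t • (1 : Matrix V V ℝ)) 1 := by
    rw [sum_insert (by decide), sum_insert (by decide), sum_singleton, H896.om_neg h.toWM]
    push_cast
    ring
  have e2 : ∑ q ∈ ({0, 1, -1} : Finset ℤ), om w ((2 * t) • (1 : Matrix V V ℝ)) q =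
      1 + 2 * om w ((2 * t) • (1 : Matrix V V ℝ)) 1 := by
    rw [sum_insert (by decide), sum_insert (by decide), sum_singleton, H896.om_zero h2.toWM,
      H896.om_neg h2.toWM]
    ring
  have h5 : ∑ q ∈ Q, om w ((2 * t) • (1 : Matrix V V ℝ)) q ≤
      1 + Om w ((2 * t) • (1 : Matrix V V ℝ)) :=
    sum_le_hasSum Q (fun q _ => H896.om_nonneg h2.toWM q) hs2
  rw [← sum_sdiff hQ, e2] at h5
  have h6 : ∑ q ∈ Q \ ({0, 1, -1} : Finset ℤ), (q : ℝ) ^ 2 * om w (t • (1 : Matrix V V ℝ)) q ≤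
      X * ∑ q ∈ Q \ ({0, 1, -1} : Finset ℤ), om w ((2 * t) • (1 : Matrix V V ℝ)) q := by
    rw [mul_sum]
    refine sum_le_sum fun q _ => ?_
    have h7 := H415.om_half (w := w) ht h.toWM q
    rw [← hX] at h7
    have h8 := H896.om_nonneg h2.toWM q
    have h9 := u_exp_le (Real.pi ^ 2 * q ^ 2 / X)
    have h10 : (q : ℝ) ^ 2 * Real.exp (-(Real.pi ^ 2 * q ^ 2 / X)) ≤ X := by
      have hpi : 1 ≤ Real.pi ^ 2 := by nlinarith [Real.pi_gt_three]
      have e3 : Real.pi ^ 2 * (q : ℝ) ^ 2 / X * Real.exp (-(Real.pi ^ 2 * q ^ 2 / X)) =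
          (Real.pi ^ 2 * ((q : ℝ) ^ 2 * Real.exp (-(Real.pi ^ 2 * q ^ 2 / X)))) / X := by ring
      rw [e3, div_le_one hX0] at h9
      have h11 : 0 ≤ (q : ℝ) ^ 2 * Real.exp (-(Real.pi ^ 2 * q ^ 2 / X)) := by positivity
      nlinarith
    calc (q : ℝ) ^ 2 * om w (t • (1 : Matrix V V ℝ)) q
        ≤ (q : ℝ) ^ 2 * (Real.exp (-(Real.pi ^ 2 * q ^ 2 / X)) *
          om w ((2 * t) • (1 : Matrix V V ℝ)) q) := mul_le_mul_of_nonneg_left h7 (sq_nonneg _)
      _ = ((q : ℝ) ^ 2 * Real.exp (-(Real.pi ^ 2 * q ^ 2 / X))) *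
          om w ((2 * t) • (1 : Matrix V V ℝ)) q := by ring
      _ ≤ _ := mul_le_mul_of_nonneg_right h10 h8
  have h7 : X * ∑ q ∈ Q \ ({0, 1, -1} : Finset ℤ), om w ((2 * t) • (1 : Matrix V V ℝ)) q ≤
      X * (√(1 + 4 * √(2 * X)) * ch2 w ((2 * (2 * t)) • (1 : Matrix V V ℝ)) 0) :=
    mul_le_mul_of_nonneg_left (by linarith) hX0.le
  linarith

end scal

section torus

variable {N : ℕ} [NeZero N] {b t : ℝ}

/-- **`2 om_1 ≤ Om ≤ t N² yt / 2`** -/
theorem om_le_yt (hb : 0 < b) (ht : 0 < t) (h : t * (N : ℝ) ^ 2 * yt N b t ≤ 1) :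
    Om (wT b N) (t • (1 : Matrix (V N) (V N) ℝ)) ≤ t * (N : ℝ) ^ 2 * yt N b t / 2 ∧
    om (wT b N) (t • (1 : Matrix (V N) (V N) ℝ)) 1 ≤ t * (N : ℝ) ^ 2 * yt N b t / 4 := by
  have hW := H896.wp_t (N := N) hb.le ht
  have e := H43.Lc_tor N b t
  have h1 := Om_le_Lc hW H145.per_wT H789.ev_wt (H789.pk_wt hb.le ht) (a := t * (N : ℝ) ^ 2 *
    yt N b t) (le_of_eq e) h
  have h2 := H896.two_om_le hW one_ne_zero
  exact ⟨h1, by linarith⟩

/-- **`t N² yt ≤ 8 π² (2 om_1 + t N² √(1 + 4 √(2 t N²)) ch2(4 t))`** -/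
theorem yt_le_om (hb : 0 < b) (ht : 0 < t)
    (hO : Om (wT b N) (t • (1 : Matrix (V N) (V N) ℝ)) ≤ 1 / 2) :
    t * (N : ℝ) ^ 2 * yt N b t ≤ 8 * Real.pi ^ 2 *
      (2 * om (wT b N) (t • (1 : Matrix (V N) (V N) ℝ)) 1 + t * (N : ℝ) ^ 2 *
        (√(1 + 4 * √(2 * (t * (N : ℝ) ^ 2))) *
          ch2 (wT b N) ((4 * t) • (1 : Matrix (V N) (V N) ℝ)) 0)) := by
  have hW := H896.wp_t (N := N) hb.le ht
  have hW2 := H896.wp_t (N := N) (t := 2 * t) hb.le (by positivity)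
  have hW4 := H896.wp_t (N := N) (t := 2 * (2 * t)) hb.le (by positivity)
  have hcard : (Fintype.card (V N) : ℝ) = (N : ℝ) ^ 2 := by
    show ((Fintype.card (ZMod N × ZMod N) : ℕ) : ℝ) = _
    rw [Fintype.card_prod, ZMod.card]
    push_cast
    ring
  have h1 := sum_q2_le (w := wT b N) ht (X := t * (N : ℝ) ^ 2) (by rw [hcard]) hW hW2 hW4.toWM
  have h2 := Lc_le_sum hW hO (summable_q2 hW).hasSum
  have e := H43.Lc_tor N b t
  have e4 : 2 * (2 * t) = 4 * t := by ring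
  rw [e4] at h1
  have e' : Lc (wT b N) (t • (1 : Matrix (V N) (V N) ℝ)) = t * (N : ℝ) ^ 2 * yt N b t := e
  rw [e'] at h2
  refine h2.trans ?_
  exact mul_le_mul_of_nonneg_left h1 (by positivity)

end torus

end

end Vale.Agent.P159.H316
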