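import Vale.Agent.P159.H316.Zb13

/-!
P159, V list part B (VB9 = ZB), helper316: the zero background relation with numbers.
`S = (√2) ^ x` (`2 ^ x` is the window), `t N ^ 2 ≤ 4 ^ k`, `10 k ≤ x`, `1 ≤ 4 ^ L (t l ^ 2)`.
-/

open MeasureTheory Finset Matrix Filter Topology
open Vale.Agent.P159.H37 (gau)
open Vale.Agent.P159.H896
open Vale.Agent.P159.TM.Spec (V)
open Vale.Agent.P159.TM.SpecC (wT)
open Vale.Agent.P159.TM.H764 (EE)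
open Vale.Agent.P159.H864 (TI sym MC)
open Vale.Agent.P159.H363 (acl lf Rcl Wcl gm sn Nf)
open Vale.Agent.P159.H462 (Dom)

set_option linter.unusedSectionVars false

namespace Vale.Agent.P159.H316

noncomputable section

lemma ZbIn.mono {N l : ℕ} [NeZero N] [NeZero (N / l)] {b t τ1 β r η p1 p2 β' r' : ℝ}
    (H : ZbIn N l b t τ1 β r η p1 p2) (h1 : β ≤ β') (h2 : r ≤ r') :
    ZbIn N l b t τ1 β' r' η p1 p2 := by
  refine ⟨fun τ2 a1 a2 k hk => (H.bk τ2 a1 a2 k hk).trans h1, H.nm, H.g1, fun τ2 a1 a2 => ?_⟩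
  refine (measureReal_mono fun g hg => ?_).trans (H.g2 τ2 a1 a2)
  simp only [Set.mem_ofPred_eq] at hg ⊢
  exact lt_of_le_of_lt h2 hg

/-- lower bound of the symbol away from the zero mode -/
lemma dom_gap {n : ℕ} [NeZero n] {A : Matrix (V n) (V n) ℝ} {ν c a e0 : ℝ} (h : Dom A ν c)
    (ha : 0 < a) (h1 : 2 * a ≤ ν) (he : e0 ≤ 16 / (n : ℝ) ^ 2) (h2 : 2 * a ≤ c * e0) {k : V n}
    (hk : k ≠ 0) : a ≤ sym A k := by
  have h3 := (H462.EE_gap hk)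
  have h4 : 2 * a ≤ c * EE k := by
    have := mul_le_mul_of_nonneg_left (he.trans h3) h.hc.le
    linarith
  refine le_trans ?_ (h.ge k)
  have hν := h.hν
  have h5 : 0 < c * EE k := by linarith
  rw [le_div_iff₀ (by positivity)]
  nlinarith [mul_nonneg (sub_nonneg.2 h1) h5.le, mul_nonneg (sub_nonneg.2 h4) hν.le]

/-! ### powers -/

section pw

variable {x k j : ℕ}

lemma S_sq (x : ℕ) : ((√2 : ℝ) ^ x) ^ 2 = 2 ^ x := by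
  rw [← pow_mul, mul_comm x 2, pow_mul, Real.sq_sqrt (by norm_num)]

lemma S_one (x : ℕ) : 1 ≤ (√2 : ℝ) ^ x :=
  one_le_pow₀ (by rw [Real.one_le_sqrt]; norm_num)

lemma k_bd (h : 8 * k ≤ x) : ((4 : ℝ) ^ k) ^ 2 ≤ (√2 : ℝ) ^ x := by
  have h1 : (4 : ℝ) ^ k = (√2) ^ (4 * k) := by
    rw [pow_mul]
    congr 1
    have : (√2 : ℝ) ^ 4 = ((√2 : ℝ) ^ 2) ^ 2 := by rw [← pow_mul]
    rw [this, Real.sq_sqrt (by norm_num)]
    norm_num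
  rw [h1, ← pow_mul]
  refine pow_le_pow_right₀ (by rw [Real.one_le_sqrt]; norm_num) (by omega)

lemma k_bd1 (h : 8 * k ≤ x) : (4 : ℝ) ^ k ≤ (√2 : ℝ) ^ x := by
  have h1 : (1 : ℝ) ≤ 4 ^ k := one_le_pow₀ (by norm_num)
  have h2 := k_bd h
  nlinarith

lemma four_S (x : ℕ) : (4 : ℝ) ^ x = ((√2 : ℝ) ^ x) ^ 4 := by
  have h : ((√2 : ℝ) ^ x) ^ 4 = (((√2 : ℝ) ^ x) ^ 2) ^ 2 := by ring
  rw [h, S_sq, ← pow_mul, mul_comm x 2, pow_mul]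
  norm_num

lemma j_bd (hj : 2 * j ≤ x) : (4 : ℝ) ^ j ≤ ((√2 : ℝ) ^ x) ^ 2 := by
  rw [S_sq]
  have : (4 : ℝ) ^ j = 2 ^ (2 * j) := by rw [pow_mul]; norm_num
  rw [this]
  exact pow_le_pow_right₀ (by norm_num) hj

lemma j_bd2 (hj : x ≤ 2 * j + 1) : ((1 : ℝ) / 4) ^ j ≤ 2 / ((√2 : ℝ) ^ x) ^ 2 := by
  rw [S_sq, le_div_iff₀ (by positivity)]
  have h1 : (2 : ℝ) ^ x ≤ 2 ^ (2 * j + 1) := pow_le_pow_right₀ (by norm_num) hj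
  have h2 : (2 : ℝ) ^ (2 * j + 1) = 2 * 4 ^ j := by
    rw [pow_succ, pow_mul]; norm_num; ring
  have h3 : ((1 : ℝ) / 4) ^ j * 4 ^ j = 1 := by rw [← mul_pow]; norm_num
  have h4 : (0 : ℝ) < (1 / 4) ^ j := by positivity
  nlinarith [mul_le_mul_of_nonneg_left (h1.trans (le_of_eq h2)) h4.le]

end pw

lemma sn_ge {l : ℕ} {t ts τ1 : ℝ} {x : ℕ} (hl : 0 < l) (ht : 0 < t) (hts : t ≤ ts)
    (hτ1 : 0 < τ1) (h : 4 ^ x * τ1 ≤ 4 * t) (hx : 2 ≤ x) :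
    4 ^ x / (8 * (t * (l : ℝ) ^ 2)) ≤ sn l ts τ1 := by
  have hlp : (0 : ℝ) < l := by exact_mod_cast hl
  unfold sn
  have h1 : ts⁻¹ ≤ t⁻¹ := inv_anti₀ ht hts
  have h2 : 4 ^ x / (4 * t) ≤ τ1⁻¹ := by
    rw [inv_eq_one_div, div_le_div_iff₀ (by positivity) hτ1]
    linarith
  have h3 : (16 : ℝ) ≤ 4 ^ x := by
    calc (16 : ℝ) = 4 ^ 2 := by norm_num
      _ ≤ 4 ^ x := pow_le_pow_right₀ (by norm_num) hx
  have h4 : t⁻¹ ≤ 4 ^ x / (8 * t) := by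
    rw [inv_eq_one_div, div_le_div_iff₀ ht (by positivity)]
    nlinarith
  have h5 : 4 ^ x / (8 * t) ≤ τ1⁻¹ - ts⁻¹ := by
    have : 4 ^ x / (4 * t) = 2 * (4 ^ x / (8 * t)) := by field_simp; norm_num
    linarith
  have e : 4 ^ x / (8 * (t * (l : ℝ) ^ 2)) = 4 ^ x / (8 * t) / (l : ℝ) ^ 2 := by
    field_simp
  rw [e]
  gcongr

/-- the step `ZbIn` at every mass of the octave, with numbers -/
lemma zbIn_num {N l : ℕ} [NeZero N] [NeZero (N / l)] {b : ℝ} (hb : 0 ≤ b) (hl : l ∣ N)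
    {t ts τ1 η p c0 c1 : ℝ} {x k : ℕ} (ht : 0 < t) (hts : t ≤ ts) (hN : t * (N : ℝ) ^ 2 ≤ 4 ^ k)
    (hk : 8 * k ≤ x) (hτ1 : 0 < τ1) (h : 4 ^ x * τ1 ≤ 4 * t) (hx : 2 ≤ x)
    (H : TyIn N l b ts η p) (hD : Dom (acl N l b ts ts) (ts * (l : ℝ) ^ 2) c0) (hc1 : 0 < c1)
    (hc2 : 2 * c1 ≤ 1) (hc3 : c1 ≤ 8 * c0) (hS : 8 / c1 ≤ (√2 : ℝ) ^ x) :
    ZbIn N l b ts τ1 (8 / (c1 ^ 2 * ((√2 : ℝ) ^ x) ^ 3 * t)) ((1 / 4) ^ (x / 2)) η (2 * p)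
      (2 * p) := by
  have hlp : (0 : ℝ) < l := by exact_mod_cast H864.l_pos hl
  have hln : 0 < l := H864.l_pos hl
  set S : ℝ := (√2 : ℝ) ^ x with hSd
  have S1 : 1 ≤ S := S_one x
  have S0 : 0 < S := by linarith
  have ht1 : τ1 < ts := by
    have h3 : (16 : ℝ) ≤ 4 ^ x := by
      calc (16 : ℝ) = 4 ^ 2 := by norm_num
        _ ≤ 4 ^ x := pow_le_pow_right₀ (by norm_num) hx
    nlinarith
  have hsn := sn_ge hln ht hts hτ1 h hx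
  set s1 := sn l ts τ1 with hs1
  set a0 : ℝ := (l : ℝ) ^ 2 * t * c1 / 4 ^ k with ha0
  have k4 : (1 : ℝ) ≤ 4 ^ k := one_le_pow₀ (by norm_num)
  have k4p : (0 : ℝ) < 4 ^ k := by linarith
  have ha0p : 0 < a0 := by positivity
  have hlt : 0 < t * (l : ℝ) ^ 2 := by positivity
  -- lower bound of the symbol
  have hNp : (0 : ℝ) < N := by exact_mod_cast NeZero.pos N
  have hcast : ((N / l : ℕ) : ℝ) = N / l := by
    rw [Nat.cast_div hl (by exact_mod_cast hlp.ne')]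
  have hgap : ∀ k', k' ≠ 0 → a0 ≤ sym (acl N l b ts ts) k' := by
    intro k' hk'
    refine dom_gap (e0 := 16 * (t * (l : ℝ) ^ 2) / 4 ^ k) hD ha0p ?_ ?_ ?_ hk'
    · have h1 : a0 ≤ (l : ℝ) ^ 2 * t * c1 := div_le_self (by positivity) k4
      have h2 : (l : ℝ) ^ 2 * t * (2 * c1) ≤ (l : ℝ) ^ 2 * t * 1 :=
        mul_le_mul_of_nonneg_left hc2 (by positivity)
      have h3 : t * (l : ℝ) ^ 2 ≤ ts * (l : ℝ) ^ 2 := mul_le_mul_of_nonneg_right hts (by positivity)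
      linarith
    · rw [hcast, div_le_div_iff₀ k4p (by positivity)]
      have h1 : 16 * (t * (l : ℝ) ^ 2) * ((N : ℝ) / l) ^ 2 = 16 * (t * (N : ℝ) ^ 2) := by
        field_simp
      rw [h1]
      linarith
    · have h1 : c0 * (16 * (t * (l : ℝ) ^ 2) / 4 ^ k) = 2 * (8 * c0) * (t * (l : ℝ) ^ 2) / 4 ^ k := by
        ring
      rw [h1, ha0, ← mul_div_assoc]
      refine div_le_div_of_nonneg_right ?_ k4p.le
      have h2 := mul_le_mul_of_nonneg_left hc3 hlt.le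
      linarith
  have hk1 : (4 : ℝ) ^ k ≤ S := k_bd1 hk
  have hk2 : ((4 : ℝ) ^ k) ^ 2 ≤ S := k_bd hk
  have h4x : (4 : ℝ) ^ x = S ^ 4 := four_S x
  rw [h4x] at hsn
  have hsp : 0 < s1 := lt_of_lt_of_le (by positivity) hsn
  -- the size of the step
  have hj : (4 : ℝ) ^ (x / 2) ≤ s1 * a0 := by
    have h1 : (4 : ℝ) ^ (x / 2) ≤ S ^ 2 := j_bd (by omega)
    have h2 : S ^ 4 / (8 * (t * (l : ℝ) ^ 2)) * a0 ≤ s1 * a0 :=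
      mul_le_mul_of_nonneg_right hsn ha0p.le
    have h3 : S ^ 4 / (8 * (t * (l : ℝ) ^ 2)) * a0 = S ^ 4 * c1 / (8 * 4 ^ k) := by
      rw [ha0]; field_simp
    refine h1.trans (le_trans ?_ h2)
    rw [h3, le_div_iff₀ (by positivity)]
    rw [div_le_iff₀ hc1] at hS
    calc S ^ 2 * (8 * 4 ^ k) ≤ S ^ 2 * (8 * S) := by gcongr
      _ = S ^ 3 * 8 := by ring
      _ ≤ S ^ 3 * (S * c1) := mul_le_mul_of_nonneg_left hS (by positivity)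
      _ = S ^ 4 * c1 := by ring
  have hZ := H.zbIn hb hl hτ1 ht1 (Nf.of_dom hD) ha0p hgap hj
  refine hZ.mono ?_ le_rfl
  have h5 : S ^ 4 / (8 * (t * (l : ℝ) ^ 2)) * a0 ^ 2 ≤ s1 * a0 ^ 2 :=
    mul_le_mul_of_nonneg_right hsn (by positivity)
  have h6 : S ^ 4 / (8 * (t * (l : ℝ) ^ 2)) * a0 ^ 2 =
      (l : ℝ) ^ 2 * (t * c1 ^ 2 * S ^ 4 / (8 * ((4 : ℝ) ^ k) ^ 2)) := by
    rw [ha0]; field_simp
  rw [h6] at h5
  have h7 : t * c1 ^ 2 * S ^ 3 / 8 ≤ t * c1 ^ 2 * S ^ 4 / (8 * ((4 : ℝ) ^ k) ^ 2) := by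
    rw [div_le_div_iff₀ (by norm_num) (by positivity)]
    have h8 : t * c1 ^ 2 * S ^ 3 * (8 * ((4 : ℝ) ^ k) ^ 2) ≤ t * c1 ^ 2 * S ^ 3 * (8 * S) := by
      gcongr
    calc t * c1 ^ 2 * S ^ 3 * (8 * ((4 : ℝ) ^ k) ^ 2) ≤ t * c1 ^ 2 * S ^ 3 * (8 * S) := h8
      _ = t * c1 ^ 2 * S ^ 4 * 8 := by ring
  have h9 : (l : ℝ) ^ 2 * (t * c1 ^ 2 * S ^ 3 / 8) ≤ s1 * a0 ^ 2 :=
    (mul_le_mul_of_nonneg_left h7 (by positivity)).trans h5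
  rw [div_le_div_iff₀ (by positivity) (by positivity)]
  calc (l : ℝ) ^ 2 * (c1 ^ 2 * S ^ 3 * t) = 8 * ((l : ℝ) ^ 2 * (t * c1 ^ 2 * S ^ 3 / 8)) := by ring
    _ ≤ 8 * (s1 * a0 ^ 2) := by linarith

lemma rp34_le {y Y : ℝ} (hy : 0 ≤ y) (h : y ≤ Y) (hY : 1 ≤ Y) : y ^ (3 / 4 : ℝ) ≤ Y := by
  calc y ^ (3 / 4 : ℝ) ≤ Y ^ (3 / 4 : ℝ) := Real.rpow_le_rpow hy h (by norm_num)
    _ ≤ Y ^ (1 : ℝ) := Real.rpow_le_rpow_of_exponent_le hY (by norm_num)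
    _ = Y := Real.rpow_one Y

lemma sq2_pow (L : ℕ) : ((4 : ℝ) ^ L) ^ (3 / 4 : ℝ) = (√2) ^ (3 * L) := by
  have h : (4 : ℝ) ^ L = ((√2) ^ L) ^ (4 : ℕ) := four_S L
  rw [h, ← Real.rpow_natCast ((√2) ^ L) 4, ← Real.rpow_mul (by positivity)]
  have e : ((4 : ℕ) : ℝ) * (3 / 4) = ((3 : ℕ) : ℝ) := by norm_num
  rw [e, Real.rpow_natCast, ← pow_mul, mul_comm]

/-- the size of the increments -/
lemma kap_num {N l : ℕ} [NeZero N] [NeZero (N / l)] (hl : l ∣ N)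
    {t c1 : ℝ} {x k L : ℕ} (ht : 0 < t) (hN : t * (N : ℝ) ^ 2 ≤ 4 ^ k)
    (hk : 8 * k ≤ x) (hL : 1 ≤ 4 ^ L * (t * (l : ℝ) ^ 2)) (hc1 : 0 < c1) (hc2 : c1 ≤ 1) :
    kap N l (4 * t) (8 / (c1 ^ 2 * ((√2 : ℝ) ^ x) ^ 3 * t)) ((1 / 4) ^ (x / 2))
      (((√2 : ℝ) ^ x) ^ 2) (3 * L + x) ≤ (3 + 23808 / c1 ^ 2) * ((L : ℝ) + x + 1) / (√2 : ℝ) ^ x := by
  have hlp : (0 : ℝ) < l := by exact_mod_cast H864.l_pos hl
  set S : ℝ := (√2 : ℝ) ^ x with hSd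
  have S1 : 1 ≤ S := S_one x
  have S0 : 0 < S := by linarith
  have hcast : ((N / l : ℕ) : ℝ) = N / l := by
    rw [Nat.cast_div hl (by exact_mod_cast hlp.ne')]
  have hk1 : (4 : ℝ) ^ k ≤ S := k_bd1 hk
  have hlt : 0 < t * (l : ℝ) ^ 2 := by positivity
  unfold kap
  -- first term
  have h1 : √(5 * ((1 : ℝ) / 4) ^ (x / 2) / 16) ≤ 1 / S := by
    rw [Real.sqrt_le_left (by positivity)]
    have := j_bd2 (x := x) (j := x / 2) (by omega)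
    have h2 : (0 : ℝ) < S ^ 2 := by positivity
    calc 5 * ((1 : ℝ) / 4) ^ (x / 2) / 16 ≤ 5 * (2 / S ^ 2) / 16 := by gcongr
      _ = (10 / 16) * (1 / S ^ 2) := by ring
      _ ≤ 1 * (1 / S ^ 2) := by
          refine mul_le_mul_of_nonneg_right (by norm_num) (by positivity)
      _ = (1 / S) ^ 2 := by ring
  -- second term
  have h2 : 4 * t * ((N / l : ℕ) : ℝ) ^ 2 * (8 / (c1 ^ 2 * S ^ 3 * t)) * S ^ 2 ≤
      32 / c1 ^ 2 * 4 ^ L := by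
    rw [hcast]
    have e : 4 * t * ((N : ℝ) / l) ^ 2 * (8 / (c1 ^ 2 * S ^ 3 * t)) * S ^ 2 =
        32 / c1 ^ 2 * ((t * (N : ℝ) ^ 2) / (S * (t * (l : ℝ) ^ 2))) := by
      field_simp
      ring
    rw [e]
    refine mul_le_mul_of_nonneg_left ?_ (by positivity)
    rw [div_le_iff₀ (by positivity)]
    calc t * (N : ℝ) ^ 2 ≤ S * 1 := by linarith
      _ ≤ S * (4 ^ L * (t * (l : ℝ) ^ 2)) := mul_le_mul_of_nonneg_left hL S0.le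
      _ = _ := by ring
  have h20 : 0 ≤ 4 * t * ((N / l : ℕ) : ℝ) ^ 2 * (8 / (c1 ^ 2 * S ^ 3 * t)) * S ^ 2 := by positivity
  have h3 : √(6 * (4 * t * ((N / l : ℕ) : ℝ) ^ 2 * (8 / (c1 ^ 2 * S ^ 3 * t)) * S ^ 2) ^ 2) ≤
      3 * (32 / c1 ^ 2 * 4 ^ L) := by
    rw [Real.sqrt_le_left (by positivity)]
    have h4 := pow_le_pow_left₀ h20 h2 2
    have h5 : 0 ≤ (32 / c1 ^ 2 * 4 ^ L) ^ 2 := by positivity
    nlinarith
  have h4 : √(6 * (4 * t * ((N / l : ℕ) : ℝ) ^ 2 * (8 / (c1 ^ 2 * S ^ 3 * t)) * S ^ 2) ^ 2) ^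
      (3 / 4 : ℝ) ≤ 96 / c1 ^ 2 * (√2) ^ (3 * L) := by
    have h5 := Real.rpow_le_rpow (Real.sqrt_nonneg _) h3 (show (0 : ℝ) ≤ 3 / 4 by norm_num)
    refine h5.trans ?_
    have e : 3 * (32 / c1 ^ 2 * (4 : ℝ) ^ L) = 96 / c1 ^ 2 * 4 ^ L := by ring
    rw [e, Real.mul_rpow (by positivity) (by positivity), sq2_pow]
    refine mul_le_mul_of_nonneg_right (rp34_le (by positivity) le_rfl ?_) (by positivity)
    rw [le_div_iff₀ (by positivity)]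
    have : c1 ^ 2 ≤ 1 := pow_le_one₀ hc1.le hc2
    linarith
  have h5 : (√2 : ℝ)⁻¹ ^ (3 * L + x) = ((√2) ^ (3 * L))⁻¹ * S⁻¹ := by
    rw [inv_pow, pow_add, mul_inv]
  have h6 : 62 * √(6 * (4 * t * ((N / l : ℕ) : ℝ) ^ 2 * (8 / (c1 ^ 2 * S ^ 3 * t)) * S ^ 2) ^ 2) ^
      (3 / 4 : ℝ) * (√2)⁻¹ ^ (3 * L + x) ≤ 5952 / c1 ^ 2 * (1 / S) := by
    rw [h5]
    have h7 : (0 : ℝ) < (√2) ^ (3 * L) := by positivity
    calc 62 * √(6 * (4 * t * ((N / l : ℕ) : ℝ) ^ 2 * (8 / (c1 ^ 2 * S ^ 3 * t)) * S ^ 2) ^ 2) ^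
          (3 / 4 : ℝ) * (((√2) ^ (3 * L))⁻¹ * S⁻¹) ≤
          62 * (96 / c1 ^ 2 * (√2) ^ (3 * L)) * (((√2) ^ (3 * L))⁻¹ * S⁻¹) := by gcongr
      _ = 5952 / c1 ^ 2 * (1 / S) := by field_simp; norm_num
  have h7 : ((3 * L + x : ℕ) : ℝ) * √(5 * ((1 : ℝ) / 4) ^ (x / 2) / 16) ≤
      (3 * ((L : ℝ) + x + 1)) * (1 / S) := by
    push_cast
    have h8 : (0 : ℝ) ≤ x := Nat.cast_nonneg x
    have h9 : (0 : ℝ) ≤ L := Nat.cast_nonneg L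
    refine mul_le_mul (by linarith) h1 (Real.sqrt_nonneg _) (by positivity)
  have h8 : (0 : ℝ) ≤ x := Nat.cast_nonneg x
  have h9 : (0 : ℝ) ≤ L := Nat.cast_nonneg L
  have h10 : 5952 / c1 ^ 2 * (1 / S) ≤ (23808 / c1 ^ 2 * ((L : ℝ) + x + 1)) * (1 / S) := by
    refine mul_le_mul_of_nonneg_right ?_ (by positivity)
    have h11 : 5952 / c1 ^ 2 * 1 ≤ 23808 / c1 ^ 2 * ((L : ℝ) + x + 1) := by
      refine mul_le_mul ?_ (by linarith) (by norm_num) (by positivity)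
      gcongr
      norm_num
    linarith
  calc _ ≤ (3 * ((L : ℝ) + x + 1)) * (1 / S) + (23808 / c1 ^ 2 * ((L : ℝ) + x + 1)) * (1 / S) :=
        add_le_add h7 (h6.trans h10)
    _ = _ := by ring

lemma zb_num_a {x B C1 c1 S t β u : ℝ} (ht : 0 < t) (hS : 1 ≤ S) (hx0 : 0 ≤ x) (hB : x + 1 ≤ B)
    (hc1 : 0 < c1) (hC1 : 0 ≤ C1) (hβ : β = 8 / (c1 ^ 2 * S ^ 3 * t)) (hu0 : 0 ≤ u) (hu : u ≤ x) :
    128 / 3 * t * u * β + (C1 * B / S) ^ 2 / 2 ≤ ((342 / c1 ^ 2 + C1 + 1) * B / S) ^ 2 := by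
  have hB1 : 1 ≤ B := by linarith
  have S0 : 0 < S := by linarith
  rw [hβ]
  have e1 : 128 / 3 * t * u * (8 / (c1 ^ 2 * S ^ 3 * t)) = 1024 / 3 / c1 ^ 2 * (u / S ^ 3) := by
    field_simp
    ring
  have h1 : u / S ^ 3 ≤ B ^ 2 / S ^ 2 := by
    rw [div_le_div_iff₀ (by positivity) (by positivity)]
    have h2 : S ^ 2 ≤ S ^ 3 := pow_le_pow_right₀ hS (by norm_num)
    have h3 : u ≤ B ^ 2 := by nlinarith
    nlinarith [mul_le_mul h3 h2 (by positivity) (by positivity)]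
  have h2 : 1024 / 3 / c1 ^ 2 * (u / S ^ 3) ≤ 342 / c1 ^ 2 * (B ^ 2 / S ^ 2) := by
    refine mul_le_mul ?_ h1 (by positivity) (by positivity)
    gcongr
    norm_num
  rw [e1]
  have h3 : (C1 * B / S) ^ 2 / 2 = C1 ^ 2 / 2 * (B ^ 2 / S ^ 2) := by
    rw [div_pow, mul_pow]; ring
  have h4 : ((342 / c1 ^ 2 + C1 + 1) * B / S) ^ 2 =
      (342 / c1 ^ 2 + C1 + 1) ^ 2 * (B ^ 2 / S ^ 2) := by
    rw [div_pow, mul_pow]; ring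
  rw [h3, h4]
  have h5 : 342 / c1 ^ 2 * (B ^ 2 / S ^ 2) + C1 ^ 2 / 2 * (B ^ 2 / S ^ 2) ≤
      (342 / c1 ^ 2 + C1 + 1) ^ 2 * (B ^ 2 / S ^ 2) := by
    rw [← add_mul]
    refine mul_le_mul_of_nonneg_right ?_ (by positivity)
    have h6 : 0 ≤ 342 / c1 ^ 2 := by positivity
    nlinarith
  linarith

lemma zb_num_E {S B C1 C2 η p C Y : ℝ} (hS : 1 ≤ S) (hB : 1 ≤ B) (hC : 5 + 2 * C2 + 6 * C1 ≤ C)
    (hY : Y = B / S) :
    (S ^ 2)⁻¹ + (4 * η + 2 * (C2 * B / S) + 6 * (C1 * B / S) + 2 * (2 * p) +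
      2 * (2 * p + 1 / S ^ 2)) ≤ C * Y + 4 * η + 8 * p := by
  have S0 : 0 < S := by linarith
  have h1 : (S ^ 2)⁻¹ ≤ Y := by
    rw [hY, inv_eq_one_div, div_le_div_iff₀ (by positivity) S0]
    nlinarith
  have h2 : 1 / S ^ 2 = (S ^ 2)⁻¹ := one_div _
  have h3 : 0 ≤ Y := by rw [hY]; positivity
  have e1 : 2 * (C2 * B / S) = 2 * C2 * Y := by rw [hY]; ring
  have e2 : 6 * (C1 * B / S) = 6 * C1 * Y := by rw [hY]; ring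
  rw [e1, e2, h2]
  have h4 := mul_le_mul_of_nonneg_right hC h3
  linarith

/-- **THE ZERO BACKGROUND RELATION WITH NUMBERS** -/
theorem zb_num {b : ℝ} (hb : 0 < b) {c0 : ℝ} (hc0 : 0 < c0) : ∃ C c : ℝ, 0 < C ∧ 0 < c ∧
    ∀ (N l : ℕ) [NeZero N] [NeZero (N / l)], l ∣ N → ∀ (t τ1 η p : ℝ) (x k L : ℕ),
    0 < t → 9 ≤ t * (N : ℝ) ^ 2 → t * (N : ℝ) ^ 2 ≤ 4 ^ k → 8 * k ≤ x →
    4 * t * (l : ℝ) ^ 2 ≤ 1 → 1 ≤ 4 ^ L * (t * (l : ℝ) ^ 2) → 2 ≤ x → 0 < τ1 →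
    4 ^ x * τ1 ≤ 4 * t →
    (∀ ts, t ≤ ts → ts ≤ 4 * t → TyIn N l b ts η p) →
    (∀ ts, t ≤ ts → ts ≤ 4 * t → Dom (acl N l b ts ts) (ts * (l : ℝ) ^ 2) c0) →
    (∀ r : ℝ, 0 < r → r ≤ 4 * t → 0 < om (wT b N) (r • (1 : Matrix (V N) (V N) ℝ)) 1) →
    C * (((L : ℝ) + x + 1) / (√2) ^ x) ≤ 1 / 2 → 0 ≤ η → 0 ≤ p →
    ∃ ts, t ≤ ts ∧ ts ≤ 4 * t ∧
    omh N l b ts τ1 ≤ Yn N b + C * √(t * (N : ℝ) ^ 2) * (t * (l : ℝ) ^ 2) ^ c +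
      omt N b (4 * t) * (C * (((L : ℝ) + x + 1) / (√2) ^ x) + 4 * η + 8 * p) := by
  obtain ⟨C0, c, hC0, hc, hz⟩ := zb_dini (b := b) hb
  obtain ⟨c1, hc1, hc2, hc3⟩ : ∃ c1 : ℝ, 0 < c1 ∧ 2 * c1 ≤ 1 ∧ c1 ≤ 8 * c0 := by
    refine ⟨min (1 / 2) (8 * c0), by positivity, ?_, min_le_right _ _⟩
    have := min_le_left (1 / 2 : ℝ) (8 * c0)
    linarith
  set C1 : ℝ := 3 + 23808 / c1 ^ 2 with hC1
  set C2 : ℝ := 342 / c1 ^ 2 + C1 + 1 with hC2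
  have C1p : 0 < C1 := by positivity
  have C2p : 0 < C2 := by positivity
  refine ⟨C0 + 8 / c1 + (5 + 2 * C2 + 6 * C1), c, by positivity, hc, ?_⟩
  set C : ℝ := C0 + 8 / c1 + (5 + 2 * C2 + 6 * C1) with hC
  have c8 : 0 < 8 / c1 := by positivity
  intro N l _ _ hl t τ1 η p x k L ht h9 hN hk h4 hL hx hτ1 hxτ hTy hDm hpos hsm hη hp
  set S : ℝ := (√2 : ℝ) ^ x with hSd
  have S1 : 1 ≤ S := S_one x
  have S0 : 0 < S := by linarith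
  have x0 : (0 : ℝ) ≤ x := Nat.cast_nonneg x
  have L0 : (0 : ℝ) ≤ L := Nat.cast_nonneg L
  set B : ℝ := (L : ℝ) + x + 1 with hB
  have B1 : 1 ≤ B := by linarith
  have hBS : 0 < B / S := by positivity
  have hS8 : 8 / c1 ≤ S := by
    have h1 : 8 / c1 * (B / S) ≤ C * (B / S) :=
      mul_le_mul_of_nonneg_right (by rw [hC]; linarith) hBS.le
    have h2 : 8 / c1 * (B / S) ≤ 1 / 2 := h1.trans hsm
    have h3 : 8 / c1 * (1 / S) ≤ 8 / c1 * (B / S) := by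
      refine mul_le_mul_of_nonneg_left ?_ c8.le
      gcongr
    have h4' : 8 / c1 * (1 / S) ≤ 1 := by linarith
    rw [mul_one_div, div_le_one S0] at h4'
    exact h4'
  have hZ : ∀ ts, t ≤ ts → ts ≤ 4 * t → ZbIn N l b ts τ1 (8 / (c1 ^ 2 * S ^ 3 * t))
      ((1 / 4) ^ (x / 2)) η (2 * p) (2 * p) := fun ts h1 h2 =>
    zbIn_num hb.le hl ht h1 hN hk hτ1 hxτ hx (hTy ts h1 h2) (hDm ts h1 h2) hc1 hc2 hc3 hS8
  have hkap := kap_num (c1 := c1) (x := x) (k := k) (L := L) hl ht hN hk hL hc1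
    (by linarith)
  rw [← hSd, ← hB, ← hC1] at hkap
  have hκ : C1 * B / S ≤ 1 / 2 := by
    have h1 : C1 * (B / S) ≤ C * (B / S) :=
      mul_le_mul_of_nonneg_right (by rw [hC]; linarith) hBS.le
    have h2 : C1 * B / S = C1 * (B / S) := by ring
    rw [h2]
    exact h1.trans hsm
  have hlog : Real.log (S ^ 2) ≤ x := by
    rw [hSd, S_sq, Real.log_pow]
    have := Real.log_two_lt_d9
    nlinarith
  have hlog0 : 0 ≤ Real.log (S ^ 2) := Real.log_nonneg (one_le_pow₀ S1)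
  have hS2 : 1 < S ^ 2 := by
    rw [hSd, S_sq]
    exact one_lt_pow₀ (by norm_num) (by omega)
  have hxlt : τ1 < t := by
    have h3 : (16 : ℝ) ≤ 4 ^ x := by
      calc (16 : ℝ) = 4 ^ 2 := by norm_num
        _ ≤ 4 ^ x := pow_le_pow_right₀ (by norm_num) hx
    nlinarith
  obtain ⟨ts, q1, q2, q3⟩ := hz N l hl t τ1 (8 / (c1 ^ 2 * S ^ 3 * t)) ((1 / 4) ^ (x / 2)) η (2 * p)
    (2 * p) (C2 * B / S) (S ^ 2) (S ^ 2) (C1 * B / S) (3 * L + x) ht h9 h4 hτ1 hxlt hZ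
    (pow_le_one₀ (by norm_num) (by norm_num)) (by positivity) (by positivity) hS2 hpos hkap hκ
    (by positivity)
    (zb_num_a ht S1 x0 (by rw [hB]; linarith) hc1 C1p.le rfl hlog0 hlog) hη (by positivity)
    (by positivity)
  refine ⟨ts, q1, q2, q3.trans ?_⟩
  have p4 : 0 ≤ omt N b (4 * t) := omt_nonneg hb.le (by positivity)
  have h1 := mul_le_mul_of_nonneg_left (zb_num_E (S := S) (B := B) (C1 := C1) (C2 := C2) (η := η)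
    (p := p) (C := C) S1 B1 (by rw [hC]; linarith) rfl) p4
  have h2 : C0 * √(t * (N : ℝ) ^ 2) * (t * (l : ℝ) ^ 2) ^ c ≤
      C * √(t * (N : ℝ) ^ 2) * (t * (l : ℝ) ^ 2) ^ c := by
    have : C0 ≤ C := by rw [hC]; linarith
    gcongr
  exact add_le_add (add_le_add le_rfl h2) h1

end

end Vale.Agent.P159.H316
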