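import Vale.Agent.P159.H159.Sub
import Vale.Agent.P159.H801.Halves

/-!
P159 (helper316): the state `Good` at the level `n - 1` with a constant loss of the size, and its
persistence from the P half of the step (the same state read at a larger size has a shorter window).
-/

namespace Vale.Agent.P159.H316

open Vale.Agent.P159.H972 (Par lg tn Good YBn StepP' one_le_lg)

noncomputable section

/-- the constant loss -/
def CP (P : Par) : ℝ := 2 ^ (1 / P.thp + 2)

/-- the state of the previous level -/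
def G1 (P : Par) (b : ℝ) (n : ℕ) (ε : ℝ) : Prop := Good P b (n - 1) (CP P * ε)

variable {P : Par} {b : ℝ}

lemma CP_eq (P : Par) : CP P = 4 * 2 ^ (1 / P.thp) := by
  unfold CP
  rw [Real.rpow_add two_pos, show (2 : ℝ) ^ (2 : ℝ) = 4 by norm_num]
  ring

lemma one_le_pow (P : Par) : (1 : ℝ) ≤ 2 ^ (1 / P.thp) :=
  Real.one_le_rpow one_le_two (by have := P.thp0; positivity)

lemma CP_ge (P : Par) : 4 ≤ CP P := by
  rw [CP_eq]
  have := one_le_pow P
  linarith

lemma YBn.mono' {n : ℕ} {ε ε' Y : ℝ} (h : YBn P b n ε Y) (hε : ε ≤ ε') : YBn P b n ε' Y :=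
  ⟨h.1, fun e he => h.2.1 e (hε.trans he), fun e he => h.2.2 e (hε.trans he)⟩

/-- the window at the larger size -/
lemma w_shift {ε : ℝ} (hε : 0 < ε) (hε1 : 2 ^ (1 / P.thp) * ε ≤ 1 / 2) :
    P.w (2 ^ (1 / P.thp) * ε) + 1 = P.w ε := by
  have hp := P.thp0
  have h1 := one_le_pow P
  have hc : (0 : ℝ) < 2 ^ (1 / P.thp) := by positivity
  have e1 : P.thp * Real.logb 2 (1 / ε) =
      P.thp * Real.logb 2 (1 / (2 ^ (1 / P.thp) * ε)) + 1 := by
    rw [one_div, one_div (_ * ε), Real.logb_inv, Real.logb_inv, Real.logb_mul hc.ne' hε.ne',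
      Real.logb_rpow two_pos (by norm_num)]
    field_simp
    ring
  have h2 : 0 ≤ P.thp * Real.logb 2 (1 / (2 ^ (1 / P.thp) * ε)) := by
    have := H972.one_le_logb (e := 2 ^ (1 / P.thp) * ε) (by positivity) hε1
    positivity
  unfold Par.w lg
  rw [e1, Nat.ceil_add_one h2]

/-- **persistence of the state of the previous level** -/
theorem g1_step {sg : ℝ} {N0 n m : ℕ} {ε ε' Y : ℝ} (hsg : 0 ≤ sg) (st : StepP' P b sg N0)
    (hn : N0 ≤ n) (hG : Good P b n ε) (hY : YBn P b n ε Y) (hY2 : Y ^ 2 ≤ ε) (hεs : ε ≤ P.es)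
    (hm1 : n + P.w ε ≤ m) (hm2 : m ≤ n + 4 * P.w ε) (h1 : ε / 2 ≤ ε')
    (h2 : ε ^ (-sg) * Y ^ 2 ≤ ε') : G1 P b m ε' := by
  have hε : 0 < ε := (pow_pos hY.1 2).trans_le hY2
  have hw := H972.w1 hε hεs
  have hε' : 0 < ε' := by linarith
  have hC := CP_ge P
  have hCε : 0 < CP P * ε' := by positivity
  rcases lt_or_ge m (n + P.w ε + 1) with hm | hm
  · -- the shortest window
    have hm3 : m = n + P.w ε := by omega
    set ε₁ : ℝ := 2 ^ (1 / P.thp) * ε with hε₁
    have hp1 := one_le_pow P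
    have hεε₁ : ε ≤ ε₁ := by
      rw [hε₁]
      nlinarith
    have h3 : 2 * ε₁ ≤ CP P * ε' := by
      rw [CP_eq, hε₁]
      have : 2 ^ (1 / P.thp) * (ε / 2) ≤ 2 ^ (1 / P.thp) * ε' :=
        mul_le_mul_of_nonneg_left h1 (by positivity)
      linarith
    rcases lt_or_ge P.es ε₁ with h4 | h4
    · exact H159.good_void (by linarith)
    · have h5 : ε₁ ≤ 1 / 2 := h4.trans P.es1
      have h6 : P.w ε₁ + 1 = P.w ε := w_shift hε h5
      have hε₁0 : 0 < ε₁ := hε.trans_le hεε₁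
      have hw1 := H972.w1 hε₁0 h4
      have h7 := st n (m - 1) ε₁ Y hn (hG.mono hεε₁) (YBn.mono' hY hεε₁) (hY2.trans hεε₁) h4
        (by omega) (by omega)
      refine h7.mono (max_le (by linarith) ?_)
      have h8 : ε₁ ^ (-sg) ≤ ε ^ (-sg) :=
        Real.rpow_le_rpow_of_nonpos hε hεε₁ (by linarith)
      have h9 : ε₁ ^ (-sg) * Y ^ 2 ≤ ε ^ (-sg) * Y ^ 2 :=
        mul_le_mul_of_nonneg_right h8 (sq_nonneg Y)
      have h10 : ε' ≤ CP P * ε' := by nlinarith
      linarith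
  · have h7 := st n (m - 1) ε Y hn hG hY hY2 hεs (by omega) (by omega)
    refine h7.mono (max_le ?_ ?_)
    · have h10 : ε' ≤ CP P * ε' := by nlinarith
      linarith
    · have h10 : ε' ≤ CP P * ε' := by nlinarith
      linarith

end

end Vale.Agent.P159.H316
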