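import Vale.Agent.P159.H43.P7
import Vale.Agent.P159.H316.Yb1
import Vale.Agent.P159.H889.Vb
import Vale.Agent.P159.H415.Torus

/-!
P159 (helper316), the start of V: the initial data.  The densities of the first harmonic are small
in `L²` on the sites (`415`, `Dh_nq`), hence in the typical law of the cells.
-/

set_option linter.unusedSectionVars false

namespace Vale.Agent.P159.H316

open MeasureTheory Finset Matrix
open Vale.Agent.P159.TM.Spec (V)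
open Vale.Agent.P159.TM.SpecC (Tor wT)
open Vale.Agent.P159.H37 (gau wt wM bf bf_eq)
open Vale.Agent.P159.H145 (mt cs)
open Vale.Agent.P159.H363 (acl lf pin n2 n2_le Ch Cov mainf)
open Vale.Agent.P159.H864 (cl TI)
open Vale.Agent.P159.H889 (Wc uc tn2 VB SB Lcl Den Dif)
open Vale.Agent.P159.H552 (idc lft nc)
open Vale.Agent.P159.H43 (dW dL Wq)
open Vale.Agent.P159.H415 (Dh nq Pq CH)
open Vale.Agent.P159.H896 (Om om ph Ph)
open Vale.Agent.P159.H764 (cm shc NC)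
open Vale.Agent.P159.TM.H104 (li Ex dU)

noncomputable section

section gen

variable {N l : ℕ} [NeZero N] [NeZero (N / l)] {b t : ℝ}

lemma dL_eq (F g : V N → ℝ) : dL (wT b N) (mt N t) F g = -dU (wT b N) (cm t) F g := by
  rw [H415.dU_wT]
  unfold dL
  have e1 : (mt N t).mulVec F = t • F := by
    rw [H889.mt_eq, smul_mulVec, one_mulVec]
  have e2 : (mt N t).mulVec g = t • g := by
    rw [H889.mt_eq, smul_mulVec, one_mulVec]
  have e3 : bf (mt N t) F g = ∑ x, t * g x * F x := by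
    rw [bf_eq, e2]
    simp only [dotProduct, Pi.smul_apply, smul_eq_mul]
    exact Finset.sum_congr rfl fun x _ => by ring
  rw [e1, e2, e3]
  have e4 : wM (wT b N) (mt N t) = wt N b t := rfl
  rw [e4]
  ring

lemma dW_eq (q : ℤ) (F g : V N → ℝ) : dW (wT b N) (mt N t) q F g = -Dh (wT b N) t q g F := by
  unfold dW Dh
  rw [← intervalIntegral.integral_neg]
  refine intervalIntegral.integral_congr fun c _ => ?_
  have e : (cs F c : V N → ℝ) = shc F c := rfl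
  show (dL (wT b N) (mt N t) (cs F c) g : ℂ) * ph q c =
    -((dU (wT b N) (cm t) (shc F c) g : ℂ) * ph q c)
  rw [dL_eq, e]
  push_cast
  ring

/-- gradient of the first harmonic in every background -/
theorem dW_le (hb : 0 ≤ b) (ht : 0 < t) {ω : ℝ} (hω : ω ≤ 1 / 2)
    (hOm : Om (wT b N) ((2 * t) • (1 : Matrix (V N) (V N) ℝ)) ≤ ω) (F g : V N → ℝ) :
    ‖dW (wT b N) (mt N t) 1 F g‖ ≤ 5 * ω * √(t * ∑ x, g x ^ 2) := by
  have h2t : 0 < 2 * t := by linarith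
  have hw0 := H789.wT_nonneg hb N
  have hwb := H789.wT_le hb (N := N)
  have hp : ∃ h, 0 < wT b N h := ⟨0, H789.wT_zero_pos hb⟩
  have hs1 : ∀ h, wT b N (h + 1) = wT b N h := H415.wT_one
  have hnc : NC (wT b N) t ω := H415.nc_wT hb ht (by linarith) hOm
  have hOm1 : Om (wT b N) (t • (1 : Matrix (V N) (V N) ℝ)) ≤ ω :=
    (H415.Om_scalar ht (by linarith) (H896.wp_t hb ht) (H896.wp_t hb h2t)).trans hOm
  have hcc : CH (wT b N) t ω := H415.ch_wT hb ht hOm1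
  have hcc2 : CH (wT b N) (2 * t) ω := H415.ch_wT hb h2t hOm
  have hω0 := hnc.ω0
  have hB : ∀ F : V N → ℝ, nq {1} (fun q => Pq (wT b N) (2 * t) q F) ≤ ω := by
    intro F
    rw [H415.nq_le_iff hω0]
    have h1 := H415.norm_Pq_le hw0 hwb hp hs1 h2t hcc2 one_ne_zero F
    simp only [Finset.sum_singleton]
    exact pow_le_pow_left₀ (norm_nonneg _) h1 2
  have h := H415.Dh_nq hw0 hwb hp hs1 ht hω hnc hcc (Q := {1}) (by simp) hω0 hB g F
  have e1 : nq {1} (fun q => Dh (wT b N) t q g F) = ‖Dh (wT b N) t 1 g F‖ := by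
    unfold nq
    rw [Finset.sum_singleton, Real.sqrt_sq (norm_nonneg _)]
  rw [e1] at h
  rw [dW_eq, norm_neg]
  refine h.trans (mul_le_mul_of_nonneg_right ?_ (Real.sqrt_nonneg _))
  nlinarith

lemma sum_idc (hl : l ∣ N) (a : V (N / l) → ℝ) :
    ∑ v : V N, (lf N l a v) ^ 2 = (l : ℝ) ^ 2 * ∑ x, a x ^ 2 := by
  have h1 : ∀ v : V N, lf N l a v ^ 2 =
      ∑ x, idc (cl : V N → V (N / l)) x v * a x ^ 2 := by
    intro v
    unfold lf idc
    simp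
  simp only [h1]
  rw [Finset.sum_comm, Finset.mul_sum]
  refine Finset.sum_congr rfl fun x _ => ?_
  rw [← Finset.sum_mul]
  have e : nc (cl : V N → V (N / l)) x = (l : ℝ) ^ 2 := by
    rw [H552.nc_eq]
    exact H864.card_cell hl x
  unfold nc at e
  rw [e]

/-- `L²` on the sites of the densities, every background -/
theorem sum_uc_sq (hb : 0 ≤ b) (hl : l ∣ N) (ht : 0 < t) {ω : ℝ} (hω : ω ≤ 1 / 2)
    (hOm : Om (wT b N) ((2 * t) • (1 : Matrix (V N) (V N) ℝ)) ≤ ω) (F : V (N / l) → ℝ) :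
    ∑ x, ‖uc N l b t x F‖ ^ 2 ≤ 2 * (ω ^ 2 * (t * (l : ℝ) ^ 2)) := by
  have hω0 : 0 ≤ ω := (H896.Om_nonneg (H896.wp_t hb (by linarith))).trans hOm
  have hπ := Real.pi_gt_three
  have hI : (2 * Real.pi * Complex.I : ℂ) ≠ 0 := by simp [Real.pi_ne_zero, Complex.I_ne_zero]
  have key : ∀ a : V (N / l) → ℝ, ‖∑ x, (a x : ℂ) * uc N l b t x F‖ ^ 2 ≤
      ω ^ 2 * (t * (l : ℝ) ^ 2) * ∑ x, a x ^ 2 := by
    intro a
    have h1 := dW_le hb ht hω hOm (lf N l F) (lf N l a)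
    rw [H889.dW_lf hb ht, sum_idc hl] at h1
    have e1 : ∑ x, (a x : ℂ) * dW (wT b N) (mt N t) 1 (lf N l F) (idc (cl : V N → V (N / l)) x) =
        (2 * Real.pi * Complex.I) * ∑ x, (a x : ℂ) * uc N l b t x F := by
      rw [Finset.mul_sum]
      refine Finset.sum_congr rfl fun x _ => ?_
      unfold uc H552.ut H552.uq
      rw [← H889.lf_eq_lft]
      field_simp
    rw [e1, norm_mul] at h1
    have e2 : ‖(2 * Real.pi * Complex.I : ℂ)‖ = 2 * Real.pi := by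
      rw [norm_mul, Complex.norm_I, mul_one]
      have : (2 * Real.pi : ℂ) = ((2 * Real.pi : ℝ) : ℂ) := by push_cast; ring
      rw [this, Complex.norm_real, Real.norm_eq_abs, abs_of_pos (by positivity)]
    rw [e2] at h1
    set n1 := ‖∑ x, (a x : ℂ) * uc N l b t x F‖ with hn1
    have hn0 : 0 ≤ n1 := norm_nonneg _
    have hs0 : 0 ≤ t * ((l : ℝ) ^ 2 * ∑ x, a x ^ 2) :=
      mul_nonneg ht.le (mul_nonneg (by positivity) (Finset.sum_nonneg fun _ _ => sq_nonneg _))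
    set S := √(t * ((l : ℝ) ^ 2 * ∑ x, a x ^ 2)) with hS
    have hS0 : 0 ≤ S := Real.sqrt_nonneg _
    have hS2 : S ^ 2 = t * ((l : ℝ) ^ 2 * ∑ x, a x ^ 2) := Real.sq_sqrt hs0
    have h3 : 6 * n1 ≤ 5 * ω * S := by nlinarith
    have h4 : n1 ≤ ω * S := by
      have : 0 ≤ ω * S := mul_nonneg hω0 hS0
      nlinarith
    calc n1 ^ 2 ≤ (ω * S) ^ 2 := pow_le_pow_left₀ hn0 h4 2
      _ = ω ^ 2 * (t * (l : ℝ) ^ 2) * ∑ x, a x ^ 2 := by rw [mul_pow, hS2]; ring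
  -- real and imaginary parts
  have part : ∀ (r : V (N / l) → ℝ), (∑ x, r x ^ 2 ≤ ‖∑ x, (r x : ℂ) * uc N l b t x F‖) →
      ∑ x, r x ^ 2 ≤ ω ^ 2 * (t * (l : ℝ) ^ 2) := by
    intro r hr
    have h0 : 0 ≤ ∑ x, r x ^ 2 := Finset.sum_nonneg fun _ _ => sq_nonneg _
    have h1 := key r
    have h2 := pow_le_pow_left₀ h0 hr 2
    rcases h0.eq_or_lt with h3 | h3
    · rw [← h3]
      positivity
    · have h4 : (∑ x, r x ^ 2) * (∑ x, r x ^ 2) ≤
          (ω ^ 2 * (t * (l : ℝ) ^ 2)) * ∑ x, r x ^ 2 := by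
        nlinarith
      exact le_of_mul_le_mul_right h4 h3
  have hre : ∑ x, (uc N l b t x F).re ^ 2 ≤ ω ^ 2 * (t * (l : ℝ) ^ 2) := by
    refine part _ ?_
    refine le_trans (le_of_eq ?_) (Complex.re_le_norm _)
    rw [Complex.re_sum]
    refine Finset.sum_congr rfl fun x _ => ?_
    rw [Complex.re_ofReal_mul]
    ring
  have him : ∑ x, (uc N l b t x F).im ^ 2 ≤ ω ^ 2 * (t * (l : ℝ) ^ 2) := by
    refine part _ ?_
    refine le_trans (le_of_eq ?_) (Complex.im_le_norm _)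
    rw [Complex.im_sum]
    refine Finset.sum_congr rfl fun x _ => ?_
    rw [Complex.im_ofReal_mul]
    ring
  have e : ∀ x, ‖uc N l b t x F‖ ^ 2 = (uc N l b t x F).re ^ 2 + (uc N l b t x F).im ^ 2 := by
    intro x
    rw [Complex.sq_norm, Complex.normSq_apply]
    ring
  simp only [e]
  rw [Finset.sum_add_distrib]
  linarith

/-- **typical size of the densities** in every translation invariant law -/
theorem tn2_uc (hb : 0 ≤ b) (hl : l ∣ N) (ht : 0 < t) {ω : ℝ} (hω : ω ≤ 1 / 2)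
    (hOm : Om (wT b N) ((2 * t) • (1 : Matrix (V N) (V N) ℝ)) ≤ ω)
    {A : Matrix (V (N / l)) (V (N / l)) ℝ} (hA : TI (pin A)) (x : V (N / l)) :
    tn2 A (uc N l b t x) ≤ 2 * ω * (√(t * (N : ℝ) ^ 2))⁻¹ * (t * (l : ℝ) ^ 2) := by
  have hω0 : 0 ≤ ω := (H896.Om_nonneg (H896.wp_t hb (by linarith))).trans hOm
  have hlp : (0 : ℝ) < l := by exact_mod_cast H864.l_pos hl
  have hN : (0 : ℝ) < (N : ℝ) := by exact_mod_cast NeZero.pos N
  have hn : (0 : ℝ) < ((N / l : ℕ) : ℝ) := by exact_mod_cast NeZero.pos (N / l)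
  have hnl : (N : ℝ) = ((N / l : ℕ) : ℝ) * l := by
    exact_mod_cast (Nat.div_mul_cancel hl).symm
  have hm : ∀ x, Measurable (uc N l b t x) := fun x => (H889.continuous_uc hb ht x).measurable
  have hK := fun F => H889.norm_uc_le (N := N) (l := l) hb ht hl x F
  have hsq := H889.tn2_sq (hm x) hK A
  have hcov := H889.cov_uc (N := N) (l := l) (b := b) (t := t) hb ht hl
  have hcard : ((Fintype.card (V (N / l)) : ℕ) : ℝ) = ((N / l : ℕ) : ℝ) ^ 2 := TM.H764.card_V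
  have h1 : ((N / l : ℕ) : ℝ) ^ 2 * tn2 A (uc N l b t x) ^ 2 ≤ 2 * (ω ^ 2 * (t * (l : ℝ) ^ 2)) := by
    have e1 : ((N / l : ℕ) : ℝ) ^ 2 * tn2 A (uc N l b t x) ^ 2 =
        ∑ y, ∫ g, ‖uc N l b t y (pin A *ᵥ g)‖ ^ 2 ∂(gau (V (N / l))) := by
      rw [hsq, ← hcard, ← nsmul_eq_mul, ← Finset.card_univ, ← Finset.sum_const]
      exact Finset.sum_congr rfl fun y _ => H889.int_cov hA hcov x y
    rw [e1, ← integral_finsetSum]
    · calc ∫ g, ∑ y, ‖uc N l b t y (pin A *ᵥ g)‖ ^ 2 ∂(gau (V (N / l))) ≤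
          ∫ _, 2 * (ω ^ 2 * (t * (l : ℝ) ^ 2)) ∂(gau (V (N / l))) := by
            refine integral_mono_of_nonneg (Filter.Eventually.of_forall fun g =>
              Finset.sum_nonneg fun _ _ => sq_nonneg _) (integrable_const _)
              (Filter.Eventually.of_forall fun g => sum_uc_sq hb hl ht hω hOm _)
        _ = _ := by simp
    · intro y _
      have h2 := (H889.memLp_tn (hm y) (fun F => H889.norm_uc_le (N := N) (l := l) hb ht hl y F)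
        A).norm.integrable_sq
      exact h2
  have hν0 : 0 < t * (l : ℝ) ^ 2 := by positivity
  have hTN0 : 0 < t * (N : ℝ) ^ 2 := by positivity
  set R := √(t * (N : ℝ) ^ 2) with hR
  have hR0 : 0 < R := Real.sqrt_pos.2 hTN0
  have hR2 : R ^ 2 = t * (N : ℝ) ^ 2 := Real.sq_sqrt hTN0.le
  have hb0 : 0 ≤ 2 * ω * R⁻¹ * (t * (l : ℝ) ^ 2) := by positivity
  refine le_of_sq_le_sq ?_ hb0
  have e2 : (2 * ω * R⁻¹ * (t * (l : ℝ) ^ 2)) ^ 2 =
      4 * (ω ^ 2 * (t * (l : ℝ) ^ 2)) / ((N / l : ℕ) : ℝ) ^ 2 := by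
    have : (2 * ω * R⁻¹ * (t * (l : ℝ) ^ 2)) ^ 2 =
        4 * ω ^ 2 * (t * (l : ℝ) ^ 2) ^ 2 * (R ^ 2)⁻¹ := by
      rw [← inv_pow]
      ring
    rw [this, hR2, hnl]
    field_simp
  rw [e2, le_div_iff₀ (by positivity)]
  have h0 : 0 ≤ ω ^ 2 * (t * (l : ℝ) ^ 2) := by positivity
  linarith

/-- **THE INITIAL STATE** (one torus): every coefficient `z` -/
theorem ini_VB (hb : 0 ≤ b) (hl : l ∣ N) (ht : 0 < t) {ω : ℝ} (hω : ω ≤ 1 / 2)
    (hOm : Om (wT b N) ((2 * t) • (1 : Matrix (V N) (V N) ℝ)) ≤ ω)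
    (hA : H363.Nf (acl N l b t t))
    (hp : ∀ x y, 0 ≤ (1 - (t * (l : ℝ) ^ 2)⁻¹ • acl N l b t t) x y) {D : ℕ} {η Lp e1 K K' : ℝ}
    {mu : V (N / l) → (V (N / l) → ℝ) → ℂ} (hL : Lcl (acl N l b t t) D η Lp (uc N l b t) mu)
    (hmu : ∀ x F, ‖mu x F‖ ≤ K) (hK : (2 * Real.pi)⁻¹ * (t * (l : ℝ) ^ 2) ≤ K)
    (he1 : ∀ F : V (N / l) → ℝ, ‖Ph (wT b N) (mt N t) 1 (lf N l F) - Wc N l b t F‖ ≤ e1)
    (hK' : t * (N : ℝ) ^ 2 ≤ K') (z : ℂ) :
    VB N l b t z (2 * ω * (√(t * (N : ℝ) ^ 2))⁻¹ * (t * (l : ℝ) ^ 2) + ‖z‖) D η Lp e1 K K' := by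
  have hω0 : 0 ≤ ω := (H896.Om_nonneg (H896.wp_t hb (by linarith))).trans hOm
  have hlp : (0 : ℝ) < l := by exact_mod_cast H864.l_pos hl
  have hN : (0 : ℝ) < (N : ℝ) := by exact_mod_cast NeZero.pos N
  have hnl : (N : ℝ) = ((N / l : ℕ) : ℝ) * l := by
    exact_mod_cast (Nat.div_mul_cancel hl).symm
  have hcard : ((Fintype.card (V (N / l)) : ℕ) : ℝ) = ((N / l : ℕ) : ℝ) ^ 2 := TM.H764.card_V
  have hm : ∀ x, Measurable (uc N l b t x) := fun x => (H889.continuous_uc hb ht x).measurable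
  have hcW := H889.continuous_Wc (N := N) (l := l) hb ht
  have hmain := fun x F => H889.mainf_le_one hA hp x F
  refine ⟨Wc N l b t, uc N l b t, mu, H889.dif_Wc hb ht hl, H889.ch_Wc hb ht, ?_, hL, ?_, ?_, hmu,
    ?_⟩
  · refine ⟨hm, ⟨_, fun x F => H889.norm_uc_le hb ht hl x F⟩, fun x => H889.ch_uc hb ht x,
      H889.cov_uc hb ht hl, fun x => ?_⟩
    have m2 : Measurable fun F => z * mainf (1 - (t * (l : ℝ) ^ 2)⁻¹ • acl N l b t t) x F :=
      (H363.measurable_mainf _ x).const_mul _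
    have b2 : ∀ F, ‖z * mainf (1 - (t * (l : ℝ) ^ 2)⁻¹ • acl N l b t t) x F‖ ≤ ‖z‖ := by
      intro F
      rw [norm_mul]
      exact mul_le_of_le_one_right (norm_nonneg _) (hmain x F)
    refine (H889.tn2_sub_le (hm x) m2 (fun F => H889.norm_uc_le hb ht hl x F) b2 _).trans
      (add_le_add (tn2_uc hb hl ht hω hOm (H363.ti_pin _) x) ?_)
    exact H363.n2_le_const ((m2.comp (H363.measurable_mulVec _)).aestronglyMeasurable)
      (norm_nonneg _) fun g => b2 _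
  · have h0 : 0 ≤ e1 := (norm_nonneg _).trans (he1 0)
    refine H363.n2_le_const ?_ h0 fun g => he1 _
    refine (Measurable.comp (g := fun F : V (N / l) → ℝ =>
      Ph (wT b N) (mt N t) 1 (lf N l F) - Wc N l b t F) ?_ (H363.measurable_mulVec _)
      ).aestronglyMeasurable
    exact ((LNK.meas_Ph hb ht 1).comp H363.measurable_lf).sub hcW.measurable
  · exact fun x F => (H889.norm_uc_le hb ht hl x F).trans hK
  · intro F
    rw [← H889.sum_uc hb ht]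
    have hπ := Real.pi_gt_three
    refine (norm_sum_le _ _).trans ((Finset.sum_le_sum fun x _ =>
      H889.norm_uc_le hb ht hl x F).trans ?_)
    rw [Finset.sum_const, Finset.card_univ, nsmul_eq_mul, hcard]
    have h1 : (2 * Real.pi)⁻¹ ≤ 1 := inv_le_one_of_one_le₀ (by linarith)
    have h2 : ((N / l : ℕ) : ℝ) ^ 2 * ((2 * Real.pi)⁻¹ * (t * (l : ℝ) ^ 2)) =
        (2 * Real.pi)⁻¹ * (t * (N : ℝ) ^ 2) := by rw [hnl]; ring
    rw [h2]
    have h3 : 0 ≤ t * (N : ℝ) ^ 2 := by positivity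
    nlinarith

end gen

section torus

variable {b : ℝ} {n r s : ℕ} {Y : ℝ}

lemma four_tn_sq (hr : n ≤ r) : 4 * H972.tn n * ((2 ^ r : ℕ) : ℝ) ^ 2 = 4 * (2 ^ (r - n)) ^ 2 := by
  rw [mul_assoc, H43.tn_mul_sq hr]

lemma Om_tor (hb : 0 < b) (hr : n ≤ r) (hy : H864.yt (2 ^ r) b (4 * H972.tn n) ≤ Y)
    (hs : 4 * ((2 ^ (r - n)) ^ 2 * Y) ≤ 1) :
    Om (wT b (2 ^ r)) ((2 * H972.tn n) • (1 : Matrix (V (2 ^ r)) (V (2 ^ r)) ℝ)) ≤
      2 * ((2 ^ (r - n)) ^ 2 * Y) := by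
  have ht0 : 0 < H972.tn n := tn_pos' n
  have e1 := four_tn_sq (n := n) (r := r) hr
  have h3 : (2 ^ (r - n)) ^ 2 * H864.yt (2 ^ r) b (4 * H972.tn n) ≤ (2 ^ (r - n)) ^ 2 * Y :=
    mul_le_mul_of_nonneg_left hy (by positivity)
  have h4 := (om_le_yt (N := 2 ^ r) hb (t := 4 * H972.tn n) (by positivity)
    (by rw [e1]; linarith)).1
  rw [e1] at h4
  have h5 := H415.Om_scalar (w := wT b (2 ^ r)) (s := 2 * H972.tn n) (t := 4 * H972.tn n)
    (by positivity) (by linarith) (H896.wp_t (N := 2 ^ r) hb.le (by positivity))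
    (H896.wp_t (N := 2 ^ r) hb.le (by positivity))
  refine h5.trans (h4.trans ?_)
  linarith

/-- the number `e₁` from `yt` alone -/
lemma e1_crude (hb : 0 < b) (hr : n ≤ r) (hy : H864.yt (2 ^ r) b (4 * H972.tn n) ≤ Y)
    (hs : 4 * ((2 ^ (r - n)) ^ 2 * Y) ≤ 1) (F : Tor (2 ^ r) → ℝ) :
    ‖Ph (wT b (2 ^ r)) (mt (2 ^ r) (H972.tn n)) 1 F -
      Wq (wT b (2 ^ r)) (mt (2 ^ r) (H972.tn n)) 1 F‖ ≤ 56 * ((2 ^ (r - n)) ^ 2 * Y) ^ 2 := by
  have h1 := H43.e1_tor hb hr hy hs (H43.ch2_crude hb hr hy hs) F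
  have h0 : 0 ≤ (2 ^ (r - n)) ^ 2 * Y := mul_nonneg (by positivity)
    ((H864.yt_nonneg hb.le (by have := tn_pos' n; positivity)).trans hy)
  set x := (2 ^ (r - n)) ^ 2 * Y with hx
  have h2 : 192 * x ^ 3 ≤ 48 * x ^ 2 := by
    have : x ^ 2 * (4 * x) ≤ x ^ 2 * 1 := mul_le_mul_of_nonneg_left hs (by positivity)
    nlinarith
  nlinarith

/-- **THE INITIAL STATE on the torus `2 ^ r`**, cells `2 ^ s`, mass `tn n`, natural units -/
theorem ini_tor (hb : 0 < b) (hr : n ≤ r) (hsr : s ≤ r) [NeZero (2 ^ r / 2 ^ s)]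
    (hy : H864.yt (2 ^ r) b (4 * H972.tn n) ≤ Y) (hs : 4 * ((2 ^ (r - n)) ^ 2 * Y) ≤ 1)
    (hA : H363.Nf (acl (2 ^ r) (2 ^ s) b (H972.tn n) (H972.tn n)))
    (hp : ∀ x y, 0 ≤ (1 - (H972.tn n * ((2 ^ s : ℕ) : ℝ) ^ 2)⁻¹ •
      acl (2 ^ r) (2 ^ s) b (H972.tn n) (H972.tn n)) x y) {D : ℕ} {η Lp K K' : ℝ}
    {mu : V (2 ^ r / 2 ^ s) → (V (2 ^ r / 2 ^ s) → ℝ) → ℂ}
    (hL : Lcl (acl (2 ^ r) (2 ^ s) b (H972.tn n) (H972.tn n)) D η Lp
      (uc (2 ^ r) (2 ^ s) b (H972.tn n)) mu)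
    (hmu : ∀ x F, ‖mu x F‖ ≤ K) (hK : (2 * Real.pi)⁻¹ * (H972.tn n * ((2 ^ s : ℕ) : ℝ) ^ 2) ≤ K)
    (hK' : (2 ^ (r - n)) ^ 2 ≤ K') (z : ℂ) :
    VB (2 ^ r) (2 ^ s) b (H972.tn n) z
      (4 * (2 ^ (r - n) * Y) * (H972.tn n * ((2 ^ s : ℕ) : ℝ) ^ 2) + ‖z‖) D η Lp
      (56 * ((2 ^ (r - n)) ^ 2 * Y) ^ 2) K K' := by
  have ht0 : 0 < H972.tn n := tn_pos' n
  have h1 := Om_tor hb hr hy hs
  have e2 : H972.tn n * ((2 ^ r : ℕ) : ℝ) ^ 2 = (2 ^ (r - n)) ^ 2 := H43.tn_mul_sq hr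
  have h2 := ini_VB (N := 2 ^ r) (l := 2 ^ s) hb.le (pow_dvd_pow 2 hsr) ht0
    (ω := 2 * ((2 ^ (r - n)) ^ 2 * Y)) (by linarith) h1 hA hp hL hmu hK
    (fun F => e1_crude hb hr hy hs _) (K' := K') (by rw [e2]; exact hK') z
  have e3 : √(H972.tn n * ((2 ^ r : ℕ) : ℝ) ^ 2) = 2 ^ (r - n) := by
    rw [e2, Real.sqrt_sq (by positivity)]
  rw [e3] at h2
  have hR : (0 : ℝ) < 2 ^ (r - n) := by positivity
  have e4 : 2 * (2 * ((2 ^ (r - n)) ^ 2 * Y)) * ((2 : ℝ) ^ (r - n))⁻¹ *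
      (H972.tn n * ((2 ^ s : ℕ) : ℝ) ^ 2) =
      4 * (2 ^ (r - n) * Y) * (H972.tn n * ((2 ^ s : ℕ) : ℝ) ^ 2) := by
    field_simp
    ring
  rw [e4] at h2
  exact h2

end torus

end

end Vale.Agent.P159.H316
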