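import Vale.Agent.P159.H316.Zb11
import Vale.Agent.P159.H363.Pob2

/-!
P159, V list part B (VB9 = ZB), helper316: **the zero background relation** on a torus.
-/

open MeasureTheory Finset Matrix Filter Topology
open scoped ComplexConjugate
open Vale.Agent.P159.TM.H104 (EM nh li Ex Lg Gr)
open Vale.Agent.P159.H37 (wM ZM qf bf Zn Zq Un Ev gau gau_shift cellP)
open Vale.Agent.P159.H896
open Vale.Agent.P159.TM.Spec (V)
open Vale.Agent.P159.TM.SpecC (Tor wT)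
open Vale.Agent.P159.TM.H764 (EE)
open Vale.Agent.P159.H864 (TI sym MC cl cobV fc)
open Vale.Agent.P159.H963 (Pn nMC nM ntr gw_wT mf_MC eq2 An pin)
open Vale.Agent.P159.H363 (acl lf Rcl Wcl gm sn)

set_option linter.unusedSectionVars false

namespace Vale.Agent.P159.H316

noncomputable section

variable {N l : ℕ} [NeZero N] [NeZero (N / l)] {b t τ τ' : ℝ}

lemma K4c_Qn (hl : l ∣ N) (ht : 0 < t) (F : V (N / l) → ℝ) :
    K4c N l b t t (Qn (V (N / l)) *ᵥ F) = K4c N l b t t F := by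
  have hrow : ∀ x, ∑ y, MC N l t t x y = t := (mf_MC hl ht le_rfl).row
  have h1 : lf N l (Qn (V (N / l)) *ᵥ F) = lf N l F -
      ((Fintype.card (V (N / l)) : ℝ)⁻¹ * ∑ y, F y) • (fun _ : V N => (1 : ℝ)) := by
    funext v
    simp only [lf, Pi.sub_apply, Pi.smul_apply, smul_eq_mul, mul_one]
    rw [Qn, sub_mulVec, one_mulVec, Pi.sub_apply]
    simp only [P0, mulVec, dotProduct, of_apply, Finset.mul_sum]
  have h2 : ntr (MC N l t t) t *ᵥ (fun _ : V N => (1 : ℝ)) = 0 := by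
    funext v
    have := H963.ntr_row hrow v
    simpa [mulVec, dotProduct] using this
  have h3 : ntr (MC N l t t) t *ᵥ lf N l (Qn (V (N / l)) *ᵥ F) =
      ntr (MC N l t t) t *ᵥ lf N l F := by
    rw [h1, mulVec_sub, mulVec_smul, h2, smul_zero, sub_zero]
  unfold K4c
  rw [h3]

lemma markov_sq {I Λ : Type} [Fintype I] [Fintype Λ] (B : Matrix Λ I ℝ) {S x : ℝ}
    (hS : ∑ c, ∑ i, B c i ^ 2 ≤ S) (hx : 0 < x) :
    (gau I).real {g | x < ∑ c, (B *ᵥ g) c ^ 2} ≤ S / x := by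
  have h1 : ∀ g : I → ℝ, ∑ c, (B *ᵥ g) c ^ 2 = ∑ c, (B c ⬝ᵥ g) ^ 2 := fun g => rfl
  have hi : Integrable (fun g : I → ℝ => ∑ c, (B *ᵥ g) c ^ 2) (gau I) := by
    simp only [h1]
    exact integrable_finsetSum _ fun c _ => H363.integrable_dot_sq (B c)
  have hv : ∫ g : I → ℝ, ∑ c, (B *ᵥ g) c ^ 2 ∂(gau I) = ∑ c, ∑ i, B c i ^ 2 := by
    simp only [h1]
    rw [integral_finsetSum _ fun c _ => H363.integrable_dot_sq (B c)]
    exact Finset.sum_congr rfl fun c _ => H363.integral_dot_sq (B c)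
  have h2 := mul_meas_ge_le_integral_of_nonneg (μ := gau I)
    (Filter.Eventually.of_forall fun g => Finset.sum_nonneg fun c _ => sq_nonneg ((B *ᵥ g) c)) hi x
  rw [hv] at h2
  rw [le_div_iff₀ hx]
  have h3 : (gau I).real {g | x < ∑ c, (B *ᵥ g) c ^ 2} ≤
      (gau I).real {g | x ≤ ∑ c, (B *ᵥ g) c ^ 2} :=
    measureReal_mono fun g hg => by
      simp only [Set.mem_ofPred_eq] at hg ⊢
      exact hg.le
  nlinarith

lemma Qn_eq {n : ℕ} [NeZero n] : Qn (V n) = (Pn : Matrix (V n) (V n) ℝ) := by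
  refine Matrix.toLin'.injective ?_
  refine LinearMap.ext fun u => ?_
  rw [Matrix.toLin'_apply, Matrix.toLin'_apply, H963.Pn_mulVec]
  funext x
  rw [Qn, sub_mulVec, one_mulVec, Pi.sub_apply]
  simp only [P0, mulVec, dotProduct, of_apply]
  rw [← Finset.mul_sum]
  ring

lemma im_trace {n : ℕ} [NeZero n] {A : Matrix (V n) (V n) ℝ} (h0 : ∀ k, 0 ≤ sym A k)
    {s1 s2 β : ℝ} (h1 : 0 ≤ s1) (h : s1 ≤ s2) (hβ0 : 0 ≤ β)
    (hβ : ∀ k, k ≠ 0 → dv s1 s2 (sym A k) ≤ β) :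
    ∑ c, ∑ i, (Qn (V n) * im s1 s2 A) c i ^ 2 ≤ (n : ℝ) ^ 2 * β := by
  have tB : TI (Qn (V n) * im s1 s2 A) := by
    rw [Qn_eq]
    exact H963.ti_Pn.mul (ti_im s1 s2 A)
  have e1 : ∑ c, ∑ i, (Qn (V n) * im s1 s2 A) c i ^ 2 =
      ((Qn (V n) * im s1 s2 A) * (Qn (V n) * im s1 s2 A)).trace := by
    unfold Matrix.trace
    refine Finset.sum_congr rfl fun c _ => ?_
    rw [Matrix.diag_apply, Matrix.mul_apply]
    refine Finset.sum_congr rfl fun i _ => ?_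
    rw [pow_two, tB.sy i c]
  rw [e1, (tB.mul tB).trace_eq]
  have h2 : ∀ k, sym ((Qn (V n) * im s1 s2 A) * (Qn (V n) * im s1 s2 A)) k ≤ β := by
    intro k
    rw [H864.sym_mul tB tB, Qn_eq, H864.sym_mul H963.ti_Pn (ti_im s1 s2 A), H963.sym_Pn]
    unfold im
    rw [H864.sym_fc]
    by_cases hk : k = 0
    · rw [if_pos hk]
      simpa using hβ0
    · rw [if_neg hk, one_mul, Real.mul_self_sqrt (dv_nonneg h1 h (h0 k))]
      exact hβ k hk
  refine (Finset.sum_le_sum fun k _ => h2 k).trans (le_of_eq ?_)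
  rw [Finset.sum_const, Finset.card_univ, nsmul_eq_mul, TM.H764.card_V]

/-- tail of the quartic cumulant of the noise increment -/
lemma K4c_tail (hb : 0 ≤ b) (hl : l ∣ N) (ht : 0 < t) {s1 s2 β lam : ℝ} (h1 : 0 ≤ s1)
    (h : s1 ≤ s2) (hβ0 : 0 < β) (hlam : 0 < lam)
    (hβ : ∀ k, k ≠ 0 → (l : ℝ) ^ 2 * dv s1 s2 (sym (acl N l b t t) k) ≤ β) :
    (gau (V (N / l))).real {g | 12 * (t * ((N / l : ℕ) : ℝ) ^ 2 * β * lam) ^ 2 <
      K4c N l b t t (im s1 s2 (acl N l b t t) *ᵥ g)} ≤ 1 / lam := by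
  have hlp : (0 : ℝ) < l := by exact_mod_cast H864.l_pos hl
  have hn : (0 : ℝ) < ((N / l : ℕ) : ℝ) := by exact_mod_cast NeZero.pos (N / l)
  set A := acl N l b t t with hA
  set n : ℝ := ((N / l : ℕ) : ℝ) with hndef
  have nA : ∀ k, 0 ≤ sym A k := H363.sym_acl_nonneg hb hl ht le_rfl
  have h2 := im_trace (β := β / (l : ℝ) ^ 2) nA h1 h (by positivity) (fun k hk => by
    rw [le_div_iff₀ (by positivity)]
    have := hβ k hk
    linarith)
  set x : ℝ := n ^ 2 * β * lam / (l : ℝ) ^ 2 with hx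
  have hx0 : 0 < x := by positivity
  have h3 := markov_sq (Qn (V (N / l)) * im s1 s2 A) h2 hx0
  have h4 : n ^ 2 * (β / (l : ℝ) ^ 2) / x = 1 / lam := by
    rw [hx]
    field_simp
  rw [← hndef, h4] at h3
  refine le_trans (measureReal_mono fun g hg => ?_) h3
  simp only [Set.mem_ofPred_eq] at hg ⊢
  rw [← K4c_Qn hl ht] at hg
  have h5 := K4c_le (b := b) hb hl ht (Qn (V (N / l)) *ᵥ im s1 s2 A *ᵥ g)
  have h6 := lt_of_lt_of_le hg h5
  have h7 : (t * n ^ 2 * β * lam) ^ 2 < (t * (l : ℝ) ^ 2 *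
      ∑ c, (Qn (V (N / l)) *ᵥ im s1 s2 A *ᵥ g) c ^ 2) ^ 2 := by linarith
  have h8 := lt_of_pow_lt_pow_left₀ 2 (by positivity) h7
  rw [← mulVec_mulVec]
  rw [mulVec_mulVec] at h8 ⊢
  have h9 : t * (l : ℝ) ^ 2 * x < t * (l : ℝ) ^ 2 *
      ∑ c, ((Qn (V (N / l)) * im s1 s2 A) *ᵥ g) c ^ 2 := by
    refine lt_of_le_of_lt (le_of_eq ?_) h8
    rw [hx]
    field_simp
  exact lt_of_mul_lt_mul_left h9 (by positivity)

/-- inputs of the zero background relation at the base mass `t` (Gaussian cell fields, all target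
masses `τ2 < τ1`) -/
structure ZbIn (N l : ℕ) [NeZero N] [NeZero (N / l)] (b t τ1 β r η p1 p2 : ℝ) : Prop where
  bk : ∀ τ2, 0 < τ2 → τ2 < τ1 → ∀ k, k ≠ 0 →
    (l : ℝ) ^ 2 * dv (sn l t τ1) (sn l t τ2) (sym (acl N l b t t) k) ≤ β
  nm : ∀ τ2, 0 < τ2 → τ2 ≤ τ1 →
    ∫ g, Wcl N l b t t (gm (sn l t τ2) (acl N l b t t) *ᵥ g) ∂(gau (V (N / l))) ≤ 1 + η
  g1 : (gau (V (N / l))).real {g | 1 / 4 < Rcl N l b t t
      ((2 : ℝ) • (gm (sn l t τ1) (acl N l b t t) *ᵥ g))} ≤ p1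
  g2 : ∀ τ2, 0 < τ2 → τ2 < τ1 → (gau (V (N / l))).real {g | r < Rcl N l b t t
      ((8 : ℝ) • (im (sn l t τ1) (sn l t τ2) (acl N l b t t) *ᵥ g))} ≤ p2

/-- the size of the increments of the charge functional -/
def kap (N l : ℕ) [NeZero N] [NeZero (N / l)] (t β r lam : ℝ) (J : ℕ) : ℝ :=
  J * √(5 * r / 16) + 62 * √(6 * (t * ((N / l : ℕ) : ℝ) ^ 2 * β * lam) ^ 2) ^ (3 / 4 : ℝ) *
    (√2)⁻¹ ^ J

lemma kap_nonneg (N l : ℕ) [NeZero N] [NeZero (N / l)] (t β r lam : ℝ) (J : ℕ) :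
    0 ≤ kap N l t β r lam J := by
  unfold kap
  positivity

/-- one pair of masses -/
theorem zb_pair (hb : 0 ≤ b) (hl : l ∣ N) {τ1 τ2 β r η p1 p2 c a lam : ℝ} {J : ℕ} (ht : 0 < t)
    (h1 : τ1 < t) (H : ZbIn N l b t τ1 β r η p1 p2) (hr1 : r ≤ 1) (hβ : 0 < β)
    (hc : 0 ≤ c) (hlam : 0 < lam)
    (hpos : ∀ r : ℝ, 0 < r → r ≤ t → 0 < om (wT b N) (r • (1 : Matrix (V N) (V N) ℝ)) 1)
    (hd : ∀ δ0 : ℝ, 0 < δ0 → ∃ δ, 0 < δ ∧ δ < δ0 ∧
      fl (wT b N) t⁻¹ - fl (wT b N) (t⁻¹ + δ) ≤ c * δ)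
    (hκ1 : kap N l t β r lam J ≤ 1 / 2)
    (ha : 0 < a) (haE : 16 * c * β + kap N l t β r lam J ^ 2 / 2 ≤ a ^ 2)
    (h2 : 0 < τ2) (h21 : τ2 < τ1) :
    omh N l b t τ1 ≤ omh N l b t τ2 + omt N b t *
      (4 * η + 2 * a + 6 * kap N l t β r lam J + 2 * p1 + 2 * (p2 + 1 / lam)) := by
  have hτ1 : 0 < τ1 := h2.trans h21
  set A := acl N l b t t with hA
  set s1 := sn l t τ1 with hs1
  set s2 := sn l t τ2 with hs2
  have s1p : 0 < s1 := H363.sn_pos hl hτ1 h1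
  have s12 : s1 ≤ s2 := by
    rw [hs1, hs2]
    unfold sn
    have : τ1⁻¹ ≤ τ2⁻¹ := inv_anti₀ h2 h21.le
    gcongr
  set q : ℝ := 12 * (t * ((N / l : ℕ) : ℝ) ^ 2 * β * lam) ^ 2 with hq
  have hE := (gw_wT (N := N) hb).em_nM (mf_MC hl ht le_rfl) 0
  have hEv := (gw_wT (N := N) hb).ev_nM (MC N l t t) t 0
  have hPK := (gw_wT (N := N) hb).pk_nM (mf_MC hl ht le_rfl) 0
  have mS2 : MeasurableSet ({g : V (N / l) → ℝ | Rcl N l b t t ((8 : ℝ) • (im s1 s2 A *ᵥ g)) ≤ r} ∩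
      {g | K4c N l b t t (im s1 s2 A *ᵥ g) ≤ q}) := by
    refine MeasurableSet.inter (measurableSet_le ?_ measurable_const)
      (measurableSet_le ?_ measurable_const)
    · have h5 := (H363.continuous_Rcl (b := b) (t := t) hb hl ht le_rfl)
      exact (h5.comp ((continuous_const_smul (8 : ℝ)).comp (continuous_mv _))).measurable
    · have h6 := H447.K4_meas hE hEv hPK
      have h7 : Continuous fun g : V (N / l) → ℝ =>
          ntr (MC N l t t) t *ᵥ lf N l (im s1 s2 A *ᵥ g) :=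
        (continuous_mv _).comp (H363.continuous_lf.comp (continuous_mv _))
      exact h6.comp h7.measurable
  have hcomp : ({g : V (N / l) → ℝ | Rcl N l b t t ((8 : ℝ) • (im s1 s2 A *ᵥ g)) ≤ r} ∩
      {g | K4c N l b t t (im s1 s2 A *ᵥ g) ≤ q})ᶜ ⊆
      {g | r < Rcl N l b t t ((8 : ℝ) • (im s1 s2 A *ᵥ g))} ∪
        {g | q < K4c N l b t t (im s1 s2 A *ᵥ g)} := by
    intro g hg
    by_cases h3 : Rcl N l b t t ((8 : ℝ) • (im s1 s2 A *ᵥ g)) ≤ r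
    · right
      show q < K4c N l b t t (im s1 s2 A *ᵥ g)
      by_contra h4
      have h5 : K4c N l b t t (im s1 s2 A *ᵥ g) ≤ q := not_lt.1 h4
      exact hg ⟨h3, h5⟩
    · left
      exact not_le.1 h3
  have hp : (gau (V (N / l))).real ({g : V (N / l) → ℝ | Rcl N l b t t
      ((8 : ℝ) • (im s1 s2 A *ᵥ g)) ≤ r} ∩ {g | K4c N l b t t (im s1 s2 A *ᵥ g) ≤ q})ᶜ ≤
      p2 + 1 / lam := by
    refine (measureReal_mono hcomp).trans ((measureReal_union_le _ _).trans ?_)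
    exact add_le_add (H.g2 τ2 h2 h21)
      (K4c_tail hb hl ht s1p.le s12 hβ hlam (H.bk τ2 h2 h21))
  have key := zb_tor hb hl (τ1 := τ1) (τ2 := τ2) (β := β) (c := c)
    (κ := kap N l t β r lam J) (a := a) (η := η) (p1 := p1) (p2 := p2 + 1 / lam) ht h2 h21 h1 hβ hc
    (H.bk τ2 h2 h21) (H.nm τ1 hτ1 le_rfl) (H.nm τ2 h2 h21.le) hpos hd H.g1 mS2
    (by
      intro g hg k
      obtain ⟨hg1, hg2⟩ := hg
      have hg1' : Rcl N l b t t ((8 : ℝ) • (im s1 s2 A *ᵥ g)) ≤ r := hg1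
      have hg2' : K4c N l b t t (im s1 s2 A *ᵥ g) ≤ q := hg2
      have h5 := dbl_lf_R (b := b) hb hl ht (im s1 s2 A *ᵥ g) (hg1'.trans hr1) J k
      refine h5.trans ?_
      unfold kap
      refine add_le_add ?_ ?_
      · refine mul_le_mul_of_nonneg_left (Real.sqrt_le_sqrt ?_) (Nat.cast_nonneg J)
        have h6 := Rcl_quarter (b := b) hb hl ht ((8 : ℝ) • (im s1 s2 A *ᵥ g)) 2
        rw [smul_smul] at h6
        norm_num at h6
        have h7 : Rcl N l b t t ((2 : ℝ) • (im s1 s2 A *ᵥ g)) ≤ r / 16 := by linarith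
        linarith
      · refine mul_le_mul_of_nonneg_right (mul_le_mul_of_nonneg_left ?_ (by norm_num))
          (by positivity)
        refine Real.rpow_le_rpow (Real.sqrt_nonneg _) (Real.sqrt_le_sqrt ?_) (by norm_num)
        rw [hq] at hg2'
        linarith)
    hp (kap_nonneg N l t β r lam J) hκ1 ha haE
  have := (abs_le.1 key).1
  linarith

/-- one base mass, massless limit -/
theorem zb_lim (hb : 0 < b) (hl : l ∣ N) {τ1 β r η p1 p2 c a lam : ℝ} {J : ℕ} (ht : 0 < t)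
    (hτ1 : 0 < τ1) (h1 : τ1 < t) (H : ZbIn N l b t τ1 β r η p1 p2) (hr1 : r ≤ 1) (hβ : 0 < β)
    (hc : 0 ≤ c) (hlam : 0 < lam)
    (hpos : ∀ r : ℝ, 0 < r → r ≤ t → 0 < om (wT b N) (r • (1 : Matrix (V N) (V N) ℝ)) 1)
    (hd : ∀ δ0 : ℝ, 0 < δ0 → ∃ δ, 0 < δ ∧ δ < δ0 ∧
      fl (wT b N) t⁻¹ - fl (wT b N) (t⁻¹ + δ) ≤ c * δ)
    (hκ1 : kap N l t β r lam J ≤ 1 / 2)
    (ha : 0 < a) (haE : 16 * c * β + kap N l t β r lam J ^ 2 / 2 ≤ a ^ 2) :
    omh N l b t τ1 ≤ Ex (pin (wM (wT b N) (t • (1 - cellP N l))) 0) 0 (H963.cq 1 0) +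
      omt N b t * (4 * η + 2 * a + 6 * kap N l t β r lam J + 2 * p1 + 2 * (p2 + 1 / lam)) := by
  have hlim := H375.lim_cell (b := b) hb hl ht (0 : V N) (0 : V N → ℝ)
    (F := H963.cq 1 0) (H963.gr_cq 1 0)
  refine ge_of_tendsto (hlim.add_const _) ?_
  filter_upwards [Ioo_mem_nhdsGT hτ1] with τ2 hτ2
  exact zb_pair hb.le hl ht h1 H hr1 hβ hc hlam hpos hd hκ1 ha haE hτ2.1 hτ2.2

/-- monotonicity in the mass -/
theorem omt_mono (hb : 0 ≤ b) {t' : ℝ} (ht' : 0 < t') (h : t' ≤ t) : omt N b t' ≤ omt N b t := by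
  have ht : 0 < t := ht'.trans_le h
  have hn : (0 : ℝ) < Fintype.card (V N) := by exact_mod_cast Fintype.card_pos
  have hσ : 0 ≤ t'⁻¹ - t⁻¹ := sub_nonneg.2 (inv_anti₀ ht' h)
  have h1 := om_Mn (ad_wT (N := N) hb) ht hσ
  have e1 : t / (1 + (t'⁻¹ - t⁻¹) * t) = t' := by
    have : 1 + (t'⁻¹ - t⁻¹) * t = t / t' := by
      field_simp
      ring
    rw [this]
    field_simp
  rw [e1] at h1
  have hc := chn_Mn (V := V N) ht hσ
  have hWn := (ad_wT (N := N) hb).wm _ hc.sym' (Chn.coe hc (coe_smul ht))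
  have h2 := om_mono hc hWn 1
  rw [omt_eq hb ht', omt_eq hb ht, h1, ← mul_assoc, ← Real.exp_add]
  have e2 : 2 * Real.pi ^ 2 / (t' * (Fintype.card (V N) : ℝ)) +
      -(2 * Real.pi ^ 2 * ((t'⁻¹ - t⁻¹) / (Fintype.card (V N) : ℝ))) =
      2 * Real.pi ^ 2 / (t * (Fintype.card (V N) : ℝ)) := by
    field_simp
    ring
  rw [e2]
  exact mul_le_mul_of_nonneg_left h2 (Real.exp_pos _).le

lemma fl_log (hb : 0 ≤ b) {s : ℝ} (hs : 0 < s)
    (h : 0 < om (wT b N) (s⁻¹ • (1 : Matrix (V N) (V N) ℝ)) 1) :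
    fl (wT b N) s = Real.log (omt N b s⁻¹) := by
  have hn : (0 : ℝ) < Fintype.card (V N) := by exact_mod_cast Fintype.card_pos
  rw [omt_eq hb (by positivity), Real.log_mul (Real.exp_pos _).ne' h.ne', Real.log_exp, fl]
  field_simp
  ring

lemma omt_pos (hb : 0 ≤ b) (ht : 0 < t)
    (h : 0 < om (wT b N) (t • (1 : Matrix (V N) (V N) ℝ)) 1) : 0 < omt N b t := by
  rw [omt_eq hb ht]
  exact mul_pos (Real.exp_pos _) h

/-- cell mass against scalar mass -/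
lemma omt_le_omh (hb : 0 ≤ b) (hl : l ∣ N) (hτ : 0 < τ) (h : τ ≤ t) :
    omt N b τ ≤ omh N l b t τ := by
  have h1 := H375.om_fine_mono (N := N) hb hl hτ h 1
  rw [(gw_wT hb).om_eq (mf_MC hl hτ h) (H363.wm_MC (b := b) (N := N) hb hl hτ h) (0 : V N) 1,
    (gw_wT hb).om_eq (H963.mf_smul hτ) (H896.wm_t hb hτ) (0 : V N) 1] at h1
  exact le_of_mul_le_mul_left h1 (H963.eq2_pos τ 1)

/-- the massless value -/
def Yn (N : ℕ) [NeZero N] (b : ℝ) : ℝ := Ex (pin (wT b N) 0) 0 (H963.cq 1 0)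

lemma omt_nonneg (hb : 0 ≤ b) (ht : 0 < t) : 0 ≤ omt N b t := by
  have hW := (ad_wT (N := N) hb).wm (t • (1 : Matrix (V N) (V N) ℝ))
    (by rw [transpose_smul, transpose_one]) (coe_smul ht)
  rw [omt_eq hb ht]
  exact mul_nonneg (Real.exp_pos _).le (om_nonneg hW 1)

/-- the massless value is the limit of the massive ones -/
lemma omt_lim (hb : 0 < b) : Tendsto (fun a : ℝ => omt N b a) (𝓝[>] 0) (𝓝 (Yn N b)) :=
  H375.lim_scalar (b := b) hb (0 : V N) (0 : V N → ℝ) (F := H963.cq 1 0) (H963.gr_cq 1 0)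

lemma Yn_nonneg (hb : 0 < b) : 0 ≤ Yn N b := by
  refine ge_of_tendsto (omt_lim (N := N) hb) ?_
  filter_upwards [self_mem_nhdsWithin] with a ha
  exact omt_nonneg hb.le ha

/-- the massless value is the smallest -/
lemma Yn_le (hb : 0 < b) (ht : 0 < t) : Yn N b ≤ omt N b t := by
  refine le_of_tendsto (omt_lim (N := N) hb) ?_
  filter_upwards [Ioo_mem_nhdsGT ht] with a ha
  exact omt_mono hb.le ha.1 ha.2.le

lemma zb_fine {C c ts Nr lr : ℝ} (hC : 0 ≤ C) (hc : 0 ≤ c) (ht : 0 ≤ t) (hts0 : 0 ≤ ts)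
    (hts2 : ts ≤ 4 * t) : C * √(ts * Nr ^ 2) * (ts * lr ^ 2) ^ c ≤
      C * √4 * 4 ^ c * √(t * Nr ^ 2) * (t * lr ^ 2) ^ c := by
  have h3 : √(ts * Nr ^ 2) ≤ √4 * √(t * Nr ^ 2) := by
    rw [← Real.sqrt_mul (by norm_num)]
    refine Real.sqrt_le_sqrt ?_
    have := mul_le_mul_of_nonneg_right hts2 (sq_nonneg Nr)
    linarith
  have h4 : (ts * lr ^ 2) ^ c ≤ 4 ^ c * (t * lr ^ 2) ^ c := by
    rw [← Real.mul_rpow (by norm_num) (by positivity)]
    refine Real.rpow_le_rpow (by positivity) ?_ hc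
    have := mul_le_mul_of_nonneg_right hts2 (sq_nonneg lr)
    linarith
  calc C * √(ts * Nr ^ 2) * (ts * lr ^ 2) ^ c ≤
        C * (√4 * √(t * Nr ^ 2)) * (4 ^ c * (t * lr ^ 2) ^ c) := by gcongr
    _ = _ := by ring

lemma kap_mono {β r lam : ℝ} {J : ℕ} {t' : ℝ} (ht : 0 ≤ t) (h : t ≤ t') (hβ : 0 ≤ β)
    (hlam : 0 ≤ lam) : kap N l t β r lam J ≤ kap N l t' β r lam J := by
  unfold kap
  have hn : (0 : ℝ) ≤ ((N / l : ℕ) : ℝ) ^ 2 := by positivity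
  gcongr

lemma zb_aux1 {η a k κ p1 p2 lam : ℝ} (h : k ≤ κ) :
    4 * η + 2 * a + 6 * k + 2 * p1 + 2 * (p2 + 1 / lam) ≤
      4 * η + 2 * a + 6 * κ + 2 * p1 + 2 * (p2 + 1 / lam) := by linarith

lemma zb_aux2 {η a k p1 p2 lam : ℝ} (h1 : 0 ≤ η) (h2 : 0 ≤ a) (h3 : 0 ≤ k) (h4 : 0 ≤ p1)
    (h5 : 0 ≤ p2) (h6 : 0 < lam) :
    0 ≤ 4 * η + 2 * a + 6 * k + 2 * p1 + 2 * (p2 + 1 / lam) := by positivity

lemma zb_aux3 {x1 x2 mz y f f' z e m : ℝ} (h5 : x1 ≤ x2) (hlim : x2 ≤ mz + z)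
    (h7 : mz - y ≤ f) (hf : f ≤ f') (h8 : z ≤ e) (h11 : 0 ≤ m) : x1 ≤ y + f' + (m + e) := by
  linarith

/-- **THE ZERO BACKGROUND RELATION** (ZB) on one torus -/
theorem zb_star (hb : 0 < b) : ∃ C c : ℝ, 0 < C ∧ 0 < c ∧
    ∀ (N l : ℕ) [NeZero N] [NeZero (N / l)], l ∣ N → ∀ (t τ1 β r η p1 p2 a lam M κ : ℝ) (J : ℕ),
    0 < t → 9 ≤ t * (N : ℝ) ^ 2 → 4 * t * (l : ℝ) ^ 2 ≤ 1 → 0 < τ1 → τ1 < t →
    (∀ ts, t ≤ ts → ts ≤ 4 * t → ZbIn N l b ts τ1 β r η p1 p2) → r ≤ 1 → 0 < β → 0 < lam →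
    1 < M →
    (∀ r : ℝ, 0 < r → r ≤ 4 * t → 0 < om (wT b N) (r • (1 : Matrix (V N) (V N) ℝ)) 1) →
    kap N l (4 * t) β r lam J ≤ κ → κ ≤ 1 / 2 → 0 < a →
    128 / 3 * t * Real.log M * β + κ ^ 2 / 2 ≤ a ^ 2 → 0 ≤ η → 0 ≤ p1 → 0 ≤ p2 →
    omt N b τ1 ≤ Yn N b + C * √(t * (N : ℝ) ^ 2) * (t * (l : ℝ) ^ 2) ^ c +
      omt N b (4 * t) * (M⁻¹ + (4 * η + 2 * a + 6 * κ + 2 * p1 + 2 * (p2 + 1 / lam))) := by
  obtain ⟨C, c, hC, hc, hU⟩ := H375.val_zero (b := b) hb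
  refine ⟨C * √4 * 4 ^ c, c, by positivity, hc, ?_⟩
  intro N l _ _ hl t τ1 β r η p1 p2 a lam M κ J ht htN htl hτ1 h1 H hr1 hβ hlam hM hpos hκ hκ1 ha
    haE hη hp1 hp2
  have hlp : (0 : ℝ) < l := by exact_mod_cast H864.l_pos hl
  have hM0 : 0 < M := by linarith
  have hlogM : 0 < Real.log M := Real.log_pos hM
  have hκ0 : 0 ≤ κ := (kap_nonneg N l (4 * t) β r lam J).trans hκ
  have p4 : 0 < omt N b (4 * t) := omt_pos hb.le (by positivity) (hpos _ (by positivity) le_rfl)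
  have pt : 0 < omt N b t := omt_pos hb.le ht (hpos _ ht (by linarith))
  set E : ℝ := 4 * η + 2 * a + 6 * κ + 2 * p1 + 2 * (p2 + 1 / lam) with hE
  have hE0 : 0 ≤ E := by positivity
  have hY0 : 0 ≤ Yn N b := Yn_nonneg hb
  have hF0 : 0 ≤ C * √4 * 4 ^ c * √(t * (N : ℝ) ^ 2) * (t * (l : ℝ) ^ 2) ^ c := by positivity
  by_cases hcase : omt N b t ≤ M⁻¹ * omt N b (4 * t)
  · -- the activity drops in one octave
    have h2 := omt_mono (N := N) hb.le hτ1 h1.le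
    have h3 : 0 ≤ omt N b (4 * t) * E := mul_nonneg p4.le hE0
    have h4 : omt N b (4 * t) * (M⁻¹ + E) = M⁻¹ * omt N b (4 * t) + omt N b (4 * t) * E := by ring
    have h5 := h2.trans hcase
    rw [h4]
    refine h5.trans ?_
    have h6 := add_nonneg hY0 hF0
    exact le_add_of_nonneg_of_le h6 (le_add_of_nonneg_right h3)
  · push Not at hcase
    -- small step property
    have hflp : ∀ s : ℝ, 1 / (4 * t) ≤ s → 0 < s ∧ 0 < om (wT b N) (s⁻¹ • (1 : Matrix (V N) (V N) ℝ)) 1 := by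
      intro s hs
      have hs0 : 0 < s := lt_of_lt_of_le (by positivity) hs
      refine ⟨hs0, hpos _ (by positivity) ?_⟩
      rw [inv_le_comm₀ hs0 (by positivity)]
      rwa [one_div] at hs
    have hab : 1 / (4 * t) < 1 / t := by
      rw [div_lt_div_iff₀ (by positivity) ht]
      linarith
    have hanti : AntitoneOn (fl (wT b N)) (Set.Icc (1 / (4 * t)) (1 / t)) := by
      intro x hx y hy hxy
      obtain ⟨hx0, -⟩ := hflp x hx.1
      have h3 := fl_anti (ad_wT (N := N) hb.le) (s := x) (δ := y - x) hx0 (by linarith) (by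
        rw [add_sub_cancel]
        exact (hflp y hy.1).2)
      rwa [add_sub_cancel] at h3
    have hdrop : fl (wT b N) (1 / (4 * t)) - fl (wT b N) (1 / t) <
        (8 / 3 * t * Real.log M) * (1 / t - 1 / (4 * t)) := by
      rw [fl_log hb.le (by positivity) (hflp _ le_rfl).2, fl_log hb.le (by positivity) (hflp _ hab.le).2]
      have e1 : (1 / (4 * t))⁻¹ = 4 * t := by rw [one_div, inv_inv]
      have e2 : (1 / t)⁻¹ = t := by rw [one_div, inv_inv]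
      have e3 : (8 / 3 * t * Real.log M) * (1 / t - 1 / (4 * t)) = 2 * Real.log M := by
        field_simp
        norm_num
      rw [e1, e2, e3]
      have h3 : Real.log (M⁻¹ * omt N b (4 * t)) < Real.log (omt N b t) :=
        Real.log_lt_log (by positivity) hcase
      rw [Real.log_mul (by positivity) p4.ne', Real.log_inv] at h3
      linarith
    obtain ⟨s, hs1, hs2, hs3⟩ := dini hab hanti hdrop
    obtain ⟨hs0, -⟩ := hflp s hs1
    have hts1 : t ≤ s⁻¹ := by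
      rw [le_inv_comm₀ ht hs0]
      rw [one_div] at hs2
      exact hs2.le
    have hts2 : s⁻¹ ≤ 4 * t := by
      rw [inv_le_comm₀ hs0 (by positivity)]
      rwa [one_div] at hs1
    have hts0 : 0 < s⁻¹ := by positivity
    have hkap : kap N l s⁻¹ β r lam J ≤ κ := (kap_mono hts0.le hts2 hβ.le hlam.le).trans hκ
    have hlim := zb_lim (N := N) (l := l) hb hl (t := s⁻¹) (τ1 := τ1) (β := β) (r := r) (η := η)
      (p1 := p1) (p2 := p2) (c := 8 / 3 * t * Real.log M) (a := a) (lam := lam) (J := J) hts0 hτ1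
      (h1.trans_le hts1) (H _ hts1 hts2) hr1 hβ (by positivity) hlam
      (fun r hr hr' => hpos r hr (hr'.trans hts2))
      (fun δ0 hδ0 => by
        rw [inv_inv]
        obtain ⟨δ, hδ1, hδ2, -, hδ3⟩ := hs3 δ0 hδ0
        exact ⟨δ, hδ1, hδ2, hδ3⟩)
      (hkap.trans hκ1) ha (by
        have h3 := pow_le_pow_left₀ (kap_nonneg N l s⁻¹ β r lam J) hkap 2
        refine le_trans ?_ haE
        have e : 16 * (8 / 3 * t * Real.log M) * β = 128 / 3 * t * Real.log M * β := by ring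
        rw [e]
        linarith)
    have hfine := hU N s⁻¹ hts0 (by
      have : t * (N : ℝ) ^ 2 ≤ s⁻¹ * (N : ℝ) ^ 2 := mul_le_mul_of_nonneg_right hts1 (by positivity)
      linarith) l hl (by
      have : s⁻¹ * (l : ℝ) ^ 2 ≤ 4 * t * (l : ℝ) ^ 2 :=
        mul_le_mul_of_nonneg_right hts2 (by positivity)
      linarith) (0 : V N) (H963.cq 1 0) (fun h => Real.abs_cos_le_one _)
    have hfine2 := zb_fine (C := C) (c := c) (t := t) (ts := s⁻¹) (Nr := (N : ℝ)) (lr := (l : ℝ))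
      hC.le hc.le ht.le hts0.le hts2
    have h5 := omt_le_omh (N := N) (l := l) (t := s⁻¹) hb.le hl hτ1 (h1.le.trans hts1)
    have h6 := omt_mono (N := N) hb.le hts0 hts2
    have h7 := (abs_le.1 hfine).2
    have h8 : omt N b s⁻¹ * (4 * η + 2 * a + 6 * kap N l s⁻¹ β r lam J + 2 * p1 +
        2 * (p2 + 1 / lam)) ≤ omt N b (4 * t) * E := by
      have h9 : 4 * η + 2 * a + 6 * kap N l s⁻¹ β r lam J + 2 * p1 + 2 * (p2 + 1 / lam) ≤ E :=
        zb_aux1 hkap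
      have h10 : 0 ≤ 4 * η + 2 * a + 6 * kap N l s⁻¹ β r lam J + 2 * p1 + 2 * (p2 + 1 / lam) :=
        zb_aux2 hη ha.le (kap_nonneg N l s⁻¹ β r lam J) hp1 hp2 hlam
      exact mul_le_mul h6 h9 h10 p4.le
    have h11 : 0 ≤ omt N b (4 * t) * M⁻¹ := mul_nonneg p4.le (inv_nonneg.2 hM0.le)
    have h12 : omt N b (4 * t) * (M⁻¹ + E) = omt N b (4 * t) * M⁻¹ + omt N b (4 * t) * E := by ring
    rw [h12]
    exact zb_aux3 h5 hlim h7 hfine2 h8 h11

end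

end Vale.Agent.P159.H316
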