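import Vale.Agent.P159.H889.Vpc
import Vale.Agent.P159.H316.Zb12
import Vale.Agent.P159.H801.Master1

/-!
P159 (helper316), START of V: the statements (contract of the pieces).
-/

set_option linter.unusedSectionVars false

namespace Vale.Agent.P159.H316

open Filter Topology
open Vale.Agent.P159.TM.Spec (V)
open Vale.Agent.P159.H864 (yt)
open Vale.Agent.P159.H972 (Par Good YBn FL)
open Vale.Agent.P159.H889 (Cx Cw SV TV VB lam nu Dc QP Mw hS CH2)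

noncomputable section

/-- the V state on ONE torus `2 ^ r` -/
def V1 (P : Par) (b A1 : ℝ) (n s : ℕ) (e : ℝ) (r : ℕ) (ζ : ℂ) (Δ E : ℝ) : Prop :=
  ∀ [NeZero (2 ^ r / 2 ^ s)], ∃ Lp : ℝ,
    VB (2 ^ r) (2 ^ s) b (H972.tn n) (ζ * (nu n s : ℂ)) (Δ * nu n s) (Dc A1 n s)
      (lam n s ^ (1 / 8 : ℝ) * nu n s) Lp E (QP P e ^ 2 * nu n s) (QP P e ^ 4)

lemma SV_V1 {P : Par} {b A1 : ℝ} {n s : ℕ} {e : ℝ} {ζ : ℂ} {Δ E : ℝ} (h : SV P b A1 n s e ζ Δ E)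
    {r : ℕ} (hr : TV P n e r) : V1 P b A1 n s e r ζ Δ E := by
  intro _
  exact h r hr

/-- the growth of the activity in the window `n -> m` -/
def G0 (x : ℝ) (n m : ℕ) : ℝ := Real.exp ((2 - Real.pi / x) * ((m : ℝ) - n) * Real.log 2)

/-- **(GS)** the general step of the charged sector (helper889), hypothesis on ONE torus -/
def GS (P : Par) (b : ℝ) (a : ℕ → ℝ) (C1 c1 A1 : ℝ) (N0 : ℕ) : Prop :=
  ∀ (n m s : ℕ) (e e' y g : ℝ) (ζ : ℂ) (Δ E : ℝ), N0 ≤ n → Cx P b C1 c1 n s e y →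
    Cw P n m e e' → 0 ≤ g → g ≤ 1 / 2 → CH2 P b n e (y * e ^ g) → ζ ≠ 0 → ‖ζ‖ ≤ 1 → Δ ≤ 2 →
    0 ≤ E → V1 P b A1 n s e (m + P.kE e') ζ Δ E →
    ∃ ζ' : ℂ, ‖ζ' - ζ * (G0 (a n) n m : ℂ)‖ ≤
        Mw n m ^ (1 / 10 : ℝ) * (2 * Δ + 8 * (‖ζ‖ * hS e) + (e * y) ^ 2)
          + 2 * ‖ζ‖ * G0 (a n) n m * e ^ (87 / 100 : ℝ) ∧
      ∀ (s' : ℕ) (y' : ℝ), Cx P b C1 c1 m s' e' y' → e ^ (1 / 100 : ℝ) * y ≤ y' →
        e ^ (1 / 100 : ℝ) * y' ≤ y → s ≤ s' →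
        SV P b A1 m s' e' ζ' (Mw n m ^ (-(3 / 4) : ℝ) * Δ
            + QP P e ^ 3 * (2 * E + y * e ^ (1 / 2 + g))
            + QP P e ^ 2 * ((‖ζ‖ + ‖ζ'‖) * hS e) + (e * y) ^ 2)
          (y * (QP P e ^ 5 * max (hS e) (e ^ (1 / 2 + g))))

/-- **(CRK)** the base number of the level `m` from the torus number `Yn (2 ^ r1)` -/
def CRK (P : Par) (b C1 c1 κ : ℝ) (N0 : ℕ) : Prop :=
  ∀ (n m s r1 : ℕ) (e e' y Y : ℝ), N0 ≤ n → Cx P b C1 c1 n s e y → Cw P n m e e' →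
    Good P b m e' → m ≤ n + 10 * (r1 - n) + 9 → n + 8 * (r1 - n) ≤ m → n ≤ r1 →
    (∀ r, P.TT n e r → yt (2 ^ r) b (4 * H972.tn n) ≤ Y) →
    yt (2 ^ (m + P.kE e')) b (4 * H972.tn m) ≤ e ^ (-(κ * P.th)) * Yn (2 ^ r1) b
      + (2 : ℝ) ^ (-(((m : ℝ) - n) / 20)) * e ^ (-(κ * P.th)) * Y + e ^ (1 / 2 : ℝ) * y

/-- **(PERS)** persistence of the zero background numbers relative to the activity `‖ζ‖` -/
def PERS (P : Par) (b C1 c1 A1 : ℝ) (N0 : ℕ) : Prop :=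
  ∀ (n m s : ℕ) (e e' y : ℝ) (ζ : ℂ) (Δ E : ℝ), N0 ≤ n → Cx P b C1 c1 n s e y →
    Cw P n m e e' → n + P.w e ≤ m → Good P b m e' → SV P b A1 n s e ζ Δ E → 0 ≤ Δ → 0 ≤ E →
    (2 : ℝ) ^ (((m : ℝ) - n) / 4) * Δ ≤ ‖ζ‖ → E ≤ e ^ (2 / 5 : ℝ) * ‖ζ‖ →
    y ≤ e ^ (-(1 / 100 : ℝ)) * ‖ζ‖ → e ^ (1 / 100 : ℝ) * ‖ζ‖ ≤ y →
    (∀ r, P.TT n e r → yt (2 ^ r) b (4 * H972.tn n) ≤ e ^ (-(P.thp / 20)) * ‖ζ‖) →
    ∀ r, m + P.kE e' ≤ r → yt (2 ^ r) b (4 * H972.tn m) ≤ e ^ (-(P.thp / 400)) * ‖ζ‖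

end

end Vale.Agent.P159.H316
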