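import Mathlib

/-!
P159, V list part B (VB11), helper316: the scalar lemma behind the start of V.

`L n = log (1 / y0 n)` at the scale `2^n`, `E = log (1 / eps)`, `G n E` = the induction
hypothesis at scale `n` with parameter `eps = exp (-E)`, window width `w = th' * E`.
`Nm n E` = the activity does not drop by a power in the window (NORMAL).
(A) is `L n <= exp (th / 2 * E)`.  If the conclusion failed, `L` would grow linearly.
-/

namespace Vale.Agent.P159.H316

/-- existence of a scale with (A) and NORMAL -/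
theorem startV {G Nm : ℕ → ℝ → Prop} {L : ℕ → ℝ} {th th' a c C : ℝ}
    (hth' : 0 < th') (ha : 0 < a) (ha' : a ≤ 1 / 10) (hC : 1 ≤ C)
    {E0 : ℝ} {n0 : ℕ} (hE0 : 0 < E0)
    (hbig : ∀ E, E0 ≤ E → 8 * (1 + th') * E + 4 * C ≤ Real.exp (th / 2 * E) ∧
      Real.exp (th / 2 * E) + C ≤ c * Real.exp (th * E))
    (hstep : ∀ n E, n0 ≤ n → E0 ≤ E → G n E → E ≤ 1.9 * L n →
      ∃ m, n < m ∧ (m : ℝ) ≤ n + C * (th' * E) ∧
        G m (min (E + th' * E / 2) (1.9 * L m)) ∧
        (Real.exp (th / 2 * E) < L n →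
          min (L n - 2 * (th' * E)) (c * Real.exp (th * E)) - C ≤ L m) ∧
        (L n ≤ Real.exp (th / 2 * E) → ¬ Nm n E → L n + a * (th' * E) ≤ L m))
    (hL : ∀ d, 0 < d → ∃ D, ∀ n, L n ≤ d * n + D)
    (hG : G n0 E0) (hEL : E0 ≤ 1.9 * L n0) :
    ∃ n E, n0 ≤ n ∧ E0 ≤ E ∧ G n E ∧ E ≤ 1.9 * L n ∧ L n ≤ Real.exp (th / 2 * E) ∧ Nm n E := by
  by_contra hcon
  push Not at hcon
  have hC0 : 0 < C := by linarith
  set r : ℝ := a / C with hr
  have hr0 : 0 < r := div_pos ha hC0
  have hrC : r * C = a := by rw [hr]; field_simp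
  -- the invariant
  have key : ∀ j : ℕ, ∃ n E, n0 + j ≤ n ∧ E0 ≤ E ∧ G n E ∧ E ≤ 1.9 * L n ∧
      E0 + r * ((n : ℝ) - n0) ≤ E ∧ r * ((n : ℝ) - n0) ≤ L n := by
    intro j
    induction j with
    | zero =>
      refine ⟨n0, E0, le_rfl, le_rfl, hG, hEL, by simp, ?_⟩
      simp only [sub_self, mul_zero]
      nlinarith
    | succ j ih =>
      obtain ⟨n, E, hn, hE, hg, hel, hen, hln⟩ := ih
      have hn' : n0 ≤ n := by omega
      obtain ⟨m, hnm, hm, hgm, hT, hN⟩ := hstep n E hn' hE hg hel
      obtain ⟨hb1, hb2⟩ := hbig E hE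
      have hEp : 0 < E := by linarith
      have hw : 0 < th' * E := mul_pos hth' hEp
      have hrm : r * ((m : ℝ) - n0) ≤ r * ((n : ℝ) - n0) + a * (th' * E) := by
        have : r * ((m : ℝ) - n0) ≤ r * ((n + C * (th' * E)) - n0) :=
          mul_le_mul_of_nonneg_left (by linarith) hr0.le
        calc r * ((m : ℝ) - n0) ≤ r * ((n + C * (th' * E)) - n0) := this
          _ = r * ((n : ℝ) - n0) + (r * C) * (th' * E) := by ring
          _ = _ := by rw [hrC]
      have haw : a * (th' * E) ≤ 1 / 10 * (th' * E) := mul_le_mul_of_nonneg_right ha' hw.le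
      by_cases hA : L n ≤ Real.exp (th / 2 * E)
      · have hnN : ¬ Nm n E := hcon n E hn' hE hg hel hA
        have hLm := hN hA hnN
        have h19 : E + a * (th' * E) ≤ 1.9 * L m := by nlinarith
        refine ⟨m, min (E + th' * E / 2) (1.9 * L m), by omega, ?_, hgm, min_le_right _ _, ?_, ?_⟩
        · exact le_min (by linarith) (by linarith [mul_pos ha hw])
        · exact le_min (by linarith) (by linarith)
        · linarith
      · push Not at hA
        have hLm := hT hA
        have hmin : Real.exp (th / 2 * E) / 2 ≤ L m := by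
          refine le_trans ?_ hLm
          rw [le_sub_iff_add_le]
          refine le_min ?_ ?_
          · nlinarith
          · nlinarith
        have hbE : 4 * (1 + th') * E ≤ Real.exp (th / 2 * E) / 2 := by linarith
        have h4 : 4 * (1 + th') * E = 4 * E + 4 * (th' * E) := by ring
        have hLE : 4 * E + 4 * (th' * E) ≤ L m := by linarith
        refine ⟨m, min (E + th' * E / 2) (1.9 * L m), by omega, ?_, hgm, min_le_right _ _, ?_, ?_⟩
        · exact le_min (by linarith) (by nlinarith)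
        · exact le_min (by linarith) (by nlinarith)
        · linarith
  obtain ⟨D, hD⟩ := hL (r / 2) (by linarith)
  obtain ⟨j, hj⟩ := exists_nat_gt ((D + r * n0) / (r / 2))
  obtain ⟨n, E, hn, -, -, -, -, hln⟩ := key j
  have h1 := hD n
  have h2 : (j : ℝ) ≤ n := by exact_mod_cast (by omega : j ≤ n)
  have h3 : D + r * n0 < j * (r / 2) := by
    rwa [div_lt_iff₀ (by linarith)] at hj
  have h4 : (j : ℝ) * (r / 2) ≤ n * (r / 2) := mul_le_mul_of_nonneg_right h2 (by linarith)
  nlinarith

/-- the two growth conditions on `E0` can be met -/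
theorem startV_big {th th' c C : ℝ} (hth : 0 < th) (hc : 0 < c) :
    ∃ E0 : ℝ, 0 < E0 ∧ ∀ E, E0 ≤ E → 8 * (1 + th') * E + 4 * C ≤ Real.exp (th / 2 * E) ∧
      Real.exp (th / 2 * E) + C ≤ c * Real.exp (th * E) := by
  have hth2 : 0 < th / 2 := by linarith
  have h1 : Filter.Tendsto (fun E : ℝ => Real.exp (th / 2 * E) / (th / 2 * E))
      Filter.atTop Filter.atTop := by
    have h0 := Real.tendsto_exp_div_pow_atTop 1
    simp only [pow_one] at h0
    exact h0.comp (Filter.tendsto_id.const_mul_atTop hth2)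
  have h2 : Filter.Tendsto (fun E : ℝ => Real.exp (th / 2 * E)) Filter.atTop Filter.atTop :=
    Real.tendsto_exp_atTop.comp (Filter.tendsto_id.const_mul_atTop hth2)
  have e1 := h1.eventually_ge_atTop ((8 * |1 + th'| + 1) / (th / 2))
  have e2 := h2.eventually_ge_atTop (max 1 ((1 + |C|) / c))
  have e3 := Filter.eventually_ge_atTop (max 1 (4 * |C|) : ℝ)
  obtain ⟨E0, hE0⟩ := Filter.eventually_atTop.1 (e1.and (e2.and e3))
  refine ⟨max E0 1, by positivity, fun E hE => ?_⟩
  obtain ⟨a1, a2, a3⟩ := hE0 E (le_trans (le_max_left _ _) hE)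
  have hE1 : 1 ≤ E := le_trans (le_max_left _ _) a3
  have hEC : 4 * |C| ≤ E := le_trans (le_max_right _ _) a3
  have b1 : (8 * |1 + th'| + 1) * E ≤ Real.exp (th / 2 * E) := by
    have hpos : 0 < th / 2 * E := by positivity
    calc (8 * |1 + th'| + 1) * E = (8 * |1 + th'| + 1) / (th / 2) * (th / 2 * E) := by
          field_simp
      _ ≤ _ := (le_div_iff₀ hpos).1 a1
  have b2 : 1 ≤ Real.exp (th / 2 * E) := le_trans (le_max_left _ _) a2
  have b3 : (1 + |C|) / c ≤ Real.exp (th / 2 * E) := le_trans (le_max_right _ _) a2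
  constructor
  · have : 8 * (1 + th') * E ≤ 8 * |1 + th'| * E :=
      mul_le_mul_of_nonneg_right (by linarith [le_abs_self (1 + th')]) (by linarith)
    have hc' : 4 * C ≤ E := by linarith [le_abs_self C]
    nlinarith
  · have hsq : Real.exp (th * E) = Real.exp (th / 2 * E) * Real.exp (th / 2 * E) := by
      rw [← Real.exp_add]; congr 1; ring
    rw [hsq]
    rw [div_le_iff₀ hc] at b3
    have hx := Real.exp_pos (th / 2 * E)
    have : (1 + |C|) * Real.exp (th / 2 * E) ≤
        (Real.exp (th / 2 * E) * c) * Real.exp (th / 2 * E) :=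
      mul_le_mul_of_nonneg_right b3 hx.le
    have h5 : |C| ≤ |C| * Real.exp (th / 2 * E) := by nlinarith [abs_nonneg C]
    nlinarith [le_abs_self C]

end Vale.Agent.P159.H316
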