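import Vale.Agent.P159.H316.St1

/-!
P159 (helper316), START of V, glue part 1: from the two parts of the start to `Start5` of the master.
-/

set_option linter.unusedSectionVars false

namespace Vale.Agent.P159.H316

open Filter Topology
open Vale.Agent.P159.H864 (yt)
open Vale.Agent.P159.H972 (Par Good YBn FL StepP' StartP tn)
open Vale.Agent.P159.H801 (Ev FLC Bw Dich2 Start5 MS PS)

noncomputable section

/-- half of the exponent `c1` -/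
theorem ev_half {b1 b2 pf : ℝ} {Q : ℕ} {F : Par → ℝ → Prop} (h : Ev b1 b2 pf Q F) :
    Ev b1 b2 pf Q fun P c1 => F P (c1 / 2) := by
  have ht : Tendsto (fun c : ℝ => c / 2) (𝓝[>] 0) (𝓝[>] 0) := by
    refine tendsto_nhdsWithin_iff.2 ⟨?_, ?_⟩
    · have h1 : Tendsto (fun c : ℝ => c / 2) (𝓝 0) (𝓝 (0 / 2)) :=
        (continuous_id.div_const 2).tendsto 0
      rw [zero_div] at h1
      exact h1.mono_left nhdsWithin_le_nhds
    · filter_upwards [self_mem_nhdsWithin] with c hc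
      rw [Set.mem_Ioi] at hc ⊢
      linarith
  unfold Ev at *
  filter_upwards [h] with W h
  filter_upwards [h] with ys h
  filter_upwards [h] with X0 h
  filter_upwards [h] with x1 h
  filter_upwards [h] with thp h
  filter_upwards [h] with th h
  filter_upwards [h] with C0 h
  exact ht.eventually h

/-- `0 < c1` -/
theorem ev_c1 (b1 b2 pf : ℝ) (Q : ℕ) : Ev b1 b2 pf Q fun _ c1 => 0 < c1 :=
  Ev.of ⟨0, fun _ _ => ⟨1, one_pos, fun _ _ _ => ⟨0, fun _ _ => ⟨1, one_pos, fun _ _ _ =>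
    ⟨1, one_pos, fun _ _ _ => ⟨1, one_pos, fun _ _ _ => ⟨0, fun _ _ => ⟨1, one_pos, fun _ h _ =>
    ⟨1, one_pos, fun _ _ => h⟩⟩⟩⟩⟩⟩⟩⟩⟩

/-- **START from its two parts** -/
theorem start_glue {b b1 b2 K κ : ℝ} {Q : ℕ} (hb1 : 0 < b1) (h1 : b1 ≤ b) (h2 : b ≤ b2)
    (hel : helicity b = 2 / Real.pi) (hP1 : Part1 b1 b2 (9 / 10) Q K κ)
    (hP2 : Part2 b1 b2 (9 / 10) Q K) :
    Ev b1 b2 (9 / 10) Q fun P c1 => ∀ C1, 24 ≤ C1 → P.C0 ≤ C1 → C1 ≤ K * P.C0 →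
      ∀ (a : ℕ → ℝ) (A1 : ℝ) (VS : ℕ → ℝ → ℝ → Prop) (u : ℕ → ℝ), FLC P b a →
        Tendsto a atTop (𝓝 (Real.pi / 2)) → StartP P b → (∀ᶠ N0 in atTop, StepP' P b (1 / 40) N0) →
        (∀ᶠ N0 in atTop, In1 P b a C1 c1 A1 κ N0) → (∀ᶠ N0 in atTop, In2 P b a C1 c1 A1 N0) →
        (∀ n e ζ, Fin2 P b C1 c1 A1 n e ζ → VS n e ‖ζ‖) →
        (∀ᶠ N0 in atTop, ∀ n e ζ, N0 ≤ n → 0 < e → e ≤ P.es → Fin2 P b C1 c1 A1 n e ζ →
          ‖ζ‖ ≤ e ^ (-(P.x1 / 100)) * u n) →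
        Start5 (MS (Good P b) (YBn P b) VS u (P.x1 / 100)) (1 / 20) c1 := by
  have hD := ev_half (dich_evx (b := b) (b1 := b1) (b2 := b2) (pf := 9 / 10) (g := 47 / 25)
    (a' := 1 / 200) (sgf := fun _ => 1 / 40) (cf := fun x => x / 100) (Q := Q) hb1 h1 h2 hel
    (by norm_num) (by norm_num) (by norm_num) ⟨1, one_pos, fun x hx hx1 =>
      ⟨by norm_num, by positivity, by nlinarith⟩⟩)
  refine (((hP1.and hP2).and hD).and (ev_c1 b1 b2 (9 / 10) Q)).mono ?_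
  rintro P c1 - ⟨⟨⟨g1, g2⟩, g3⟩, hc1⟩ C1 hC1 hC2 hC3 a A1 VS u hfl ha hst hstep hin1 hin2 hVS hup
  obtain ⟨-, g3⟩ := g3
  have g3' := g3 a hfl ha hst
  obtain ⟨N0, hN0⟩ := (((g3'.and hstep).and ((g1 C1 hC1 hC2 hC3 b a A1).and hin1)).and
    (((g2 C1 hC1 hC2 hC3 b a A1).and hin2).and hup)).exists
  obtain ⟨⟨⟨k1, k2⟩, k3, k4⟩, ⟨k5, k6⟩, k7⟩ := hN0
  obtain ⟨c', C, hDi⟩ := k1 k2 (by positivity)
  have q1 := k3 k4
  have q2 := k5 k6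
  refine hDi.start5 ⟨P.es, P.es0, N0, ?_⟩
  intro n ε hn hε hεe hεs hG hyg hyl hNm
  obtain ⟨m, s, ζ, Δ, E, hnm, hS⟩ := q1 n ε hn hε hεs hG hyg hyl hNm
  obtain ⟨n', e', ζ', hmn, he', hee, hF⟩ := q2 m s ε ζ Δ E (hn.trans hnm) hS
  obtain ⟨s', hs'⟩ := hF.vs
  have hε1 : ε ≤ 1 := hεs.trans (P.es1.trans (by norm_num))
  refine ⟨n', e', ‖ζ'‖, hnm.trans hmn, ?_, ⟨hF.G, hVS n' e' ζ' hF, hs'.z0, hF.yb, ?_⟩, ?_, hF.zl⟩
  · refine hee.trans ?_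
    calc ε = ε ^ (1 : ℝ) := (Real.rpow_one ε).symm
      _ ≤ ε ^ (1 / 2 : ℝ) := Real.rpow_le_rpow_of_exponent_ge hε hε1 (by norm_num)
  · exact k7 n' e' ζ' ((hn.trans hnm).trans hmn) he' (hee.trans hεs) hF
  · rw [show (2 - 1 / 20 : ℝ) = 39 / 20 by norm_num]
    exact hF.zu

end

end Vale.Agent.P159.H316
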