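import Vale.Agent.P159.H316.Sti1
import Vale.Agent.P159.H889.Vpd
import Vale.Agent.P159.H239.PUpI

/-!
P159 (helper316), START of V, glue part 2: the family form, all inputs as families.
-/

set_option linter.unusedSectionVars false

namespace Vale.Agent.P159.H316

open Filter Topology
open Vale.Agent.P159.TM.Spec (V)
open Vale.Agent.P159.H864 (yt yt_nonneg)
open Vale.Agent.P159.H972 (Par Good YBn FL StepP' StartP tn)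
open Vale.Agent.P159.H801 (Ev FLC Start5 MS PIn)
open Vale.Agent.P159.H889 (EvC)

noncomputable section

variable {P : Par} {b C1 c1 A1 κ κ' : ℝ} {N0 : ℕ}

/-- a larger loss -/
lemma LKU.mono (hb : 0 < b) (h : LKU P b C1 c1 A1 κ N0) (hκ : κ ≤ κ') :
    LKU P b C1 c1 A1 κ' N0 := by
  intro n s r e y Y ζ Δ E hn hC hT hr hY hY2 hV
  have h1 := h n s r e y Y ζ Δ E hn hC hT hr hY hY2 hV
  refine h1.trans ?_
  have he := hC.e0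
  have he1 : e ≤ 1 := hC.es.trans (P.es1.trans (by norm_num))
  have h2 := Yn_nonneg (N := 2 ^ r) hb
  have h3 : 0 < e ^ (-(κ * P.th)) := Real.rpow_pos_of_pos he _
  refine mul_le_mul_of_nonneg_right ?_ ?_
  · exact Real.rpow_le_rpow_of_exponent_ge he he1 (by
      have := mul_le_mul_of_nonneg_right hκ P.th0.le
      linarith)
  · by_contra hcon
    have := mul_neg_of_pos_of_neg h3 (not_le.1 hcon)
    linarith

/-- a larger loss -/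
lemma CRK.mono (hb : 0 < b) (h : CRK P b C1 c1 κ N0) (hκ : κ ≤ κ') : CRK P b C1 c1 κ' N0 := by
  intro n m s r1 e e' y Y hn hC hW hG h1 h2 h3 hY
  have h4 := h n m s r1 e e' y Y hn hC hW hG h1 h2 h3 hY
  refine h4.trans ?_
  have he := hC.e0
  have he1 : e ≤ 1 := hC.es.trans (P.es1.trans (by norm_num))
  have h5 := Yn_nonneg (N := 2 ^ r1) hb
  have h6 : e ^ (-(κ * P.th)) ≤ e ^ (-(κ' * P.th)) :=
    Real.rpow_le_rpow_of_exponent_ge he he1 (by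
      have := mul_le_mul_of_nonneg_right hκ P.th0.le
      linarith)
  have hY0 : 0 ≤ Y := (yt_nonneg hb.le (by have := H972.tn_pos n; linarith)).trans
    (hY (n + P.kE e) ⟨le_rfl, Nat.le_add_right _ _⟩)
  have h7 : (0 : ℝ) ≤ 2 ^ (-(((m : ℝ) - n) / 20)) := (Real.rpow_pos_of_pos two_pos _).le
  have a1 := mul_le_mul_of_nonneg_right h6 h5
  have a2 := mul_le_mul_of_nonneg_right (mul_le_mul_of_nonneg_left h6 h7) hY0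
  linarith

/-- family of (GS) -/
def FGS (b A1 : ℝ) (P : Par) (c1 C1 : ℝ) : Prop :=
  ∀ a : ℕ → ℝ, FLC P b a → Tendsto a atTop (𝓝 (Real.pi / 2)) → ∀ᶠ N0 in atTop,
    GS P b a C1 c1 A1 N0
/-- family of (INI) -/
def FIN (b A1 : ℝ) (P : Par) (c1 C1 : ℝ) : Prop := ∀ N0 : ℕ, INI P b C1 c1 A1 N0
/-- family of (LKU) -/
def FLK (b A1 κ : ℝ) (P : Par) (c1 C1 : ℝ) : Prop :=
  ∀ a : ℕ → ℝ, FLC P b a → Tendsto a atTop (𝓝 (Real.pi / 2)) → ∀ᶠ N0 in atTop,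
    LKU P b C1 c1 A1 κ N0
/-- family of (CRK) -/
def FCR (b κ : ℝ) (P : Par) (c1 C1 : ℝ) : Prop :=
  ∀ a : ℕ → ℝ, FLC P b a → Tendsto a atTop (𝓝 (Real.pi / 2)) → ∀ᶠ N0 in atTop,
    CRK P b C1 c1 κ N0
/-- family of (PERS) -/
def FPE (b A1 κ : ℝ) (P : Par) (c1 C1 : ℝ) : Prop :=
  ∀ a : ℕ → ℝ, FLC P b a → Tendsto a atTop (𝓝 (Real.pi / 2)) → ∀ᶠ N0 in atTop,
    CRK P b C1 c1 κ N0 → PERS P b C1 c1 A1 N0
/-- family of (COR), (YBB), (DX0), (AX) -/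
def FCO (b : ℝ) (P : Par) (c1 C1 : ℝ) : Prop :=
  ∀ a : ℕ → ℝ, FLC P b a → Tendsto a atTop (𝓝 (Real.pi / 2)) → ∀ᶠ N0 in atTop,
    COR P b c1 N0 ∧ YBB P b N0 ∧ DX0 P b C1 N0 ∧ AX a C1 N0

/-- the contract of the glue at one parameter -/
def FGL (b K A1 κ : ℝ) (P : Par) (c1 : ℝ) : Prop :=
  ∀ C1, 24 ≤ C1 → P.C0 ≤ C1 → C1 ≤ K * P.C0 →
    ∀ (a : ℕ → ℝ) (VS : ℕ → ℝ → ℝ → Prop) (u : ℕ → ℝ), FLC P b a →
      Tendsto a atTop (𝓝 (Real.pi / 2)) → StartP P b → (∀ᶠ N0 in atTop, StepP' P b (1 / 40) N0) →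
      (∀ᶠ N0 in atTop, In1 P b a C1 c1 A1 κ N0) → (∀ᶠ N0 in atTop, In2 P b a C1 c1 A1 N0) →
      (∀ n e ζ, Fin2 P b C1 c1 A1 n e ζ → VS n e ‖ζ‖) →
      (∀ᶠ N0 in atTop, ∀ n e ζ, N0 ≤ n → 0 < e → e ≤ P.es → Fin2 P b C1 c1 A1 n e ζ →
        ‖ζ‖ ≤ e ^ (-(P.x1 / 100)) * u n) →
      Start5 (MS (Good P b) (YBn P b) VS u (P.x1 / 100)) (1 / 20) c1

/-- **the start at one level of the cells** -/
def STG (b A1 : ℝ) (P : Par) (c1 C1 : ℝ) : Prop :=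
  ∀ (a : ℕ → ℝ) (VS : ℕ → ℝ → ℝ → Prop) (u : ℕ → ℝ), FLC P b a →
    Tendsto a atTop (𝓝 (Real.pi / 2)) →
    (∀ n e ζ, Fin2 P b C1 c1 A1 n e ζ → VS n e ‖ζ‖) →
    (∀ᶠ N0 in atTop, ∀ n e ζ, N0 ≤ n → 0 < e → e ≤ P.es → Fin2 P b C1 c1 A1 n e ζ →
      ‖ζ‖ ≤ e ^ (-(P.x1 / 100)) * u n) →
    Start5 (MS (Good P b) (YBn P b) VS u (P.x1 / 100)) (1 / 20) c1

/-- at one parameter -/
lemma stg_at {b K A1 κ : ℝ} (hb : 0 < b) (hb1 : P.b1 ≤ b) (hb2 : b ≤ P.b2) (h24 : 24 ≤ C1)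
    (hC2 : P.C0 ≤ C1) (hC3 : C1 ≤ K * P.C0) (g1 : FGL b K A1 κ P c1)
    (g2 : ∀ᶠ N0 in atTop, PIn P b (1 / 40) (9 / 10) N0) (gGS : FGS b A1 P c1 C1)
    (gIN : FIN b A1 P c1 C1) (gLK : FLK b A1 κ P c1 C1) (gCR : FCR b κ P c1 C1)
    (gPE : FPE b A1 κ P c1 C1) (gCO : FCO b P c1 C1) (g5 : CHS P b c1) (g6 : CBS P b c1) :
    STG b A1 P c1 C1 := by
  intro a VS u hfl ha hVS hup
  have hst : StartP P b := by
    obtain ⟨N0, hN0⟩ := g2.exists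
    exact hN0.start
  have hstep : ∀ᶠ N0 in atTop, StepP' P b (1 / 40) N0 := g2.mono fun N0 h => h.step
  refine g1 C1 h24 hC2 hC3 a VS u hfl ha hst hstep ?_ ?_ hVS hup
  · filter_upwards [gGS a hfl ha, gLK a hfl ha, gCR a hfl ha, gCO a hfl ha] with N0 k1 k2 k3 k4
    exact ⟨hb, hb1, hb2, k1, gIN N0, k2, k3, k4.1, g5, g6, k4.2.2.1, k4.2.2.2⟩
  · filter_upwards [gGS a hfl ha, gCR a hfl ha, gPE a hfl ha, gCO a hfl ha, hstep] with N0 k1 k2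
      k3 k4 k5
    exact ⟨hb, hb1, hb2, k1, k3 k2, g5, g6, k5, k4.2.1, k4.2.2.2⟩

/-- `b` is in the range of the parameters -/
lemma ev_bb {b b1 b2 pf : ℝ} (h1 : b1 ≤ b) (h2 : b ≤ b2) (Q : ℕ) :
    Ev b1 b2 pf Q fun P _ => P.b1 ≤ b ∧ b ≤ P.b2 :=
  Ev.of ⟨0, fun _ _ => ⟨1, one_pos, fun _ _ _ => ⟨0, fun _ _ => ⟨1, one_pos, fun _ _ _ =>
    ⟨1, one_pos, fun _ _ _ => ⟨1, one_pos, fun _ _ _ => ⟨0, fun _ _ => ⟨1, one_pos, fun _ _ _ =>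
    ⟨1, one_pos, fun P hP => ⟨by rw [hP.eb1]; exact h1, by rw [hP.eb2]; exact h2⟩⟩⟩⟩⟩⟩⟩⟩⟩⟩

lemma evC_of {b1 b2 pf K : ℝ} {Q : ℕ} {F : Par → ℝ → Prop} (h : Ev b1 b2 pf Q F) :
    EvC b1 b2 pf Q K fun P c1 _ => F P c1 :=
  Ev.mono h fun _ _ _ h _ _ _ _ => h

/-- **START, family form** -/
theorem start_fam {b b1 b2 K κ A1 : ℝ} {Q : ℕ} (hb1 : 0 < b1) (h1 : b1 ≤ b) (h2 : b ≤ b2)
    (hel : helicity b = 2 / Real.pi) (hP1 : Part1 b1 b2 (9 / 10) Q K κ)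
    (hP2 : Part2 b1 b2 (9 / 10) Q K)
    (hGS : EvC b1 b2 (9 / 10) Q K (FGS b A1)) (hIN : EvC b1 b2 (9 / 10) Q K (FIN b A1))
    (hLK : EvC b1 b2 (9 / 10) Q K (FLK b A1 κ)) (hCR : EvC b1 b2 (9 / 10) Q K (FCR b κ))
    (hPE : EvC b1 b2 (9 / 10) Q K (FPE b A1 κ)) (hCO : EvC b1 b2 (9 / 10) Q K (FCO b))
    (hCH : Ev b1 b2 (9 / 10) Q fun P c1 => CHS P b c1 ∧ CBS P b c1) :
    EvC b1 b2 (9 / 10) Q K fun P c1 C1 => 24 ≤ C1 → STG b A1 P c1 C1 := by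
  have hb : 0 < b := hb1.trans_le h1
  have a1 : Ev b1 b2 (9 / 10) Q (FGL b K A1 κ) :=
    Ev.mono (start_glue hb1 h1 h2 hel hP1 hP2) fun P c1 _ h C1 x1 x2 x3 a VS u =>
      h C1 x1 x2 x3 a A1 VS u
  have c1 := (evC_of (K := K) a1).and (evC_of (K := K) (H239.ev_PIn_std hb1 hel h1 h2 Q))
  have c2 := (hGS.and hIN).and (hLK.and hCR)
  have c3 := (hPE.and hCO).and ((evC_of (K := K) hCH).and
    (evC_of (K := K) (ev_bb (pf := 9 / 10) h1 h2 Q)))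
  exact EvC.mono (c1.and (c2.and c3)) fun P c1 C1 _ _ hC2 hC3 h h24 =>
    stg_at hb h.2.2.2.2.1 h.2.2.2.2.2 h24 hC2 hC3 h.1.1 h.1.2 h.2.1.1.1 h.2.1.1.2 h.2.1.2.1
      h.2.1.2.2 h.2.2.1.1 h.2.2.1.2 h.2.2.2.1.1 h.2.2.2.1.2

end

end Vale.Agent.P159.H316
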