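import Vale.Agent.P159.H316.Sti2
import Vale.Agent.P159.H358.Gs
import Vale.Agent.P159.H358.Ini3
import Vale.Agent.P159.H963.Lk2
import Vale.Agent.P159.H415.Pers2
import Vale.Agent.P159.H415.Chs
import Vale.Agent.P159.H197.Fi1
import Vale.Agent.P159.H197.Cbs

/-!
P159 (helper316), START of V, glue part 3: the landed families plugged in.
-/

set_option linter.unusedSectionVars false

namespace Vale.Agent.P159.H316

open Filter Topology
open Vale.Agent.P159.H972 (Par Good YBn FL StepP' StartP tn)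
open Vale.Agent.P159.H801 (Ev FLC Start5 MS PIn)
open Vale.Agent.P159.H889 (EvC StepH)

noncomputable section

/-- **START from the general step, (CRK) and the two parts** -/
theorem start_of {b b1 b2 κ : ℝ} (hb1 : 0 < b1) (h1 : b1 ≤ b) (h2 : b ≤ b2)
    (hel : helicity b = 2 / Real.pi) (hκ : 0 < κ) :
    ∃ A00 : ℝ, 1 ≤ A00 ∧ ∀ A1 : ℝ, A00 ≤ A1 → ∀ (K : ℝ) (Q : ℕ),
      Part1 b1 b2 (9 / 10) Q K κ → Part2 b1 b2 (9 / 10) Q K →
      EvC b1 b2 (9 / 10) Q K (StepH b A1) → EvC b1 b2 (9 / 10) Q K (FCR b κ) →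
      EvC b1 b2 (9 / 10) Q K fun P c1 C1 => 24 ≤ C1 → STG b A1 P c1 C1 := by
  obtain ⟨A00, hA0, hA⟩ := H358.ini_evC hb1 h1 ((hb1.trans_le h1).trans_le h2)
  refine ⟨A00, hA0, fun A1 hA1 K Q hP1 hP2 hS hC => ?_⟩
  refine start_fam hb1 h1 h2 hel hP1 hP2 (H358.gs_of hS) (hA A1 hA1 K Q) ?_ hC ?_ ?_ ?_
  · refine Ev.mono (H963.Lk2.lk_Ev hb1 h1 h2 Q K hκ) fun P c1 _ h C1 x1 x2 x3 a hfl ha => ?_
    exact (h C1 x1 x2 x3 A1 a hfl ha).mono fun N0 h => h.1
  · refine EvC.mono (H415.ev_pers (K := K) (Q := Q) hb1 h1 h2 (by norm_num) (by norm_num) hκ.le)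
      fun P c1 C1 _ _ _ _ h a hfl ha => ?_
    exact (h a hfl ha).mono fun N0 h hc => h hc A1
  · refine Ev.mono (H197.ev_fi (b2 := b2) hb1 h1 h2 hel (by norm_num) Q)
      fun P c1 _ h C1 x1 x2 x3 a hfl ha => h C1 (by linarith) a hfl ha
  · exact (H415.ev_chs hb1 h1 (by norm_num) Q).and (H197.ev_cbs hb1 h1 (by norm_num) Q)

end

end Vale.Agent.P159.H316
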