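import Vale.Agent.P159.H316.Sti3
import Vale.Agent.P159.H30.Crk
import Vale.Agent.P159.H43.P2a

/-!
P159 (helper316), START of V, glue part 4: (CRK) and the iteration of the second part plugged in.
-/

set_option linter.unusedSectionVars false

namespace Vale.Agent.P159.H316

open Filter Topology
open Vale.Agent.P159.H889 (EvC StepH)

noncomputable section

/-- **START from the general step and the two parts** (`κ = 2`) -/
theorem start_of2 {b b1 b2 : ℝ} (hb1 : 0 < b1) (h1 : b1 ≤ b) (h2 : b ≤ b2)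
    (hel : helicity b = 2 / Real.pi) :
    ∃ A00 : ℝ, 1 ≤ A00 ∧ ∀ A1 : ℝ, A00 ≤ A1 → ∀ (K : ℝ) (Q : ℕ),
      Part1 b1 b2 (9 / 10) Q K 2 → Part2a b1 b2 (9 / 10) Q K →
      EvC b1 b2 (9 / 10) Q K (StepH b A1) →
      EvC b1 b2 (9 / 10) Q K fun P c1 C1 => 24 ≤ C1 → STG b A1 P c1 C1 := by
  obtain ⟨A00, hA0, hA⟩ := start_of hb1 h1 h2 hel (κ := 2) two_pos
  exact ⟨A00, hA0, fun A1 hA1 K Q hP1 hP2 hS =>
    hA A1 hA1 K Q hP1 (H43.P2.part2_of hP2) hS (H30.Crk.crk_ev hb1 h1 h2 hel K Q)⟩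

end

end Vale.Agent.P159.H316
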