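import Vale.Agent.P159.H316.Sti4
import Vale.Agent.P159.H316.Vhf
import Vale.Agent.P159.H767.Pt1g
import Vale.Agent.P159.H733.Pt4

/-!
P159 (helper316), START of V, glue part 5: both parts plugged in.
-/

set_option linter.unusedSectionVars false

namespace Vale.Agent.P159.H316

open Filter Topology
open Vale.Agent.P159.H889 (EvC StepH)
open Vale.Agent.P159.H801 (Ev)

noncomputable section

/-- **START from the general step** -/
theorem start_of3 {b b1 b2 : ℝ} (hb1 : 0 < b1) (h1 : b1 ≤ b) (h2 : b ≤ b2)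
    (hel : helicity b = 2 / Real.pi) :
    ∃ A00 : ℝ, 1 ≤ A00 ∧ ∀ A1 : ℝ, A00 ≤ A1 → ∀ (K : ℝ) (Q : ℕ),
      EvC b1 b2 (9 / 10) Q K (StepH b A1) →
      EvC b1 b2 (9 / 10) Q K fun P c1 C1 => 24 ≤ C1 → STG b A1 P c1 C1 := by
  obtain ⟨A00, hA0, hA⟩ := start_of2 hb1 h1 h2 hel
  exact ⟨A00, hA0, fun A1 hA1 K Q hS =>
    hA A1 hA1 K Q (H767.Pt.part1 b1 b2 (9 / 10) Q K 2) (H733.Pt.part2a b1 b2 (9 / 10) Q K) hS⟩

end

end Vale.Agent.P159.H316
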