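import Vale.Agent.P159.H316.Sti5
import Vale.Agent.P159.H316.Vhf
import Vale.Agent.P159.H889.Vfin3
import Vale.Agent.P159.H733.Asm2

/-!
# P159 / V (helper316): the V half, no hypothesis left

`vhalf` : for every `0 < b1 ≤ b ≤ b2` with `helicity b = 2 / π` and every `Q`, the text `VHq 1 b` (801's
`VHalf` body at one parameter, `K = 1`, so `C1 = P.C0`) holds in `Ev`-form. Inputs: 733's `stepH_crit`
(general step of the charged sector), 889's `fvs_ev` (the V step), my `start_of3` (START).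
-/

namespace Vale.Agent.P159.H316

open Vale.Agent.P159.H801 (Ev)
open Vale.Agent.P159.H889 (EvC StepH)

noncomputable section

/-- both halves of the charged sector at one absolute constant `A1` -/
theorem vpair {b b1 b2 : ℝ} (hb1 : 0 < b1) (h1 : b1 ≤ b) (h2 : b ≤ b2)
    (hel : helicity b = 2 / Real.pi) :
    ∃ A1 : ℝ, 1 ≤ A1 ∧ ∀ (K : ℝ) (Q : ℕ), 0 < K →
      EvC b1 b2 (9 / 10) Q K (StepH b A1) ∧
      EvC b1 b2 (9 / 10) Q K (FVS b A1) ∧
      EvC b1 b2 (9 / 10) Q K fun P c1 C1 => 24 ≤ C1 → STG b A1 P c1 C1 := by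
  obtain ⟨A, hA, hG⟩ := H733.Vt.stepH_crit (b2 := b2) hb1 (h1.trans h2) h1 hel
  obtain ⟨A0, hA0, hS⟩ := start_of3 hb1 h1 h2 hel
  refine ⟨max A A0, hA.trans (le_max_left _ _), fun K Q hK => ?_⟩
  have hStep := hG (max A A0) (le_max_left _ _) K Q hK
  exact ⟨hStep, H889.fvs_ev hb1 h1 h2 hel hK hStep, hS (max A A0) (le_max_right _ _) K Q hStep⟩

/-- **the V half** -/
theorem vhalf {b b1 b2 : ℝ} (hb1 : 0 < b1) (h1 : b1 ≤ b) (h2 : b ≤ b2)
    (hel : helicity b = 2 / Real.pi) (Q : ℕ) : Ev b1 b2 (9 / 10) Q (VHq 1 b) := by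
  obtain ⟨A1, -, h⟩ := vpair hb1 h1 h2 hel
  obtain ⟨-, hV, hS⟩ := h 1 Q one_pos
  exact vhalf_of hb1 h1 h2 hel le_rfl hV hS

end

end Vale.Agent.P159.H316
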