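import Vale.Agent.P159.H316.Vhg
import Vale.Agent.P159.H801.Fin2

/-!
# P159 / V (helper316): the V half in the words of the final glue

`vhalf_crit : VHalf b1 b2 1 Q` and `vfam : VFam b1 b2 qx Q`, no hypothesis beyond `b1 ≤ bCrit ≤ b2`.
-/

namespace Vale.Agent.P159.H316

open Filter Topology
open Vale.Agent.P159.H801 (Ev VHalf VFam)

noncomputable section

/-- **the V half at the critical point** -/
theorem vhalf_crit {b1 b2 : ℝ} (hb1 : 0 < b1) (h1 : b1 ≤ bCrit) (h2 : bCrit ≤ b2) (Q : ℕ) :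
    VHalf b1 b2 1 Q := by
  refine H801.Ev.mono (vhalf hb1 h1 h2 Vale.Agent.P159.TM.Frame.T1 Q) ?_
  intro P c1 _ h a hfl ha
  exact h a hfl ha

/-- **the V family** -/
theorem vfam {b1 b2 qx : ℝ} {Q : ℕ} (hb1 : 0 < b1) (h1 : b1 ≤ bCrit) (h2 : bCrit ≤ b2)
    (hqx : 0 < qx) : VFam b1 b2 qx Q :=
  H801.vfam_crit hb1 h1 h2 hqx (vhalf_crit hb1 h1 h2 Q)

end

end Vale.Agent.P159.H316
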