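import Vale.Agent.P159.H316.Yb1
import Vale.Agent.P159.H801.Master1

/-!
P159 (helper316), persistence of the zero background numbers, part 3: in the state `Good` the
numbers `yt` of all tori (masses `tn n` and `4 * tn n`) from the one of the base torus
`2 ^ (n + kE ε)` at the mass `4 * tn n`; `YBn` from one number.
-/

set_option linter.unusedSectionVars false

namespace Vale.Agent.P159.H316

open Filter Topology
open Vale.Agent.P159.TM
open Vale.Agent.P159.TM.Spec (V Rng)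
open Vale.Agent.P159.H864 (yt yt_nonneg yt_lt_one)
open Vale.Agent.P159.H972 (Par lg tn RNG FL Good YBn GP yt_mass forty TT_base)
open Vale.Agent.P159.H37 (small_rpow lg_lo lg_hi)
open Vale.Agent.P159.H801 (FLC)

noncomputable section

/-- stretched exponentials are smaller than powers -/
lemma exp_small {c th : ℝ} (hc : 0 < c) (hth : 0 < th) (A p : ℝ) {B : ℝ} (hB : 0 < B) :
    ∃ e0 : ℝ, 0 < e0 ∧ ∀ e : ℝ, 0 < e → e ≤ e0 → A * Real.exp (-(c * e ^ (-th))) ≤ B * e ^ p := by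
  have h1 := tendsto_rpow_mul_exp_neg_mul_atTop_nhds_zero (p / th) c hc
  have h2 : Tendsto (fun e : ℝ => e ^ (-th)) (𝓝[>] 0) atTop := by
    have h3 := (tendsto_rpow_atTop hth).comp (tendsto_inv_nhdsGT_zero (𝕜 := ℝ))
    refine h3.congr' ?_
    filter_upwards [self_mem_nhdsWithin] with e he
    simp only [Function.comp]
    rw [Real.inv_rpow (le_of_lt he), Real.rpow_neg (le_of_lt he)]
  have h3 := ((h1.comp h2).const_mul |A|)
  rw [mul_zero] at h3
  have h4 := h3.eventually (gt_mem_nhds hB)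
  rw [eventually_nhdsWithin_iff, Metric.eventually_nhds_iff] at h4
  obtain ⟨δ, hδ, h5⟩ := h4
  refine ⟨δ / 2, by positivity, fun e he hle => ?_⟩
  have h6 := h5 (y := e) (by rw [Real.dist_eq, sub_zero, abs_of_pos he]; linarith) he
  simp only [Function.comp] at h6
  have h7 : (e ^ (-th)) ^ (p / th) = e ^ (-p) := by
    rw [← Real.rpow_mul he.le]
    congr 1
    field_simp
  rw [h7] at h6
  have h8 : 0 < e ^ p := Real.rpow_pos_of_pos he p
  have h9 : e ^ (-p) * e ^ p = 1 := by rw [← Real.rpow_add he, neg_add_cancel, Real.rpow_zero]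
  have h10 : 0 < Real.exp (-(c * e ^ (-th))) := Real.exp_pos _
  have e1 : Real.exp (-c * e ^ (-th)) = Real.exp (-(c * e ^ (-th))) := by congr 1; ring
  rw [e1] at h6
  calc A * Real.exp (-(c * e ^ (-th))) ≤ |A| * Real.exp (-(c * e ^ (-th))) :=
        mul_le_mul_of_nonneg_right (le_abs_self A) h10.le
    _ = (|A| * (e ^ (-p) * Real.exp (-(c * e ^ (-th))))) * e ^ p := by
        rw [show (|A| * (e ^ (-p) * Real.exp (-(c * e ^ (-th))))) * e ^ p =
          |A| * Real.exp (-(c * e ^ (-th))) * (e ^ (-p) * e ^ p) by ring, h9, mul_one]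
    _ ≤ B * e ^ p := mul_le_mul_of_nonneg_right h6.le h8.le

lemma four_tn {n : ℕ} (hn : 1 ≤ n) : 4 * tn n = tn (n - 1) := by
  obtain ⟨m, rfl⟩ : ∃ m, n = m + 1 := ⟨n - 1, by omega⟩
  rw [Nat.add_sub_cancel]
  unfold tn
  rw [pow_succ]
  field_simp

/-- **all tori from the base torus**, in the state `Good` -/
theorem good_core {b1 : ℝ} (hb1 : 0 < b1) (b2 : ℝ) :
    ∃ W₀ : ℝ, ∀ W : ℝ, W₀ ≤ W → ∃ c C : ℝ, 0 < c ∧ 0 < C ∧ ∀ th : ℝ, 0 < th → th ≤ 1 / 32 →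
      ∃ es : ℝ, 0 < es ∧ es ≤ 1 / 4 ∧ ∀ (P : Par) (b : ℝ) (a : ℕ → ℝ), P.Adm → P.th = th →
      P.es ≤ es → 1 / 4 ≤ P.pf → b1 ≤ b → b ≤ b2 → FLC P b a →
      Tendsto a atTop (𝓝 (Real.pi / 2)) →
      ∀ᶠ n in atTop, ∀ ε, 0 < ε → ε ≤ P.es → Good P b n ε → ∀ y, 0 < y → y ≤ 4 * ε ^ (1 / 4 : ℝ) →
        yt (2 ^ (n + P.kE ε)) b (4 * tn n) ≤ y →
        ∀ e, ε ≤ e → e ≤ P.es → ∀ r, n + P.kE e ≤ r →
          Rng b1 b2 (5 / 2) W (1 / 2) 1 (2 ^ r) b (2 ^ (n - 1))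
            (C * (y + Real.exp (-(c * 2 ^ (P.kE e + 1))))) ∧
          yt (2 ^ r) b (4 * tn n) ≤ C * (y + Real.exp (-(c * e ^ (-th)))) := by
  obtain ⟨W₀, h⟩ := yt_core hb1 b2
  refine ⟨W₀, fun W hW => ?_⟩
  obtain ⟨c, C, hc, hC, h⟩ := h W hW
  refine ⟨c, C, hc, hC, fun th hth hth1 => ?_⟩
  obtain ⟨es1, M₀, hes1, hes4, h⟩ := h th hth hth1
  obtain ⟨e2, he2, h2⟩ := small_rpow (s := 1 / 4) (A := 80) (by norm_num) (show (0 : ℝ) < 1 / 10 by
    norm_num)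
  refine ⟨min es1 e2, lt_min hes1 he2, (min_le_left _ _).trans hes4, ?_⟩
  intro P b a hA hPth hPes hpf hbb1 hbb2 hfl ha
  have hpi1 : (12 : ℝ) / 10 < Real.pi / 2 := by linarith [Real.pi_gt_three]
  have hpi2 : Real.pi / 2 < (18 : ℝ) / 10 := by linarith [Real.pi_lt_d2]
  filter_upwards [eventually_ge_atTop (M₀ + 1), ha.eventually (lt_mem_nhds hpi1),
    ha.eventually (gt_mem_nhds hpi2)] with n hn ha1 ha2
  intro ε hε hεs hG y hy hyε hyt e he hes r hr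
  have hε1 : ε ≤ 1 := hεs.trans (P.es1.trans (by norm_num))
  have hp4 : ε ^ P.pf ≤ ε ^ (1 / 4 : ℝ) := Real.rpow_le_rpow_of_exponent_ge hε hε1 hpf
  have hk3 := hA.hk
  obtain ⟨τ, a', hτ1, hτ2, hGP⟩ := hG
  have hG1 := hGP ε le_rfl hεs
  have hT := TT_base P n ε
  have hf1 := (hG1.flat _ hT).1
  have hf2 := (hG1.flat _ hT).2
  have hf3 := hfl n ε hε hεs ⟨τ, a', hτ1, hτ2, hGP⟩ ε le_rfl hεs _ hT
  have hk3' : 3 ≤ P.kE ε := hk3.trans (H972.lg_anti P.th0.le hε hεs)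
  have h40 := forty hk3 hε hεs (n := n) (r := n + P.kE ε) le_rfl
  have hN2 : 2 ≤ 2 ^ (n + P.kE ε) := by
    calc 2 = 2 ^ 1 := by norm_num
      _ ≤ 2 ^ (n + P.kE ε) := Nat.pow_le_pow_right (by norm_num) (by omega)
  have hdet := hf1.det h40 hN2 hf3
  have hsm := h2 ε hε (hεs.trans (hPes.trans (min_le_right _ _)))
  have hd2 := abs_le.1 hdet
  have hd3 : 4 * ε ^ P.pf + 4 * (17 * ε ^ P.pf) ≤ 1 / 10 := by linarith
  have ha1' : 11 / 10 ≤ a' := by linarith [hd2.1]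
  have ha2' : a' ≤ 19 / 10 := by linarith [hd2.2]
  have hn1 : 1 ≤ n := by omega
  have e4 := four_tn hn1
  rw [e4] at hf2 hyt ⊢
  have er : n - 1 + (P.kE ε + 1) = n + P.kE ε := by omega
  have hkE : P.kE ε = lg th ε := by unfold Par.kE; rw [hPth]
  have hkE' : P.kE e = lg th e := by unfold Par.kE; rw [hPth]
  have hεe : 0 < e := hε.trans_le he
  have key := h b (n - 1) (P.kE ε + 1) ε a' (ε ^ P.pf) y hbb1 hbb2 hε
    (hεs.trans (hPes.trans (min_le_left _ _))) (by omega) (by rw [hkE])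
    (Real.rpow_nonneg hε.le _) hp4 ha1' ha2' (by rw [er]; exact hf2) hy hyε (by rw [er]; exact hyt)
    (P.kE e + 1) (by
      have := H972.lg_anti (c := th) hth.le hεe (hes.trans (hPes.trans (min_le_left _ _)))
      rw [hkE']
      omega) (by
      have := H972.lg_anti (c := th) hth.le hε he
      rw [hkE', hkE]
      omega) r (by omega)
  have hexp : Real.exp (-(c * 2 ^ (P.kE e + 1))) ≤ Real.exp (-(c * e ^ (-th))) := by
    apply Real.exp_le_exp.2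
    have h5 := lg_lo (c := th) hεe
    have h6 : (2 : ℝ) ^ lg th e ≤ 2 ^ (P.kE e + 1) :=
      pow_le_pow_right₀ (by norm_num) (by rw [hkE']; omega)
    have := mul_le_mul_of_nonneg_left (h5.trans h6) hc.le
    linarith
  have hle : C * (y + Real.exp (-(c * 2 ^ (P.kE e + 1)))) ≤
      C * (y + Real.exp (-(c * e ^ (-th)))) := by gcongr
  exact ⟨key.1, key.2.trans hle⟩

lemma yt_four {N : ℕ} [NeZero N] {b t : ℝ} (hb : 0 < b) (ht : 0 < t) :
    yt N b t ≤ 4 * yt N b (4 * t) := by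
  have h := yt_mass (N := N) hb ht (show t ≤ 4 * t by linarith)
  rwa [show 4 * t / t = 4 by field_simp] at h

/-- **`YBn` from one number** -/
theorem ybn_base {b1 : ℝ} (hb1 : 0 < b1) (b2 : ℝ) :
    ∃ W₀ : ℝ, ∀ W : ℝ, W₀ ≤ W → ∃ C : ℝ, 0 < C ∧ ∀ th : ℝ, 0 < th → th ≤ 1 / 32 →
      ∃ es : ℝ, 0 < es ∧ ∀ (P : Par) (b : ℝ) (a : ℕ → ℝ), P.Adm → P.th = th →
      P.es ≤ es → 1 / 4 ≤ P.pf → b1 ≤ b → b ≤ b2 → FLC P b a →
      Tendsto a atTop (𝓝 (Real.pi / 2)) →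
      ∀ᶠ n in atTop, ∀ ε, 0 < ε → ε ≤ P.es → Good P b n ε → ∀ y, 0 < y → y ≤ 4 * ε ^ (1 / 4 : ℝ) →
        yt (2 ^ (n + P.kE ε)) b (4 * tn n) ≤ y → ∀ Y, 0 < Y → C * y ≤ max Y ε →
        YBn P b n ε Y := by
  obtain ⟨W₀, h⟩ := good_core hb1 b2
  refine ⟨W₀, fun W hW => ?_⟩
  obtain ⟨c, C, hc, hC, h⟩ := h W hW
  refine ⟨8 * C, by positivity, fun th hth hth1 => ?_⟩
  obtain ⟨es1, hes1, -, h⟩ := h th hth hth1
  obtain ⟨e2, he2, h2⟩ := exp_small hc hth (8 * C) 1 one_pos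
  refine ⟨min es1 e2, lt_min hes1 he2, ?_⟩
  intro P b a hA hPth hPes hpf hbb1 hbb2 hfl ha
  have hb : 0 < b := hb1.trans_le hbb1
  filter_upwards [h P b a hA hPth (hPes.trans (min_le_left _ _)) hpf hbb1 hbb2 hfl ha] with n hn
  intro ε hε hεs hG y hy hyε hyt Y hY hCY
  have key : ∀ e, ε ≤ e → e ≤ P.es → ∀ r, n + P.kE e ≤ r →
      4 * yt (2 ^ r) b (4 * tn n) ≤ max Y e := by
    intro e he hes r hr
    have h3 := (hn ε hε hεs hG y hy hyε hyt e he hes r hr).2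
    have h4 := h2 e (hε.trans_le he) (hes.trans (hPes.trans (min_le_right _ _)))
    rw [Real.rpow_one, one_mul] at h4
    have h5 : max Y ε ≤ max Y e := max_le_max le_rfl he
    have h6 : e ≤ max Y e := le_max_right _ _
    nlinarith
  refine ⟨hY, fun e he hes r hr => ?_, fun e he hes r hr => ?_⟩
  · exact (yt_four hb (tn_pos' n)).trans (key e he hes r hr)
  · have h3 := key e he hes r hr
    have h4 := yt_nonneg (N := 2 ^ r) hb.le (show 0 < 4 * tn n by have := tn_pos' n; positivity)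
    linarith

end

end Vale.Agent.P159.H316
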