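import Vale.Agent.P159.H316.Yb3
import Vale.Agent.P159.H316.Zb12
import Vale.Agent.P159.H280.StR
import Vale.Agent.P159.H879.StartY
import Vale.Agent.P159.H801.StartM

/-!
P159 (helper316), the start: the zero background number `y0 n ε = yt (2 ^ (n + kE ε)) b (4 tn n)`
(one torus), its regularity, lower bound and smallness; NORMAL.
-/

set_option linter.unusedSectionVars false

namespace Vale.Agent.P159.H316

open Filter Topology
open Vale.Agent.P159.TM
open Vale.Agent.P159.TM.Spec (V Rng)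
open Vale.Agent.P159.H864 (yt yt_nonneg yt_lt_one)
open Vale.Agent.P159.H972 (Par lg tn RNG FL Good YBn GP yt_mass forty TT_base)
open Vale.Agent.P159.H37 (small_rpow lg_lo lg_hi)
open Vale.Agent.P159.H801 (FLC Bw)

noncomputable section

/-- the zero background number of the state `(n, ε)` -/
def y0 (P : Par) (b : ℝ) (n : ℕ) (ε : ℝ) : ℝ := yt (2 ^ (n + P.kE ε)) b (4 * tn n)

/-- the torus of NORMAL -/
def rN (P : Par) (n : ℕ) (ε : ℝ) : ℕ := n + P.w ε / 10

/-- NORMAL: the activity does not drop by a power of the window -/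
def NmP (P : Par) (b : ℝ) (n : ℕ) (ε : ℝ) : Prop :=
  (2 : ℝ) ^ (-((P.w ε : ℝ) / 50)) * y0 P b n ε ≤ Yn (2 ^ rN P n ε) b

variable {P : Par} {b : ℝ}

lemma y0_nonneg (hb : 0 < b) (n : ℕ) (ε : ℝ) : 0 ≤ y0 P b n ε :=
  yt_nonneg hb.le (by have := tn_pos' n; positivity)

/-- a priori smallness in the state `Good` -/
lemma y0_good {n : ℕ} (hn : 1 ≤ n) {ε : ℝ} (hεs : ε ≤ P.es)
    (hG : Good P b n ε) : y0 P b n ε ≤ ε ^ (1 / 4 : ℝ) := by
  obtain ⟨τ, a', hτ1, hτ2, hGP⟩ := hG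
  have h1 := ((hGP ε le_rfl hεs).rng _ (Or.inl (TT_base P n ε))).2
  unfold RNG at h1
  have h2 := yt_of_rng h1
  unfold y0
  rw [four_tn hn]
  exact h2

/-- the lower bound at criticality -/
theorem y0_low {b : ℝ} (hb : 0 < b) (hel : helicity b = 2 / Real.pi) {d : ℝ} (hd : 0 < d) :
    ∃ (D : ℝ) (N0 : ℕ), ∀ (P : Par), 8 * P.th ≤ d → P.th ≤ 1 → ∀ (n : ℕ) (ε : ℝ), N0 ≤ n →
      0 < ε → ε ≤ 1 → 0 < y0 P b n ε ∧
        Real.log (1 / y0 P b n ε) ≤ d * (n + Real.log (1 / ε)) + D := by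
  obtain ⟨c, N1, hc, h⟩ := H879.Ght_crit hb hel (δ := min (d / 2) 1) (κ := 1) (by positivity)
    one_pos
  set δ : ℝ := min (d / 2) 1 with hδ
  have hδ0 : 0 < δ := by positivity
  have hδ1 : δ ≤ 1 := min_le_right _ _
  have hδd : δ ≤ d / 2 := min_le_left _ _
  have hl2 := Real.log_two_lt_d9
  have hl2' := Real.log_two_gt_d9
  refine ⟨-Real.log c + 10, N1, fun P hP hP1 n ε hn hε hε1 => ?_⟩
  have hth := P.th0
  set k := P.kE ε with hk
  have hNr : N1 ≤ 2 ^ (n + k) := by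
    have h1 : n + k < 2 ^ (n + k) := Nat.lt_two_pow_self
    omega
  have hX : 4 * tn n * ((2 ^ (n + k) : ℕ) : ℝ) ^ 2 = 4 ^ (k + 1) := by
    rw [mul_assoc, H972.tn_mul, pow_succ]
    ring
  have h1 := h (2 ^ (n + k)) hNr (4 * tn n) (by
    rw [hX]
    exact one_le_pow₀ (by norm_num))
  rw [hX] at h1
  have e1 : 1 - 4 * tn n * H37.Ght (2 ^ (n + k)) b (4 * tn n) 0 = y0 P b n ε := rfl
  rw [e1] at h1
  have hN0 : (0 : ℝ) < ((2 ^ (n + k) : ℕ) : ℝ) := by positivity
  have hlow : 0 < c * ((2 ^ (n + k) : ℕ) : ℝ) ^ (-δ) := by positivity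
  have h4 : (0 : ℝ) < 4 ^ (k + 1) := by positivity
  have hy : 0 < y0 P b n ε := by
    by_contra hcon
    rw [not_lt] at hcon
    have := mul_nonpos_of_nonneg_of_nonpos h4.le hcon
    linarith
  refine ⟨hy, ?_⟩
  have hlog := Real.log_le_log hlow h1
  rw [Real.log_mul hc.ne' (by positivity), Real.log_mul h4.ne' hy.ne',
    Real.log_rpow hN0, Real.log_pow] at hlog
  have e2 : Real.log ((2 ^ (n + k) : ℕ) : ℝ) = (n + k) * Real.log 2 := by
    push_cast
    rw [Real.log_pow]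
    push_cast
    ring
  have e3 : Real.log (4 : ℝ) = 2 * Real.log 2 := by
    rw [show (4 : ℝ) = 2 ^ 2 by norm_num, Real.log_pow]
    push_cast
    ring
  rw [e2, e3] at hlog
  push_cast at hlog
  have hkb : (k : ℝ) * Real.log 2 ≤ P.th * Real.log (1 / ε) + 1 := by
    have h5 : (k : ℝ) ≤ P.th * Real.logb 2 (1 / ε) + 1 := by
      rw [hk]
      unfold Par.kE lg
      exact (Nat.ceil_lt_add_one (mul_nonneg hth.le (Real.logb_nonneg one_lt_two (by
        rw [le_div_iff₀ hε]; linarith)))).le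
    have h6 : Real.logb 2 (1 / ε) * Real.log 2 = Real.log (1 / ε) := by
      unfold Real.logb
      field_simp
    have h7 := mul_le_mul_of_nonneg_right h5 (show (0 : ℝ) ≤ Real.log 2 by linarith)
    calc (k : ℝ) * Real.log 2 ≤ (P.th * Real.logb 2 (1 / ε) + 1) * Real.log 2 := h7
      _ = P.th * (Real.logb 2 (1 / ε) * Real.log 2) + Real.log 2 := by ring
      _ ≤ _ := by rw [h6]; linarith
  have hl0 : 0 ≤ Real.log (1 / ε) := Real.log_nonneg (by rw [le_div_iff₀ hε]; linarith)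
  have hn0 : (0 : ℝ) ≤ n := Nat.cast_nonneg n
  have hk0 : (0 : ℝ) ≤ k := Nat.cast_nonneg k
  rw [one_div, Real.log_inv]
  have h8 : P.th * Real.log (1 / ε) ≤ d / 8 * Real.log (1 / ε) :=
    mul_le_mul_of_nonneg_right (by linarith) hl0
  have h9 : δ * (n * Real.log 2) ≤ d * n := by
    have : δ * (n * Real.log 2) ≤ d / 2 * (n * 1) := by gcongr; linarith
    nlinarith
  have h10 : δ * (k * Real.log 2) ≤ 1 * (k * Real.log 2) := by gcongr
  nlinarith

/-- smallness at fixed size -/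
theorem y0_start {b : ℝ} (hb : 0 < b) (hel : helicity b = 2 / Real.pi) {g th : ℝ} (hg : 0 < g)
    (hth : 0 < th) : ∃ es, 0 < es ∧ ∀ P : Par, P.th = th → P.es ≤ es → ∀ ε, 0 < ε → ε ≤ P.es →
      ∀ᶠ n in atTop, y0 P b n ε ^ g ≤ ε := by
  have hpi := Real.pi_gt_three
  have hpi2 := Real.pi_lt_d2
  obtain ⟨c, hc, i0, h⟩ := H280.start_yt hb (by rw [hel]; positivity) (by
    rw [hel, one_div_div]; linarith)
  obtain ⟨e1, he1, h1⟩ := exp_small hc hth 1 (1 / g) one_pos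
  obtain ⟨e2, he2, h2⟩ := small_rpow (s := th) (A := (2 : ℝ) ^ i0) hth one_pos
  refine ⟨min e1 e2, lt_min he1 he2, fun P hPth hPes ε hε hεs => ?_⟩
  have hkE : P.kE ε = lg th ε := by unfold Par.kE; rw [hPth]
  have hlo := lg_lo (c := th) hε
  have hi : i0 ≤ P.kE ε + 1 := by
    have h3 := h2 ε hε (hεs.trans (hPes.trans (min_le_right _ _)))
    have h4 : (2 : ℝ) ^ i0 ≤ 2 ^ lg th ε := by
      refine le_trans ?_ hlo
      have h5 : 0 < ε ^ (-th) := Real.rpow_pos_of_pos hε _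
      have h6 := mul_le_mul_of_nonneg_right h3 h5.le
      rw [mul_assoc, ← Real.rpow_add hε, add_neg_cancel, Real.rpow_zero, mul_one, one_mul] at h6
      exact h6
    have h7 := (pow_le_pow_iff_right₀ (one_lt_two (α := ℝ))).1 h4
    omega
  obtain ⟨m1, h3⟩ := h (P.kE ε + 1)
  filter_upwards [eventually_ge_atTop (m1 + 1)] with n hn
  have h4 := h3 (P.kE ε + 1) hi le_rfl (n - 1) (by omega)
  have e1 : P.kE ε + 1 + (n - 1) = n + P.kE ε := by omega
  have e4 : tn (n - 1) = 4 * tn n := (four_tn (by omega)).symm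
  have h5 : yt (2 ^ (P.kE ε + 1 + (n - 1))) b (tn (n - 1)) ≤
      Real.exp (-(c * 2 ^ (P.kE ε + 1))) := h4
  rw [e1, e4] at h5
  have h6 : Real.exp (-(c * 2 ^ (P.kE ε + 1))) ≤ Real.exp (-(c * ε ^ (-th))) := by
    apply Real.exp_le_exp.2
    have h6 : (2 : ℝ) ^ lg th ε ≤ 2 ^ (P.kE ε + 1) :=
      pow_le_pow_right₀ (by norm_num) (by rw [hkE]; omega)
    have := mul_le_mul_of_nonneg_left (hlo.trans h6) hc.le
    linarith
  have h7 := h1 ε hε (hεs.trans (hPes.trans (min_le_left _ _)))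
  rw [one_mul, one_mul] at h7
  have h8 : y0 P b n ε ≤ ε ^ (1 / g) := h5.trans (h6.trans h7)
  calc y0 P b n ε ^ g ≤ (ε ^ (1 / g)) ^ g := Real.rpow_le_rpow (y0_nonneg hb n ε) h8 hg.le
    _ = ε := by rw [← Real.rpow_mul hε.le, one_div_mul_cancel hg.ne', Real.rpow_one]

/-- **regularity** -/
theorem y0_reg {b1 : ℝ} (hb1 : 0 < b1) (b2 : ℝ) :
    ∃ W₀ : ℝ, ∀ W : ℝ, W₀ ≤ W → ∃ c' C' : ℝ, 0 < c' ∧ ∀ th : ℝ, 0 < th → th ≤ 1 / 32 →
      ∃ es : ℝ, 0 < es ∧ ∀ (P : Par) (b : ℝ) (a : ℕ → ℝ), P.Adm → P.th = th →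
      P.es ≤ es → 1 / 4 ≤ P.pf → b1 ≤ b → b ≤ b2 → FLC P b a →
      Tendsto a atTop (𝓝 (Real.pi / 2)) →
      ∀ᶠ n in atTop, ∀ ε, 0 < ε → ε ≤ P.es → Good P b n ε → 0 < y0 P b n ε →
        0 < y0 P b (n + P.w ε) (ε / 2) →
        min (Real.log (1 / y0 P b n ε) - 2 * P.w ε) (c' * ε ^ (-th)) - C' ≤
          Real.log (1 / y0 P b (n + P.w ε) (ε / 2)) := by
  obtain ⟨W₀, h⟩ := good_core hb1 b2
  refine ⟨W₀, fun W hW => ?_⟩
  obtain ⟨c, C, hc, hC, h⟩ := h W hW
  refine ⟨c / 2, |Real.log (2 * C)|, by positivity, fun th hth hth1 => ?_⟩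
  obtain ⟨es1, hes1, -, h⟩ := h th hth hth1
  obtain ⟨e2, he2, h2⟩ := H801.log_small (a := th) (c := c / 20) hth (by positivity)
  refine ⟨min es1 e2, lt_min hes1 he2, ?_⟩
  intro P b a hA hPth hPes hpf hbb1 hbb2 hfl ha
  have hb : 0 < b := hb1.trans_le hbb1
  filter_upwards [h P b a hA hPth (hPes.trans (min_le_left _ _)) hpf hbb1 hbb2 hfl ha,
    eventually_ge_atTop 1] with n hn hn1
  intro ε hε hεs hG hy hy'
  have hε1 : ε ≤ 1 := hεs.trans (P.es1.trans (by norm_num))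
  set y := y0 P b n ε with hyd
  set m := n + P.w ε with hm
  set y' := y0 P b m (ε / 2) with hyd'
  set T : ℝ := ε ^ (-th) with hT
  set w : ℝ := (P.w ε : ℝ) with hw
  have hw0 : 0 ≤ w := Nat.cast_nonneg _
  have hyε : y ≤ 4 * ε ^ (1 / 4 : ℝ) := by
    have h4 : 0 ≤ ε ^ (1 / 4 : ℝ) := by positivity
    have h5 : y ≤ ε ^ (1 / 4 : ℝ) := y0_good hn1 hεs hG
    linarith
  have hlg : P.kE ε ≤ P.kE (ε / 2) := H972.lg_anti P.th0.le (by positivity) (by linarith)
  have h3 := (hn ε hε hεs hG y hy hyε le_rfl ε le_rfl hεs (m + P.kE (ε / 2)) (by omega)).2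
  have hnm : tn m ≤ tn n := by
    unfold tn
    rw [hm]
    apply inv_anti₀ (by positivity)
    exact pow_le_pow_right₀ (by norm_num) (by omega)
  have h4 := yt_mass (N := 2 ^ (m + P.kE (ε / 2))) hb (τ := 4 * tn m) (t := 4 * tn n)
    (by have := tn_pos' m; positivity) (by linarith)
  have h5 : 4 * tn n / (4 * tn m) = 4 ^ P.w ε := by
    unfold tn
    rw [hm, pow_add]
    field_simp
  rw [h5] at h4
  set E : ℝ := Real.exp (-(c * T)) with hE
  have hE0 : 0 < E := Real.exp_pos _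
  have hmx : 0 < max y E := lt_max_of_lt_left hy
  have h6 : y' ≤ 4 ^ P.w ε * (2 * C * max y E) := by
    refine (show y' ≤ _ from h4).trans (mul_le_mul_of_nonneg_left (h3.trans ?_) (by positivity))
    have h7 : y ≤ max y E := le_max_left _ _
    have h8 : E ≤ max y E := le_max_right _ _
    nlinarith
  have h7 := Real.log_le_log hy' h6
  rw [Real.log_mul (by positivity) (by positivity), Real.log_mul (by positivity) hmx.ne',
    Real.log_pow] at h7
  have e3 : Real.log (4 : ℝ) = 2 * Real.log 2 := by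
    rw [show (4 : ℝ) = 2 ^ 2 by norm_num, Real.log_pow]
    push_cast
    ring
  rw [e3] at h7
  have hl2 := Real.log_two_lt_d9
  have hl2' := Real.log_two_gt_d9
  have h8 : w ≤ Bw P * Real.log (1 / ε) := H972.w3 hε hεs
  have hB : Bw P ≤ 3 := by
    unfold Bw
    rw [div_le_iff₀ (by linarith)]
    have := hA.thp1
    linarith
  have hl0 : 0 ≤ Real.log (1 / ε) := Real.log_nonneg (by rw [le_div_iff₀ hε]; linarith)
  have hT0 : 0 < T := Real.rpow_pos_of_pos hε _
  have h9 : Real.log (1 / ε) ≤ c / 20 * T := by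
    have h10 := h2 ε hε (hεs.trans (hPes.trans (min_le_right _ _)))
    have h11 := mul_le_mul_of_nonneg_right h10 hT0.le
    have h12 : ε ^ th * T = 1 := by
      rw [hT, ← Real.rpow_add hε, add_neg_cancel, Real.rpow_zero]
    calc Real.log (1 / ε) = ε ^ th * T * Real.log (1 / ε) := by rw [h12, one_mul]
      _ = ε ^ th * Real.log (1 / ε) * T := by ring
      _ ≤ _ := h11
  have h10 : w ≤ 3 * Real.log (1 / ε) := h8.trans (mul_le_mul_of_nonneg_right hB hl0)
  have h14 : w * (2 * Real.log 2) ≤ 2 * w := by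
    have := mul_le_mul_of_nonneg_left (show 2 * Real.log 2 ≤ 2 by linarith) hw0
    linarith
  have h11 : w * (2 * Real.log 2) ≤ c / 2 * T := by
    have h15 : c / 20 * T * 6 ≤ c / 2 * T := by
      have : 0 ≤ c * T := by positivity
      linarith
    linarith
  have h12 := le_abs_self (Real.log (2 * C))
  rw [one_div y', Real.log_inv, one_div y, Real.log_inv]
  rcases le_total E y with h13 | h13
  · rw [max_eq_left h13] at h7
    have := min_le_left (-Real.log y - 2 * w) (c / 2 * T)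
    linarith
  · rw [max_eq_right h13, hE, Real.log_exp] at h7
    have := min_le_right (-Real.log y - 2 * w) (c / 2 * T)
    linarith

end

end Vale.Agent.P159.H316
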