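import Mathlib

/-!
P159, V list part B (VB9 = ZB), helper316: consequences of the charged Gram kernel.

`Z0` = neutral partition function, `Z1` = charge one sector at real backgrounds,
`inner (v a) (v c) = Z0 (a + c) * Z1 (a - c)`, `inner (u a) (u c) = Z0 (a + c) * Z0 (a - c)`.
-/

open Complex

set_option linter.unusedSectionVars false

namespace Vale.Agent.P159.H316

noncomputable section

variable {E : Type*} [AddCommGroup E] [Module ℝ E]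
variable {H : Type*} [NormedAddCommGroup H] [InnerProductSpace ℂ H]

/-- charged and neutral Gram kernels over one space of backgrounds -/
structure CGram (Z0 : E → ℝ) (Z1 : E → ℂ) (o : ℝ) (v u : E → H) : Prop where
  pos : ∀ a, 0 < Z0 a
  opos : 0 < o
  one : Z1 0 = (o : ℂ)
  even : ∀ a, Z0 (-a) = Z0 a
  cj : ∀ a, Z1 (-a) = (starRingEnd ℂ) (Z1 a)
  vin : ∀ a c, inner ℂ (v a) (v c) = (Z0 (a + c) : ℂ) * Z1 (a - c)
  uin : ∀ a c, inner ℂ (u a) (u c) = (Z0 (a + c) : ℂ) * (Z0 (a - c) : ℂ)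

/-- `T a = log Z0 (2a) - 4 log Z0 a + 3 log Z0 0` -/
def TT (Z0 : E → ℝ) (a : E) : ℝ :=
  Real.log (Z0 ((2 : ℝ) • a)) - 4 * Real.log (Z0 a) + 3 * Real.log (Z0 0)

/-- `φ a = Φ(a) / Φ(0)` -/
def phi (Z0 : E → ℝ) (Z1 : E → ℂ) (o : ℝ) (a : E) : ℂ := Z1 a * (Z0 0 : ℂ) / ((o : ℂ) * (Z0 a : ℂ))

/-- the neutral cosine -/
def k0 (Z0 : E → ℝ) (a c : E) : ℝ :=
  Z0 (a + c) * Z0 (a - c) / (Z0 0 * Real.sqrt (Z0 ((2 : ℝ) • a) * Z0 ((2 : ℝ) • c)))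

variable {Z0 : E → ℝ} {Z1 : E → ℂ} {o : ℝ} {v u : E → H}

lemma add_self_eq (a : E) : a + a = (2 : ℝ) • a := by rw [two_smul]

namespace CGram

lemma norm_v_sq (h : CGram Z0 Z1 o v u) (a : E) : ‖v a‖ ^ 2 = Z0 ((2 : ℝ) • a) * o := by
  have h1 := h.vin a a
  rw [sub_self, h.one, add_self_eq, inner_self_eq_norm_sq_to_K] at h1
  have h2 : (((‖v a‖ ^ 2 : ℝ)) : ℂ) = ((Z0 ((2 : ℝ) • a) * o : ℝ) : ℂ) := by
    push_cast
    exact h1
  exact_mod_cast h2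

lemma norm_u_sq (h : CGram Z0 Z1 o v u) (a : E) : ‖u a‖ ^ 2 = Z0 ((2 : ℝ) • a) * Z0 0 := by
  have h1 := h.uin a a
  rw [sub_self, add_self_eq, inner_self_eq_norm_sq_to_K] at h1
  have h2 : (((‖u a‖ ^ 2 : ℝ)) : ℂ) = ((Z0 ((2 : ℝ) • a) * Z0 0 : ℝ) : ℂ) := by
    push_cast
    exact h1
  exact_mod_cast h2

lemma norm_v_pos (h : CGram Z0 Z1 o v u) (a : E) : 0 < ‖v a‖ := by
  have h2 : 0 < ‖v a‖ ^ 2 := by rw [h.norm_v_sq a]; exact mul_pos (h.pos _) h.opos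
  rcases (norm_nonneg (v a)).eq_or_lt with h0 | h0
  · rw [← h0] at h2; simp at h2
  · exact h0

lemma norm_u_pos (h : CGram Z0 Z1 o v u) (a : E) : 0 < ‖u a‖ := by
  have h2 : 0 < ‖u a‖ ^ 2 := by rw [h.norm_u_sq a]; exact mul_pos (h.pos _) (h.pos _)
  rcases (norm_nonneg (u a)).eq_or_lt with h0 | h0
  · rw [← h0] at h2; simp at h2
  · exact h0

lemma norm_v_mul (h : CGram Z0 Z1 o v u) (a c : E) :
    ‖v a‖ * ‖v c‖ = o * Real.sqrt (Z0 ((2 : ℝ) • a) * Z0 ((2 : ℝ) • c)) := by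
  have h1 : (‖v a‖ * ‖v c‖) ^ 2 = (o * Real.sqrt (Z0 ((2 : ℝ) • a) * Z0 ((2 : ℝ) • c))) ^ 2 := by
    rw [mul_pow, mul_pow, Real.sq_sqrt (mul_pos (h.pos _) (h.pos _)).le, h.norm_v_sq, h.norm_v_sq]
    ring
  exact (pow_left_inj₀ (by positivity) (mul_nonneg h.opos.le (Real.sqrt_nonneg _)) two_ne_zero).1 h1

lemma norm_u_mul (h : CGram Z0 Z1 o v u) (a c : E) :
    ‖u a‖ * ‖u c‖ = Z0 0 * Real.sqrt (Z0 ((2 : ℝ) • a) * Z0 ((2 : ℝ) • c)) := by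
  have h1 : (‖u a‖ * ‖u c‖) ^ 2 = (Z0 0 * Real.sqrt (Z0 ((2 : ℝ) • a) * Z0 ((2 : ℝ) • c))) ^ 2 := by
    rw [mul_pow, mul_pow, Real.sq_sqrt (mul_pos (h.pos _) (h.pos _)).le, h.norm_u_sq, h.norm_u_sq]
    ring
  exact (pow_left_inj₀ (by positivity) (mul_nonneg (h.pos 0).le (Real.sqrt_nonneg _))
    two_ne_zero).1 h1

/-- unit vectors -/
def ev (v : E → H) (a : E) : H := ((‖v a‖⁻¹ : ℝ) : ℂ) • v a

lemma norm_ev {v : E → H} {a : E} (h : 0 < ‖v a‖) : ‖ev v a‖ = 1 := by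
  rw [ev, norm_smul, Complex.norm_real, Real.norm_eq_abs, abs_of_pos (inv_pos.2 h),
    inv_mul_cancel₀ h.ne']

lemma inner_ev (v : E → H) (a c : E) :
    inner ℂ (ev v a) (ev v c) = inner ℂ (v a) (v c) / ((‖v a‖ * ‖v c‖ : ℝ) : ℂ) := by
  rw [ev, ev, inner_smul_left, inner_smul_right, Complex.conj_ofReal]
  push_cast
  rw [div_eq_mul_inv, mul_inv]
  ring

lemma dist_sq {x y : H} (hx : ‖x‖ = 1) (hy : ‖y‖ = 1) :
    ‖x - y‖ ^ 2 = 2 - 2 * (inner ℂ x y : ℂ).re := by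
  have h1 := @norm_sub_sq ℂ H _ _ _ x y
  rw [h1, hx, hy]
  show (1 : ℝ) ^ 2 - 2 * (inner ℂ x y : ℂ).re + 1 ^ 2 = _
  ring

/-- inner products of the neutral unit vectors -/
lemma inner_eu (h : CGram Z0 Z1 o v u) (a c : E) :
    inner ℂ (ev u a) (ev u c) = (k0 Z0 a c : ℂ) := by
  rw [inner_ev, h.norm_u_mul, h.uin, k0]
  push_cast
  rfl

/-- inner products of the charged unit vectors -/
lemma inner_ev' (h : CGram Z0 Z1 o v u) (a c : E) :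
    inner ℂ (ev v a) (ev v c) = phi Z0 Z1 o (a - c) * (k0 Z0 a c : ℂ) := by
  rw [inner_ev, h.norm_v_mul, h.vin, phi, k0]
  have h1 : (o : ℂ) ≠ 0 := by exact_mod_cast h.opos.ne'
  have h2 : (Z0 (a - c) : ℂ) ≠ 0 := by exact_mod_cast (h.pos _).ne'
  have h3 : (Z0 0 : ℂ) ≠ 0 := by exact_mod_cast (h.pos _).ne'
  have h4 : ((Real.sqrt (Z0 ((2 : ℝ) • a) * Z0 ((2 : ℝ) • c)) : ℝ) : ℂ) ≠ 0 := by
    exact_mod_cast (Real.sqrt_pos.2 (mul_pos (h.pos _) (h.pos _))).ne'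
  push_cast
  field_simp

lemma k0_pos (h : CGram Z0 Z1 o v u) (a c : E) : 0 < k0 Z0 a c := by
  have h1 := h.pos (a + c)
  have h2 := h.pos (a - c)
  have h3 := h.pos 0
  have h4 := Real.sqrt_pos.2 (mul_pos (h.pos ((2 : ℝ) • a)) (h.pos ((2 : ℝ) • c)))
  unfold k0
  positivity

lemma k0_zero (h : CGram Z0 Z1 o v u) (a : E) : k0 Z0 a 0 = Real.exp (-(TT Z0 a / 2)) := by
  have h0 := h.pos 0
  have h1 := h.pos a
  have h2 := h.pos ((2 : ℝ) • a)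
  have h3 : 0 < Real.sqrt (Z0 ((2 : ℝ) • a) * Z0 0) := Real.sqrt_pos.2 (mul_pos h2 h0)
  have e1 : k0 Z0 a 0 = Z0 a * Z0 a / (Z0 0 * Real.sqrt (Z0 ((2 : ℝ) • a) * Z0 0)) := by
    rw [k0, add_zero, sub_zero, smul_zero]
  have h4 : 0 < k0 Z0 a 0 := h.k0_pos a 0
  rw [← Real.exp_log h4]
  congr 1
  rw [e1, Real.log_div (by positivity) (by positivity), Real.log_mul h1.ne' h1.ne',
    Real.log_mul h0.ne' h3.ne', Real.log_sqrt (by positivity), Real.log_mul h2.ne' h0.ne', TT]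
  ring

/-- distance of neutral unit vectors from the one at `0` -/
lemma dist_u (h : CGram Z0 Z1 o v u) (a : E) : ‖ev u a - ev u 0‖ ^ 2 ≤ TT Z0 a := by
  rw [dist_sq (norm_ev (h.norm_u_pos a)) (norm_ev (h.norm_u_pos 0)), h.inner_eu, Complex.ofReal_re,
    h.k0_zero]
  have := Real.add_one_le_exp (-(TT Z0 a / 2))
  linarith

lemma TT_nonneg (h : CGram Z0 Z1 o v u) (a : E) : 0 ≤ TT Z0 a :=
  le_trans (by positivity) (h.dist_u a)

lemma dist_u' (h : CGram Z0 Z1 o v u) (a : E) : ‖ev u a - ev u 0‖ ≤ Real.sqrt (TT Z0 a) :=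
  Real.le_sqrt_of_sq_le (h.dist_u a)

/-- the neutral cosine is close to one -/
lemma k0_ge (h : CGram Z0 Z1 o v u) (a c : E) : 1 - (TT Z0 a + TT Z0 c) ≤ k0 Z0 a c := by
  have h1 := dist_sq (norm_ev (h.norm_u_pos a)) (norm_ev (h.norm_u_pos c))
  rw [h.inner_eu, Complex.ofReal_re] at h1
  have h2 : ‖ev u a - ev u c‖ ≤ ‖ev u a - ev u 0‖ + ‖ev u c - ev u 0‖ := by
    have : ev u a - ev u c = (ev u a - ev u 0) - (ev u c - ev u 0) := by abel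
    rw [this]
    exact norm_sub_le _ _
  have h3 := h.dist_u a
  have h4 := h.dist_u c
  nlinarith [norm_nonneg (ev u a - ev u c), norm_nonneg (ev u a - ev u 0),
    norm_nonneg (ev u c - ev u 0), sq_nonneg (‖ev u a - ev u 0‖ - ‖ev u c - ev u 0‖)]

lemma k0_le_one (h : CGram Z0 Z1 o v u) (a c : E) : k0 Z0 a c ≤ 1 := by
  have h1 := dist_sq (norm_ev (h.norm_u_pos a)) (norm_ev (h.norm_u_pos c))
  rw [h.inner_eu, Complex.ofReal_re] at h1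
  nlinarith [sq_nonneg ‖ev u a - ev u c‖]

lemma k0_diff (h : CGram Z0 Z1 o v u) (x p : E) :
    |k0 Z0 x 0 - k0 Z0 x p| ≤ Real.sqrt (TT Z0 p) := by
  have h1 : ((k0 Z0 x 0 - k0 Z0 x p : ℝ) : ℂ) = inner ℂ (ev u x) (ev u 0 - ev u p) := by
    rw [inner_sub_right, h.inner_eu, h.inner_eu]
    push_cast
    rfl
  have h2 : |k0 Z0 x 0 - k0 Z0 x p| = ‖inner ℂ (ev u x) (ev u 0 - ev u p)‖ := by
    rw [← h1, Complex.norm_real, Real.norm_eq_abs]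
  rw [h2]
  refine (norm_inner_le_norm _ _).trans ?_
  rw [norm_ev (h.norm_u_pos x), one_mul, norm_sub_rev]
  exact h.dist_u' p

/-- the charged distance `δ p` -/
def del (v : E → H) (p : E) : ℝ := ‖ev v p - ev v 0‖

lemma del_nonneg (v : E → H) (p : E) : 0 ≤ del v p := norm_nonneg _

lemma norm_phi_le (h : CGram Z0 Z1 o v u) (a : E) : ‖phi Z0 Z1 o a‖ ≤ 1 := by
  have e1 : (1 / 2 : ℝ) • a + -((1 / 2 : ℝ) • a) = 0 := by abel
  have e2 : (1 / 2 : ℝ) • a - -((1 / 2 : ℝ) • a) = a := by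
    rw [sub_neg_eq_add, ← two_smul ℝ, smul_smul]; norm_num
  have e3 : (2 : ℝ) • ((1 / 2 : ℝ) • a) = a := by rw [smul_smul]; norm_num
  have e4 : (2 : ℝ) • (-((1 / 2 : ℝ) • a)) = -a := by rw [smul_neg, e3]
  have h2 : ‖inner ℂ (v ((1 / 2 : ℝ) • a)) (v (-((1 / 2 : ℝ) • a)))‖ ≤
      ‖v ((1 / 2 : ℝ) • a)‖ * ‖v (-((1 / 2 : ℝ) • a))‖ := norm_inner_le_norm _ _
  rw [h.norm_v_mul, e3, e4, h.even, Real.sqrt_mul_self (h.pos a).le, h.vin, e1, e2, norm_mul,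
    Complex.norm_real, Real.norm_eq_abs, abs_of_pos (h.pos 0)] at h2
  rw [phi, norm_div, norm_mul, norm_mul, Complex.norm_real, Complex.norm_real, Complex.norm_real,
    Real.norm_eq_abs, Real.norm_eq_abs, Real.norm_eq_abs, abs_of_pos (h.pos 0), abs_of_pos h.opos,
    abs_of_pos (h.pos a), div_le_one (mul_pos h.opos (h.pos a))]
  linarith

lemma phi_neg (h : CGram Z0 Z1 o v u) (a : E) :
    phi Z0 Z1 o (-a) = (starRingEnd ℂ) (phi Z0 Z1 o a) := by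
  rw [phi, phi, h.cj, h.even, map_div₀, map_mul, map_mul, Complex.conj_ofReal, Complex.conj_ofReal,
    Complex.conj_ofReal]

lemma del_sq (h : CGram Z0 Z1 o v u) (p : E) :
    del v p ^ 2 = 2 - 2 * ((phi Z0 Z1 o p).re * Real.exp (-(TT Z0 p / 2))) := by
  rw [del, dist_sq (norm_ev (h.norm_v_pos p)) (norm_ev (h.norm_v_pos 0)), h.inner_ev', sub_zero,
    h.k0_zero, Complex.re_mul_ofReal]

lemma TT_neg (h : CGram Z0 Z1 o v u) (a : E) : TT Z0 (-a) = TT Z0 a := by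
  rw [TT, TT, smul_neg, h.even, h.even]

lemma del_neg (h : CGram Z0 Z1 o v u) (p : E) : del v (-p) = del v p := by
  have h1 := h.del_sq (-p)
  rw [h.phi_neg, h.TT_neg, Complex.conj_re, ← h.del_sq p] at h1
  exact (pow_left_inj₀ (del_nonneg _ _) (del_nonneg _ _) two_ne_zero).1 h1

/-- `1 - Re φ` against the distance -/
lemma one_sub_re (h : CGram Z0 Z1 o v u) (p : E) :
    2 - 2 * (phi Z0 Z1 o p).re ≤ del v p ^ 2 + TT Z0 p := by
  rw [h.del_sq]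
  have h1 : |(phi Z0 Z1 o p).re| ≤ 1 := (Complex.abs_re_le_norm _).trans (h.norm_phi_le p)
  have h2 := Real.add_one_le_exp (-(TT Z0 p / 2))
  have h3 : Real.exp (-(TT Z0 p / 2)) ≤ 1 := Real.exp_le_one_iff.2 (by linarith [h.TT_nonneg p])
  have h4 := (abs_le.1 h1).1
  nlinarith

lemma del_sq_le (h : CGram Z0 Z1 o v u) (p : E) :
    del v p ^ 2 ≤ 2 * (1 - (phi Z0 Z1 o p).re) + TT Z0 p := by
  rw [h.del_sq]
  have h1 : |(phi Z0 Z1 o p).re| ≤ 1 := (Complex.abs_re_le_norm _).trans (h.norm_phi_le p)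
  have h2 := Real.add_one_le_exp (-(TT Z0 p / 2))
  have h3 : Real.exp (-(TT Z0 p / 2)) ≤ 1 := Real.exp_le_one_iff.2 (by linarith [h.TT_nonneg p])
  have h4 := (abs_le.1 h1).2
  nlinarith

/-- **(ZB3) doubling** -/
lemma del_two (h : CGram Z0 Z1 o v u) (p : E) :
    del v ((2 : ℝ) • p) ≤ 2 * del v p +
      Real.sqrt (3 * TT Z0 p + 2 * TT Z0 ((2 : ℝ) • p)) := by
  set S := 3 * TT Z0 p + 2 * TT Z0 ((2 : ℝ) • p) with hS
  have hS0 : 0 ≤ S := by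
    have := h.TT_nonneg p
    have := h.TT_nonneg ((2 : ℝ) • p)
    positivity
  have h1 : ‖ev v ((2 : ℝ) • p) - ev v p‖ ^ 2 ≤ del v p ^ 2 + S := by
    rw [dist_sq (norm_ev (h.norm_v_pos _)) (norm_ev (h.norm_v_pos _)), h.inner_ev',
      Complex.re_mul_ofReal]
    have e1 : (2 : ℝ) • p - p = p := by rw [two_smul]; abel
    rw [e1]
    have h2 := h.k0_ge ((2 : ℝ) • p) p
    have h3 := h.k0_le_one ((2 : ℝ) • p) p
    have h4 := h.one_sub_re p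
    have h5 : |(phi Z0 Z1 o p).re| ≤ 1 := (Complex.abs_re_le_norm _).trans (h.norm_phi_le p)
    have h6 := (abs_le.1 h5).2
    nlinarith
  have h2 : ‖ev v ((2 : ℝ) • p) - ev v p‖ ≤ del v p + Real.sqrt S := by
    refine abs_le_of_sq_le_sq' ?_ (by have := del_nonneg v p; positivity) |>.2
    nlinarith [Real.sq_sqrt hS0, Real.sqrt_nonneg S, del_nonneg v p]
  have h3 : del v ((2 : ℝ) • p) ≤ ‖ev v ((2 : ℝ) • p) - ev v p‖ + del v p := by
    unfold del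
    have : ev v ((2 : ℝ) • p) - ev v 0 =
        (ev v ((2 : ℝ) • p) - ev v p) + (ev v p - ev v 0) := by abel
    rw [this]
    exact norm_add_le _ _
  linarith

/-- iterated doubling -/
lemma del_iter (h : CGram Z0 Z1 o v u) (p : E) (k : ℕ) :
    del v p ≤ 2 ^ k * del v (((1 / 2 : ℝ) ^ k) • p) +
      ∑ j ∈ Finset.range k, 2 ^ j * Real.sqrt (3 * TT Z0 (((1 / 2 : ℝ) ^ (j + 1)) • p) +
        2 * TT Z0 (((1 / 2 : ℝ) ^ j) • p)) := by
  induction k with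
  | zero => simp
  | succ k ih =>
    have h1 := h.del_two (((1 / 2 : ℝ) ^ (k + 1)) • p)
    have e1 : (2 : ℝ) • (((1 / 2 : ℝ) ^ (k + 1)) • p) = ((1 / 2 : ℝ) ^ k) • p := by
      rw [smul_smul, pow_succ]
      congr 1
      ring
    rw [e1] at h1
    rw [Finset.sum_range_succ]
    have h2 := mul_le_mul_of_nonneg_left h1 (show (0 : ℝ) ≤ 2 ^ k by positivity)
    have e2 : (2 : ℝ) ^ (k + 1) = 2 ^ k * 2 := pow_succ _ _
    rw [e2]
    linarith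

/-- **(ZB2)** the charged functional at `x + p` and at `x` -/
lemma phi_diff (h : CGram Z0 Z1 o v u) {x p : E} (hx : TT Z0 x ≤ 1 / 4) (hp : TT Z0 p ≤ 1 / 4) :
    ‖phi Z0 Z1 o (x + p) - phi Z0 Z1 o x‖ ≤ 2 * del v p + 4 * Real.sqrt (TT Z0 p) := by
  have e1 : inner ℂ (ev v x) (ev v (-p)) = phi Z0 Z1 o (x + p) * (k0 Z0 x (-p) : ℂ) := by
    rw [h.inner_ev', sub_neg_eq_add]
  have e2 : inner ℂ (ev v x) (ev v 0) = phi Z0 Z1 o x * (k0 Z0 x 0 : ℂ) := by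
    rw [h.inner_ev', sub_zero]
  have ek : k0 Z0 x (-p) = k0 Z0 x p := by
    rw [k0, k0, sub_neg_eq_add, smul_neg, h.even, ← sub_eq_add_neg]
    ring
  have hk : 1 / 2 ≤ k0 Z0 x p := by linarith [h.k0_ge x p]
  have hk0 : 1 / 2 ≤ k0 Z0 x 0 := by
    have h1 := h.k0_ge x 0
    have h2 : TT Z0 (0 : E) = 0 := by rw [TT, smul_zero]; ring
    linarith
  rw [ek] at e1
  have hkp : (k0 Z0 x p : ℂ) ≠ 0 := by exact_mod_cast (by linarith : (0 : ℝ) < k0 Z0 x p).ne'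
  -- (phi(x+p) - phi x) k_p = <e_x, e_{-p} - e_0> + phi x (k_0 - k_p)
  have e3 : (phi Z0 Z1 o (x + p) - phi Z0 Z1 o x) * (k0 Z0 x p : ℂ) =
      inner ℂ (ev v x) (ev v (-p) - ev v 0) + phi Z0 Z1 o x * ((k0 Z0 x 0 - k0 Z0 x p : ℝ) : ℂ) := by
    rw [inner_sub_right, e1, e2]
    push_cast
    ring
  have h4 : ‖(phi Z0 Z1 o (x + p) - phi Z0 Z1 o x) * (k0 Z0 x p : ℂ)‖ ≤
      del v p + Real.sqrt (TT Z0 p) := by
    rw [e3]
    refine (norm_add_le _ _).trans (add_le_add ?_ ?_)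
    · refine (norm_inner_le_norm _ _).trans ?_
      rw [norm_ev (h.norm_v_pos x), one_mul, ← h.del_neg p]
      exact le_rfl
    · rw [norm_mul, Complex.norm_real, Real.norm_eq_abs]
      have h5 := h.norm_phi_le x
      have h6 := h.k0_diff x p
      nlinarith [norm_nonneg (phi Z0 Z1 o x), abs_nonneg (k0 Z0 x 0 - k0 Z0 x p)]
  rw [norm_mul, Complex.norm_real, Real.norm_eq_abs, abs_of_pos (by linarith)] at h4
  have h7 : 0 ≤ Real.sqrt (TT Z0 p) := Real.sqrt_nonneg _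
  nlinarith [norm_nonneg (phi Z0 Z1 o (x + p) - phi Z0 Z1 o x), del_nonneg v p]

end CGram

end

end Vale.Agent.P159.H316
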