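import Vale.Agent.P159.H316.Zb9

/-!
P159, V list part B (VB9 = ZB), helper316: torus form of the comparison of the activities at two
cell masses, fixed base mass with the small step property.
-/

open MeasureTheory Finset Matrix
open scoped ComplexConjugate
open Vale.Agent.P159.TM.H104 (EM nh li Ex)
open Vale.Agent.P159.H37 (wM ZM qf bf Zn Zq Un Ev gau gau_shift cellP)
open Vale.Agent.P159.H896
open Vale.Agent.P159.TM.Spec (V)
open Vale.Agent.P159.TM.SpecC (Tor wT)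
open Vale.Agent.P159.TM.H764 (EE)
open Vale.Agent.P159.H864 (TI sym MC cl cobV fc)
open Vale.Agent.P159.H963 (Pn nMC nM ntr gw_wT mf_MC eq2)
open Vale.Agent.P159.H363 (acl lf Rcl Wcl gm sn)

set_option linter.unusedSectionVars false

namespace Vale.Agent.P159.H316

noncomputable section

section inc

variable {n : ℕ} [NeZero n] {A : Matrix (V n) (V n) ℝ}

/-- variance increment of a mode -/
def dv (s1 s2 a : ℝ) : ℝ := s2 * (1 + s2 * a)⁻¹ - s1 * (1 + s1 * a)⁻¹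

lemma dv_eq {s1 s2 a : ℝ} (h1 : 0 ≤ s1) (h2 : 0 ≤ s2) (ha : 0 ≤ a) :
    dv s1 s2 a = (s2 - s1) / ((1 + s1 * a) * (1 + s2 * a)) := by
  have e1 : 0 < 1 + s1 * a := by positivity
  have e2 : 0 < 1 + s2 * a := by positivity
  rw [dv]
  field_simp
  ring

lemma dv_nonneg {s1 s2 a : ℝ} (h1 : 0 ≤ s1) (h : s1 ≤ s2) (ha : 0 ≤ a) : 0 ≤ dv s1 s2 a := by
  rw [dv_eq h1 (h1.trans h) ha]
  have h2 : 0 ≤ s2 := h1.trans h
  have e1 : 0 < 1 + s1 * a := by positivity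
  have e2 : 0 < 1 + s2 * a := by positivity
  have e3 : 0 ≤ s2 - s1 := sub_nonneg.2 h
  positivity

lemma dv_le {s1 s2 a : ℝ} (h1 : 0 < s1) (h : s1 ≤ s2) (ha : 0 < a) :
    dv s1 s2 a ≤ 1 / (s1 * a ^ 2) := by
  rw [dv_eq h1.le (h1.le.trans h) ha.le]
  have h2 : 0 < s2 := h1.trans_le h
  rw [div_le_div_iff₀ (by positivity) (by positivity)]
  have e1 : s1 * a * (s2 * a) ≤ (1 + s1 * a) * (1 + s2 * a) := by
    nlinarith [mul_pos h1 ha, mul_pos h2 ha]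
  have e2 : (s2 - s1) * (s1 * a ^ 2) ≤ s2 * (s1 * a ^ 2) :=
    mul_le_mul_of_nonneg_right (by linarith) (by positivity)
  nlinarith

/-- square root of the increment of the covariance -/
def im (s1 s2 : ℝ) (A : Matrix (V n) (V n) ℝ) : Matrix (V n) (V n) ℝ :=
  fc (fun a => √(dv s1 s2 a)) A

lemma ti_im (s1 s2 : ℝ) (A : Matrix (V n) (V n) ℝ) : TI (im s1 s2 A) := H864.ti_fc _ _

lemma im_mul (h0 : ∀ k, 0 ≤ sym A k) {s1 s2 : ℝ} (h1 : 0 ≤ s1) (h : s1 ≤ s2) :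
    gm s2 A * (gm s2 A)ᵀ = gm s1 A * (gm s1 A)ᵀ + im s1 s2 A * (im s1 s2 A)ᵀ := by
  have h2 : 0 ≤ s2 := h1.trans h
  rw [(H363.ti_gm s2 A).transpose, (H363.ti_gm s1 A).transpose, (ti_im s1 s2 A).transpose]
  refine H864.sym_inj ((H363.ti_gm s2 A).mul (H363.ti_gm s2 A))
    (((H363.ti_gm s1 A).mul (H363.ti_gm s1 A)).add ((ti_im s1 s2 A).mul (ti_im s1 s2 A)))
    fun k => ?_
  rw [H864.sym_add, H864.sym_mul (H363.ti_gm s2 A) (H363.ti_gm s2 A),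
    H864.sym_mul (H363.ti_gm s1 A) (H363.ti_gm s1 A), H864.sym_mul (ti_im s1 s2 A) (ti_im s1 s2 A)]
  unfold gm im
  rw [H864.sym_fc, H864.sym_fc, H864.sym_fc]
  have hk := h0 k
  have e1 : 0 < 1 + s1 * sym A k := by positivity
  have e2 : 0 < 1 + s2 * sym A k := by positivity
  rw [Real.mul_self_sqrt (by positivity), Real.mul_self_sqrt (by positivity),
    Real.mul_self_sqrt (dv_nonneg h1 h hk), dv]
  ring

lemma im_qf (h0 : ∀ k, 0 ≤ sym A k) {s1 s2 β : ℝ} (h1 : 0 ≤ s1) (h : s1 ≤ s2)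
    (hβ : ∀ k, k ≠ 0 → dv s1 s2 (sym A k) ≤ β) (u : V n → ℝ) (hu : ∑ x, u x = 0) :
    qf (im s1 s2 A * (im s1 s2 A)ᵀ) u ≤ β * ∑ x, u x ^ 2 := by
  rw [(ti_im s1 s2 A).transpose, H864.qf_eq_sum ((ti_im s1 s2 A).mul (ti_im s1 s2 A)),
    ← H864.sum_hsq u]
  rw [mul_left_comm, Finset.mul_sum (a := β)]
  refine mul_le_mul_of_nonneg_left (Finset.sum_le_sum fun k _ => ?_) (by positivity)
  rw [H864.sym_mul (ti_im s1 s2 A) (ti_im s1 s2 A)]
  unfold im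
  rw [H864.sym_fc, Real.mul_self_sqrt (dv_nonneg h1 h (h0 k))]
  by_cases hk : k = 0
  · have hz : H864.hsq u k = 0 := by
      rw [hk, H864.hsq, TM.H764.hatu]
      simp only [H864.dt_zero_left, TM.H764.ch_zero, mul_one]
      rw [← Complex.ofReal_sum, hu]
      simp
    rw [hz, mul_zero, mul_zero]
  · exact mul_le_mul_of_nonneg_right (hβ k hk) (H864.hsq_nonneg u k)

end inc

variable {N l : ℕ} [NeZero N] [NeZero (N / l)] {b t τ τ' : ℝ}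

/-- neutral expectation of the charge, cell mass -/
def omh (N l : ℕ) [NeZero N] (b t τ : ℝ) : ℝ :=
  Ex (nM (wT b N) (MC N l t τ) τ 0) 0 (H963.cq 1 0)

/-- neutral expectation of the charge, scalar mass -/
def omt (N : ℕ) [NeZero N] (b t : ℝ) : ℝ :=
  Ex (nM (wT b N) (t • (1 : Matrix (V N) (V N) ℝ)) t 0) 0 (H963.cq 1 0)

lemma omh_self : omh N l b t t = omt N b t := by
  rw [omh, omt, H864.MC_self]

lemma omt_eq (hb : 0 ≤ b) (ht : 0 < t) :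
    omt N b t = Real.exp (2 * Real.pi ^ 2 / (t * Fintype.card (V N))) *
      om (wT b N) (t • (1 : Matrix (V N) (V N) ℝ)) 1 := by
  have h1 := (gw_wT hb).om_eq (H963.mf_smul ht) (H896.wm_t (N := N) hb ht) 0 1
  rw [h1, ← mul_assoc, eq2, ← Real.exp_add, omt]
  have : 2 * Real.pi ^ 2 / (t * (Fintype.card (V N) : ℝ)) +
      -(2 * Real.pi ^ 2 * ((1 : ℤ) : ℝ) ^ 2 / (t * (Fintype.card (V N) : ℝ))) = 0 := by
    push_cast
    ring
  rw [this, Real.exp_zero, one_mul]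

lemma gauge (hl : l ∣ N) {s : ℝ} {A : Matrix (V (N / l)) (V (N / l)) ℝ} {σ : ℝ}
    (hs : s = σ / (l : ℝ) ^ 2) {G : Matrix (V (N / l)) (V (N / l)) ℝ}
    (h : G * Gᵀ * (1 + s • A) = s • 1) :
    ((l : ℝ) • G) * ((l : ℝ) • G)ᵀ * (1 + σ • (((l : ℝ) ^ 2)⁻¹ • A)) = σ • 1 := by
  have hlp : (0 : ℝ) < l := by exact_mod_cast H864.l_pos hl
  have h1 : σ • (((l : ℝ) ^ 2)⁻¹ • A) = s • A := by
    rw [smul_smul, hs]
    rfl
  rw [h1, transpose_smul, Matrix.smul_mul, Matrix.mul_smul, smul_smul, Matrix.smul_mul, h,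
    smul_smul, hs]
  congr 1
  field_simp

lemma TT_Qn (hb : 0 ≤ b) (hl : l ∣ N) (ht : 0 < t) (F : V (N / l) → ℝ) :
    TT (Zn (wT b N) (t • (1 : Matrix (V N) (V N) ℝ))) (lf N l (Qn (V (N / l)) *ᵥ F)) =
      TT (Zn (wT b N) (t • (1 : Matrix (V N) (V N) ℝ))) (lf N l F) := by
  rw [TT_lf hb hl ht, TT_lf hb hl ht, ← mulVec_smul, Rcl_Qn hl ht le_rfl, Rcl_Qn hl ht le_rfl]

lemma dbl_Qn (hb : 0 ≤ b) (hl : l ∣ N) (ht : 0 < t) (F : V (N / l) → ℝ) (k : ℕ) :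
    dbl (wT b N) (t • (1 : Matrix (V N) (V N) ℝ)) (lf N l (Qn (V (N / l)) *ᵥ F)) k =
      dbl (wT b N) (t • (1 : Matrix (V N) (V N) ℝ)) (lf N l F) k := by
  unfold dbl
  refine Finset.sum_congr rfl fun j _ => ?_
  rw [← H363.lf_smul, ← H363.lf_smul, ← mulVec_smul, ← mulVec_smul, TT_Qn hb hl ht,
    TT_Qn hb hl ht, H363.lf_smul, H363.lf_smul]

/-- **ZB on a torus**, fixed base mass `t` with the small step property -/
theorem zb_tor (hb : 0 ≤ b) (hl : l ∣ N) {τ1 τ2 β c κ a η p1 p2 : ℝ} (ht : 0 < t) (h2 : 0 < τ2)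
    (h21 : τ2 < τ1) (h1 : τ1 < t) (hβ : 0 < β) (hc : 0 ≤ c)
    (hβk : ∀ k, k ≠ 0 → (l : ℝ) ^ 2 * dv (sn l t τ1) (sn l t τ2) (sym (acl N l b t t) k) ≤ β)
    (hη1 : ∫ g, Wcl N l b t t (gm (sn l t τ1) (acl N l b t t) *ᵥ g) ∂(gau (V (N / l))) ≤ 1 + η)
    (hη2 : ∫ g, Wcl N l b t t (gm (sn l t τ2) (acl N l b t t) *ᵥ g) ∂(gau (V (N / l))) ≤ 1 + η)
    (hpos : ∀ r : ℝ, 0 < r → r ≤ t → 0 < om (wT b N) (r • (1 : Matrix (V N) (V N) ℝ)) 1)
    (hd : ∀ δ0 : ℝ, 0 < δ0 → ∃ δ, 0 < δ ∧ δ < δ0 ∧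
      fl (wT b N) t⁻¹ - fl (wT b N) (t⁻¹ + δ) ≤ c * δ)
    (hp1 : (gau (V (N / l))).real {g | 1 / 4 < Rcl N l b t t
      ((2 : ℝ) • (gm (sn l t τ1) (acl N l b t t) *ᵥ g))} ≤ p1)
    {S2 : Set (V (N / l) → ℝ)} (mS2 : MeasurableSet S2)
    (h3 : ∀ g ∈ S2, ∀ k, dbl (wT b N) (t • (1 : Matrix (V N) (V N) ℝ))
      (lf N l (im (sn l t τ1) (sn l t τ2) (acl N l b t t) *ᵥ g)) k ≤ κ)
    (hp2 : (gau (V (N / l))).real S2ᶜ ≤ p2) (hκ0 : 0 ≤ κ) (hκ1 : κ ≤ 1 / 2)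
    (ha : 0 < a) (haE : 16 * c * β + κ ^ 2 / 2 ≤ a ^ 2) :
    |omh N l b t τ2 - omh N l b t τ1| ≤
      omt N b t * (4 * η + 2 * a + 6 * κ + 2 * p1 + 2 * p2) := by
  classical
  have hlp : (0 : ℝ) < l := by exact_mod_cast H864.l_pos hl
  have hτ1 : 0 < τ1 := h2.trans h21
  set A := acl N l b t t with hA
  set s1 := sn l t τ1 with hs1
  set s2 := sn l t τ2 with hs2
  have s1p : 0 < s1 := H363.sn_pos hl hτ1 h1
  have s2p : 0 < s2 := H363.sn_pos hl h2 (h21.trans h1)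
  have s12 : s1 ≤ s2 := by
    rw [hs1, hs2]
    unfold sn
    have : τ1⁻¹ ≤ τ2⁻¹ := inv_anti₀ h2 h21.le
    gcongr
  have tA : TI A := H363.ti_acl hb hl ht le_rfl
  have nA : ∀ k, 0 ≤ sym A k := H363.sym_acl_nonneg hb hl ht le_rfl
  have sA : Aᵀ = A := tA.transpose
  have σ1p : 0 < τ1⁻¹ - t⁻¹ := sub_pos.2 (inv_strictAnti₀ hτ1 h1)
  have σ2p : 0 < τ2⁻¹ - t⁻¹ := sub_pos.2 (inv_strictAnti₀ h2 (h21.trans h1))
  have hs : (0 : ℝ) < t⁻¹ := by positivity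
  have e0 : (t⁻¹)⁻¹ = t := inv_inv t
  set R : Matrix (V N) (V (N / l)) ℝ := (cobV N l)ᵀ with hR
  -- lift of the noises
  have elf : ∀ (G : Matrix (V (N / l)) (V (N / l)) ℝ) (g : V (N / l) → ℝ),
      R *ᵥ Qn (V (N / l)) *ᵥ ((l : ℝ) • G) *ᵥ g = lf N l (Qn (V (N / l)) *ᵥ G *ᵥ g) := by
    intro G g
    rw [H363.lf_eq hl, smul_mulVec, mulVec_smul, mulVec_smul]
  have eRr : ∀ (G : Matrix (V (N / l)) (V (N / l)) ℝ) (g : V (N / l) → ℝ),
      Real.exp (Rr (wT b N) (t⁻¹⁻¹ • (1 : Matrix (V N) (V N) ℝ)) R (((l : ℝ) ^ 2)⁻¹ • A)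
        (Qn (V (N / l)) *ᵥ ((l : ℝ) • G) *ᵥ g)) = Wcl N l b t t (G *ᵥ g) := by
    intro G g
    rw [e0, hR, hA, Rr_eq hb hl ht, Wcl, smul_mulVec, mulVec_smul, smul_smul,
      inv_mul_cancel₀ hlp.ne', one_smul, Rcl_Qn hl ht le_rfl]
  have hQ2 : ∀ (r : ℝ) (F : V (N / l) → ℝ), Rcl N l b t t (r • (Qn (V (N / l)) *ᵥ F)) =
      Rcl N l b t t (r • F) := by
    intro r F
    rw [← mulVec_smul, Rcl_Qn hl ht le_rfl]
  -- the sets
  have mS1 : MeasurableSet {g : V (N / l) → ℝ | Rcl N l b t t ((2 : ℝ) • (gm s1 A *ᵥ g)) ≤ 1 / 4} := by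
    refine measurableSet_le ?_ measurable_const
    have h5 := (H363.continuous_Rcl (b := b) (t := t) hb hl ht le_rfl)
    exact (h5.comp ((continuous_const_smul (2 : ℝ)).comp (continuous_mv _))).measurable
  -- the abstract theorem
  have hG1 := gauge (σ := τ1⁻¹ - t⁻¹) hl (s := s1) rfl (H363.gm_mul0 tA nA s1p.le)
  have hG2 := gauge (σ := τ2⁻¹ - t⁻¹) hl (s := s2) rfl (H363.gm_mul0 tA nA s2p.le)
  have hGH : ((l : ℝ) • gm s2 A) * ((l : ℝ) • gm s2 A)ᵀ = ((l : ℝ) • gm s1 A) *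
      ((l : ℝ) • gm s1 A)ᵀ + ((l : ℝ) • im s1 s2 A) * ((l : ℝ) • im s1 s2 A)ᵀ := by
    simp only [transpose_smul, Matrix.smul_mul, Matrix.mul_smul, smul_smul]
    rw [im_mul nA s1p.le s12, smul_add]
  have hH : ∀ u : V (N / l) → ℝ, ∑ x, u x = 0 →
      qf (((l : ℝ) • im s1 s2 A) * ((l : ℝ) • im s1 s2 A)ᵀ) u ≤ β * ∑ x, u x ^ 2 := by
    intro u hu
    have h5 : ((l : ℝ) • im s1 s2 A) * ((l : ℝ) • im s1 s2 A)ᵀ =
        (l : ℝ) ^ 2 • (im s1 s2 A * (im s1 s2 A)ᵀ) := by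
      simp only [transpose_smul, Matrix.smul_mul, Matrix.mul_smul, smul_smul]
      rw [pow_two]
    rw [h5, H864.qf_smul_mat]
    have h6 := im_qf (β := β / (l : ℝ) ^ 2) nA s1p.le s12 (fun k hk => by
      rw [le_div_iff₀ (by positivity)]
      have := hβk k hk
      linarith) u hu
    have h7 := mul_le_mul_of_nonneg_left h6 (show (0 : ℝ) ≤ (l : ℝ) ^ 2 by positivity)
    refine h7.trans (le_of_eq ?_)
    field_simp
  have hAA : ((((l : ℝ) ^ 2)⁻¹ • A))ᵀ = ((l : ℝ) ^ 2)⁻¹ • A := by rw [transpose_smul, sA]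
  have hA0 : ∀ u, 0 ≤ qf (((l : ℝ) ^ 2)⁻¹ • A) u := by
    intro u
    rw [H864.qf_smul_mat]
    exact mul_nonneg (by positivity) (H363.qf_acl_nonneg hb hl ht le_rfl u)
  have hA1 : (((l : ℝ) ^ 2)⁻¹ • A) *ᵥ 1 = 0 := by
    rw [smul_mulVec]
    have h5 : A *ᵥ (1 : V (N / l) → ℝ) = 0 := by
      have h6 : sym A 0 = 0 := H363.sym_acl_zero hl hb ht le_rfl
      rw [H864.sym_def] at h6
      simp only [H864.dt_zero_left, TM.H764.cN_zero, mul_one] at h6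
      funext x
      simp only [mulVec, dotProduct, Pi.one_apply, mul_one, Pi.zero_apply]
      rw [← h6, ← Equiv.sum_comp (Equiv.subRight x) (fun z => A 0 z)]
      exact Finset.sum_congr rfl fun y _ => tA.eq x y
    rw [h5, smul_zero]
  have key := zb_main (ad_wT (N := N) hb) (lift_cob hl) (s := t⁻¹) (σ1 := τ1⁻¹ - t⁻¹)
    (σ2 := τ2⁻¹ - t⁻¹) (β := β) (c := c) (κ := κ) (a := a) (η := η)
    (A := ((l : ℝ) ^ 2)⁻¹ • A) (G1 := (l : ℝ) • gm s1 A) (G2 := (l : ℝ) • gm s2 A)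
    (H := (l : ℝ) • im s1 s2 A) hs σ1p σ2p hβ hc hAA hA0 hA1 hG1 hG2 hGH hH
    (fun f => by
      rw [e0, ← hR, hA, Rr_eq hb hl ht]
      exact H363.Rcl_nonneg hb hl ht le_rfl _)
    (by rw [← hR]; simp only [eRr]; exact hη1)
    (by rw [← hR]; simp only [eRr]; exact hη2)
    (fun δ hδ => by
      refine hpos _ (by positivity) ?_
      rw [inv_le_comm₀ (by positivity) ht]
      linarith)
    hd mS1 mS2
    (by
      intro g hg
      rw [← hR, elf, e0]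
      refine (TT_lf_le hb hl ht _).trans ?_
      rw [hQ2]
      exact hg)
    (by
      intro g hg
      rw [← hR, elf, e0, TT_Qn hb hl ht]
      have h7 := h3 g hg 1
      unfold dbl at h7
      rw [Finset.sum_range_one, pow_zero, pow_zero, one_mul, one_smul] at h7
      set X := lf N l (im s1 s2 A *ᵥ g) with hX
      have hW := (ad_wT (N := N) hb).wm (t • (1 : Matrix (V N) (V N) ℝ))
        (by rw [transpose_smul, transpose_one]) (coe_smul ht)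
      have n1 := TTn_nonneg hW X
      have n2 := TTn_nonneg hW ((1 / 2 : ℝ) ^ (0 + 1) • X)
      have h8 := (Real.sqrt_le_left hκ0).1 h7
      nlinarith)
    (by
      intro g hg k
      rw [← hR, elf, e0, dbl_Qn hb hl ht]
      exact h3 g hg k)
    hκ0 ha haE
  rw [e0] at key
  -- hat letters
  have o1 : omh N l b t τ1 = _ := Ex_MC_eq (b := b) hb hl hτ1 h1.le 0
  have o2 : omh N l b t τ2 = _ := Ex_MC_eq (b := b) hb hl h2 (h21.trans h1).le 0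
  rw [o1, o2, omt_eq hb ht, ← mul_sub, abs_mul, abs_of_pos (Real.exp_pos _), mul_assoc]
  refine mul_le_mul_of_nonneg_left (key.trans ?_) (Real.exp_pos _).le
  have hW := (ad_wT (N := N) hb).wm (t • (1 : Matrix (V N) (V N) ℝ))
    (by rw [transpose_smul, transpose_one]) (coe_smul ht)
  refine mul_le_mul_of_nonneg_left ?_ (om_nonneg hW 1)
  have c1 : {g : V (N / l) → ℝ | Rcl N l b t t ((2 : ℝ) • (gm s1 A *ᵥ g)) ≤ 1 / 4}ᶜ =
      {g | 1 / 4 < Rcl N l b t t ((2 : ℝ) • (gm s1 A *ᵥ g))} := by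
    ext g
    simp
  rw [c1]
  linarith

end

end Vale.Agent.P159.H316
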