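import Vale.Agent.P159.H316.Zb10
import Vale.Agent.P159.H883.Res

/-!
P159, V list part B (VB9 = ZB), helper316: a priori bound of the quartic cumulant of a cell field.
-/

open MeasureTheory Finset Matrix
open scoped ComplexConjugate
open Vale.Agent.P159.TM.H104 (EM nh li Ex Lg Gr)
open Vale.Agent.P159.H37 (wM ZM qf bf Zn Zq Un Ev gau gau_shift cellP)
open Vale.Agent.P159.H896
open Vale.Agent.P159.TM.Spec (V)
open Vale.Agent.P159.TM.SpecC (Tor wT)
open Vale.Agent.P159.TM.H764 (EE)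
open Vale.Agent.P159.H864 (TI sym MC cl cobV fc)
open Vale.Agent.P159.H963 (Pn nMC nM ntr gw_wT mf_MC eq2 An)
open Vale.Agent.P159.H363 (acl lf Rcl Wcl gm sn)

set_option linter.unusedSectionVars false

namespace Vale.Agent.P159.H316

noncomputable section

section abs

variable {W : Type*} [Fintype W] {μ : (W → ℤ) → ℝ}

lemma Ex_exp (hμ : EM μ) (u : W → ℝ) :
    Ex μ 0 (fun h => Real.exp (li u h)) = Real.exp (Lg μ u - Lg μ 0) := by
  have h1 : TM.H104.T μ 0 (fun h => Real.exp (li u h)) = TM.H104.T μ u fun _ => 1 := by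
    unfold TM.H104.T
    refine tsum_congr fun h => ?_
    have : li (0 : W → ℝ) h = 0 := by simp [li]
    rw [this, Real.exp_zero]
    ring
  unfold TM.H104.Ex
  rw [h1, Real.exp_sub, Lg, Lg, Real.exp_log (TM.H104.T_one_pos hμ u),
    Real.exp_log (TM.H104.T_one_pos hμ 0)]

lemma four_mom (hμ : EM μ) {J : W → ℝ} {v : ℝ} (hv : 0 < v)
    (h : ∀ s : ℝ, Lg μ (s • J) - Lg μ 0 ≤ s ^ 2 * v / 2) :
    Ex μ 0 (fun h => li J h * li J h * li J h * li J h) ≤ 12 * v ^ 2 := by
  set s : ℝ := 2 / √v with hs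
  have hv' : 0 < √v := Real.sqrt_pos.2 hv
  have hs0 : 0 < s := by positivity
  have hs2 : s ^ 2 = 4 / v := by
    rw [hs, div_pow, Real.sq_sqrt hv.le]
    norm_num
  have hl : ∀ (c : ℝ) (h : W → ℤ), li (c • J) h = c * li J h := by
    intro c h
    unfold li
    simp only [Pi.smul_apply, smul_eq_mul, Finset.mul_sum, mul_assoc]
  have hpt : ∀ h : W → ℤ, li J h * li J h * li J h * li J h ≤
      12 / s ^ 4 * Real.exp (li (s • J) h) + 12 / s ^ 4 * Real.exp (li ((-s) • J) h) := by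
    intro h
    have h1 := H883.four_le_cosh (s * li J h)
    have h2 : 24 * (Real.cosh (s * li J h) - 1 - (s * li J h) ^ 2 / 2) ≤
        24 * Real.cosh (s * li J h) := by nlinarith [sq_nonneg (s * li J h)]
    have h3 : Real.cosh (s * li J h) =
        (Real.exp (li (s • J) h) + Real.exp (li ((-s) • J) h)) / 2 := by
      rw [hl, hl, Real.cosh_eq, neg_mul]
    rw [h3] at h2
    have h4 : (s * li J h) ^ 4 = s ^ 4 * (li J h * li J h * li J h * li J h) := by ring
    rw [h4] at h1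
    have h5 : s ^ 4 * (li J h * li J h * li J h * li J h) ≤
        12 * (Real.exp (li (s • J) h) + Real.exp (li ((-s) • J) h)) := by linarith
    have h6 : 0 < s ^ 4 := by positivity
    calc li J h * li J h * li J h * li J h = (s ^ 4)⁻¹ * (s ^ 4 * (li J h * li J h * li J h * li J h)) := by
          field_simp
      _ ≤ (s ^ 4)⁻¹ * (12 * (Real.exp (li (s • J) h) + Real.exp (li ((-s) • J) h))) :=
          mul_le_mul_of_nonneg_left h5 (by positivity)
      _ = _ := by field_simp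
  have g1 : Gr fun h : W → ℤ => li J h * li J h * li J h * li J h :=
    (((Gr.li J).mul (Gr.li J)).mul (Gr.li J)).mul (Gr.li J)
  have g2 : Gr fun h : W → ℤ => 12 / s ^ 4 * Real.exp (li (s • J) h) := (Gr.exp_li _).cmul _
  have g3 : Gr fun h : W → ℤ => 12 / s ^ 4 * Real.exp (li ((-s) • J) h) := (Gr.exp_li _).cmul _
  refine (TM.H104.Ex_mono hμ g1 (g2.add g3) hpt 0).trans ?_
  rw [TM.H104.Ex_add hμ g2 g3, TM.H104.Ex_cmul, TM.H104.Ex_cmul, Ex_exp hμ, Ex_exp hμ]
  have e1 : Real.exp (Lg μ (s • J) - Lg μ 0) ≤ Real.exp 2 := by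
    refine Real.exp_le_exp.2 ((h s).trans (le_of_eq ?_))
    rw [hs2]
    field_simp
    norm_num
  have e2 : Real.exp (Lg μ ((-s) • J) - Lg μ 0) ≤ Real.exp 2 := by
    refine Real.exp_le_exp.2 ((h (-s)).trans (le_of_eq ?_))
    rw [neg_sq, hs2]
    field_simp
    norm_num
  have e3 : Real.exp 2 ≤ 8 := by
    have h1 : Real.exp 2 = Real.exp 1 ^ 2 := by rw [← Real.exp_nat_mul]; norm_num
    rw [h1]
    have h2 := Real.exp_one_lt_d9
    have h3 := Real.exp_pos 1
    nlinarith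
  have e4 : s ^ 4 = 16 / v ^ 2 := by
    have : s ^ 4 = (s ^ 2) ^ 2 := by ring
    rw [this, hs2, div_pow]
    norm_num
  have e5 : 12 / s ^ 4 = 3 / 4 * v ^ 2 := by
    rw [e4]
    field_simp
    norm_num
  rw [e5]
  have h6 : 0 ≤ 3 / 4 * v ^ 2 := by positivity
  nlinarith

lemma K4_le_four (hμ : EM μ) (J : W → ℝ) :
    H37.K4 μ J J J J ≤ Ex μ 0 (fun h => li J h * li J h * li J h * li J h) := by
  unfold H37.K4
  have h1 : 0 ≤ Ex μ 0 (fun h => li J h * li J h) :=
    TM.H104.Ex_nonneg hμ (fun h => mul_self_nonneg _) 0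
  nlinarith [mul_nonneg h1 h1]

end abs

variable {N l : ℕ} [NeZero N] [NeZero (N / l)] {b t τ τ' : ℝ}

/-- the Laplace transform of the neutral model is at most the mass form -/
lemma Lg_src_le (hb : 0 ≤ b) (hl : l ∣ N) (ht : 0 < t) (F : V N → ℝ) :
    Lg (nMC N l b t t 0) (ntr (MC N l t t) t *ᵥ F) - Lg (nMC N l b t t 0) 0 ≤
      t * (∑ x, F x ^ 2) / 2 := by
  have hmf : H963.MF (MC N l t t) t := mf_MC hl ht le_rfl
  have h1 := (gw_wT (N := N) hb).Un_eq hmf 0 F
  have hZ0 := (gw_wT (N := N) hb).Zn_pos hmf (0 : V N → ℝ)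
  have hZ := (gw_wT (N := N) hb).Zn_pos hmf F
  have hle := (ad_wT (N := N) hb).Zn_le hmf.symm hmf.coer F
  have h2 : 0 ≤ Un (wT b N) (MC N l t t) F := by
    unfold Un
    rw [neg_nonneg]
    refine Real.log_nonpos (div_pos hZ hZ0).le ?_
    rwa [div_le_one hZ0]
  rw [H963.qf_An hmf.symm] at h1
  unfold H37.Rs at h1
  have h3 : qf (ntr (MC N l t t) t) F ≤ t * ∑ x, F x ^ 2 := by
    have h4 := H963.qf_ntr (MC N l t t) t F
    have h5 : qf (MC N l t t) F = t * ∑ x, F x ^ 2 := by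
      rw [H864.MC_self, H37.qf_smul_one]
    have h6 : 0 ≤ t / (Fintype.card (V N) : ℝ) * (∑ x, F x) ^ 2 := by positivity
    linarith
  have e1 : nMC N l b t t 0 = nM (wT b N) (MC N l t t) t 0 := rfl
  rw [e1]
  have e2 : qf (H37.Gm (nM (wT b N) (MC N l t t) t 0)) (ntr (MC N l t t) t *ᵥ F) =
      qf (H37.Gm (H963.pin (wM (wT b N) (ntr (MC N l t t) t)) 0)) (ntr (MC N l t t) t *ᵥ F) := rfl
  rw [e2] at h1
  linarith

/-- **a priori bound of the quartic cumulant** -/
theorem K4c_le (hb : 0 ≤ b) (hl : l ∣ N) (ht : 0 < t) (F : V (N / l) → ℝ) :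
    K4c N l b t t F ≤ 12 * (t * (l : ℝ) ^ 2 * ∑ c, F c ^ 2) ^ 2 := by
  have hE := (gw_wT (N := N) hb).em_nM (mf_MC hl ht le_rfl) 0
  have hlp : (0 : ℝ) < l := by exact_mod_cast H864.l_pos hl
  have hsum : ∑ x, (lf N l F) x ^ 2 = (l : ℝ) ^ 2 * ∑ c, F c ^ 2 := by
    rw [H363.lf_eq hl]
    have h1 := H864.sq_cobV_tr hl F
    simp only [Pi.smul_apply, smul_eq_mul, mul_pow]
    rw [← Finset.mul_sum, h1]
  set v : ℝ := t * (l : ℝ) ^ 2 * ∑ c, F c ^ 2 with hv
  have hv0 : 0 ≤ v := by positivity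
  set J : V N → ℝ := ntr (MC N l t t) t *ᵥ lf N l F with hJ
  rcases hv0.eq_or_lt with h0 | h0
  · -- zero field
    have h1 : ∑ c, F c ^ 2 = 0 := by
      rcases mul_eq_zero.1 h0.symm with h2 | h2
      · exact absurd h2 (by positivity)
      · exact h2
    have h2 : F = 0 := by
      funext c
      have := (Finset.sum_eq_zero_iff_of_nonneg fun i _ => sq_nonneg (F i)).1 h1 c
        (Finset.mem_univ c)
      simpa using this
    have h3 : K4c N l b t t F = 0 := by
      have h4 := K4_smul (nMC N l b t t 0) 0 (ntr (MC N l t t) t *ᵥ lf N l F)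
      have h5 : lf N l F = (0 : ℝ) • lf N l F := by
        rw [zero_smul, h2]
        rfl
      unfold K4c
      rw [h5, mulVec_smul, h4]
      ring
    rw [h3]
    positivity
  · refine (K4_le_four hE J).trans (four_mom hE h0 fun s => ?_)
    have h1 := Lg_src_le (b := b) hb hl ht (s • lf N l F)
    rw [mulVec_smul] at h1
    refine h1.trans (le_of_eq ?_)
    simp only [Pi.smul_apply, smul_eq_mul, mul_pow]
    rw [← Finset.mul_sum, hsum, hv]
    ring

end

end Vale.Agent.P159.H316
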