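import Vale.Agent.P159.H896.Chm
import Vale.Agent.P159.H316.Zb1

/-!
P159, V list part B (VB9 = ZB), helper316: the charged Gram kernel of the model, small Gaussian
steps, and the integrated bound of the charged distance.
-/

open MeasureTheory Finset Matrix
open scoped ComplexConjugate
open Vale.Agent.P159.TM.H104 (EM nh li)
open Vale.Agent.P159.H37 (wM ZM qf bf Zn Zq Un Ev gau gau_shift)
open Vale.Agent.P159.H896

set_option linter.unusedSectionVars false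

namespace Vale.Agent.P159.H316

noncomputable section

variable {V : Type} [Fintype V] {w : (V → ℤ) → ℝ} {M M' : Matrix V V ℝ}

lemma Aw_eq (h : WM w M) (q : ℤ) : Aw w M q 0 = om w M q * Zn w M 0 := by
  rw [om, div_mul_cancel₀ _ (Zn_pos h 0).ne']

lemma Ph_eq (h : WM w M) (q : ℤ) (F : V → ℝ) : Zq w M q F = Ph w M q F * (Zn w M F : ℂ) := by
  unfold Ph
  rw [div_mul_cancel₀]
  exact_mod_cast (Zn_pos h _).ne'

/-- **the charged Gram kernel of the model** -/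
theorem cgram (h : WM w M) (ho : 0 < om w M 1) :
    ∃ (H : Type) (_ : NormedAddCommGroup H) (_ : InnerProductSpace ℂ H) (_ : CompleteSpace H)
      (v u : (V → ℝ) → H), CGram (Zn w M) (Zq w M 1) (Aw w M 1 0) v u := by
  obtain ⟨H, i1, i2, i3, Φ, hΦ⟩ := feat_ZMc h
  have e1 : ∀ a c : V → ℝ, cr a + cr c = cr (a + c) := fun a c => by
    funext x; simp [cr]
  have e2 : ∀ a c : V → ℝ, cr a - cr c = cr (a - c) := fun a c => by
    funext x; simp [cr]
  have h0 : ∀ a : V → ℝ, Sec (ZMc w M) 0 (cr a) = (Zn w M a : ℂ) := fun a => by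
    rw [← Zq_eq, Zq_zero_eq]
  refine ⟨H, i1, i2, i3, fun a => fS Φ (-1) (cr a), fun a => fS Φ 0 (cr a), ⟨Zn_pos h, ?_,
    Zq_zero h 1, Zn_neg h, ?_, ?_, ?_⟩⟩
  · rw [Aw_eq h]
    exact mul_pos ho (Zn_pos h 0)
  · intro a
    rw [Zq_neg h, Zq_conj h]
  · intro a c
    have h1 := inner_fS hΦ (zp_ZMc h) 0 1 (cr a) (cr c)
    rw [star_cr, e1, e2, h0] at h1
    rw [Zq_eq]
    simpa using h1
  · intro a c
    have h1 := inner_fS hΦ (zp_ZMc h) 0 0 (cr a) (cr c)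
    rw [star_cr, e1, e2, h0, h0] at h1
    simpa using h1

/-- `phi` is the normalised charge functional divided by the activity -/
lemma phi_Ph (h : WM w M) (ho : 0 < om w M 1) (a : V → ℝ) :
    phi (Zn w M) (Zq w M 1) (Aw w M 1 0) a = Ph w M 1 a / (om w M 1 : ℂ) := by
  rw [phi, Aw_eq h, Ph]
  have h1 : (Zn w M 0 : ℂ) ≠ 0 := by exact_mod_cast (Zn_pos h 0).ne'
  have h2 : (Zn w M a : ℂ) ≠ 0 := by exact_mod_cast (Zn_pos h a).ne'
  have h3 : (om w M 1 : ℂ) ≠ 0 := by exact_mod_cast ho.ne'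
  push_cast
  field_simp

/-- the sum of the neutral corrections in the doubling lemma -/
def dbl (w : (V → ℤ) → ℝ) (M : Matrix V V ℝ) (p : V → ℝ) (k : ℕ) : ℝ :=
  ∑ j ∈ Finset.range k, 2 ^ j * Real.sqrt (3 * TT (Zn w M) (((1 / 2 : ℝ) ^ (j + 1)) • p) +
    2 * TT (Zn w M) (((1 / 2 : ℝ) ^ j) • p))

lemma TTn_nonneg (h : WM w M) (a : V → ℝ) : 0 ≤ TT (Zn w M) a := by
  have h1 := Zn_par h a a
  rw [sub_self] at h1
  have h2 := Zn_pos h a
  have h3 := Zn_pos h 0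
  have h4 := Zn_pos h (a + a)
  have h5 := Real.log_le_log (by positivity) h1
  rw [Real.log_pow, Real.log_mul h2.ne' h2.ne', Real.log_mul (by positivity) (by positivity),
    Real.log_mul h4.ne' h3.ne', Real.log_pow] at h5
  rw [TT, two_smul]
  push_cast at h5
  linarith

lemma dbl_term_nonneg (w : (V → ℤ) → ℝ) (M : Matrix V V ℝ) (p : V → ℝ) (j : ℕ) :
    0 ≤ 2 ^ j * Real.sqrt (3 * TT (Zn w M) (((1 / 2 : ℝ) ^ (j + 1)) • p) +
    2 * TT (Zn w M) (((1 / 2 : ℝ) ^ j) • p)) := by positivity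

/-- pointwise bound of the difference of the charged functional at `x + p` and `x` in terms of a
small multiple of `p` -/
theorem Ph_diff_small (h : WM w M) (ho : 0 < om w M 1) {x p : V → ℝ} {κ : ℝ}
    (hx : TT (Zn w M) x ≤ 1 / 4) (hp : TT (Zn w M) p ≤ 1 / 4)
    (hκ : ∀ k, dbl w M p k ≤ κ) (k : ℕ) :
    ‖Ph w M 1 (x + p) - Ph w M 1 x‖ ≤ om w M 1 *
      (2 * Real.sqrt (4 ^ k * (2 * (1 - (Ph w M 1 (((1 / 2 : ℝ) ^ k) • p)).re / om w M 1)) +
        κ ^ 2 / 2) + 6 * κ) := by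
  obtain ⟨H, i1, i2, i3, v, u, hG⟩ := cgram h ho
  have hκ0 : 0 ≤ κ := (by simpa [dbl] using hκ 0)
  have h1 := hG.phi_diff hx hp
  rw [phi_Ph h ho, phi_Ph h ho, ← sub_div, norm_div, Complex.norm_real, Real.norm_eq_abs,
    abs_of_pos ho, div_le_iff₀ ho] at h1
  have hre : ∀ a, (phi (Zn w M) (Zq w M 1) (Aw w M 1 0) a).re = (Ph w M 1 a).re / om w M 1 := by
    intro a
    rw [phi_Ph h ho, Complex.div_ofReal_re]
  -- each term of the series is at most `κ`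
  have hterm : ∀ j : ℕ, 2 ^ j * Real.sqrt (2 * TT (Zn w M) (((1 / 2 : ℝ) ^ j) • p)) ≤ κ := by
    intro j
    refine le_trans ?_ (hκ (j + 1))
    unfold dbl
    rw [Finset.sum_range_succ]
    have h2 : 0 ≤ ∑ i ∈ Finset.range j, 2 ^ i * Real.sqrt
        (3 * TT (Zn w M) (((1 / 2 : ℝ) ^ (i + 1)) • p) + 2 * TT (Zn w M) (((1 / 2 : ℝ) ^ i) • p)) :=
      Finset.sum_nonneg fun i _ => dbl_term_nonneg w M p i
    have h3 : Real.sqrt (2 * TT (Zn w M) (((1 / 2 : ℝ) ^ j) • p)) ≤ Real.sqrt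
        (3 * TT (Zn w M) (((1 / 2 : ℝ) ^ (j + 1)) • p) + 2 * TT (Zn w M) (((1 / 2 : ℝ) ^ j) • p)) := by
      apply Real.sqrt_le_sqrt
      have := TTn_nonneg h (((1 / 2 : ℝ) ^ (j + 1)) • p)
      linarith
    have h4 := mul_le_mul_of_nonneg_left h3 (show (0 : ℝ) ≤ 2 ^ j by positivity)
    linarith
  have hT0 : Real.sqrt (TT (Zn w M) p) ≤ κ := by
    refine le_trans ?_ (hterm 0)
    rw [pow_zero, pow_zero, one_smul, one_mul]
    apply Real.sqrt_le_sqrt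
    have := TTn_nonneg h p
    linarith
  have hTk : 4 ^ k * TT (Zn w M) (((1 / 2 : ℝ) ^ k) • p) ≤ κ ^ 2 / 2 := by
    have h2 := hterm k
    have h3 := TTn_nonneg h (((1 / 2 : ℝ) ^ k) • p)
    have h4 : (2 ^ k * Real.sqrt (2 * TT (Zn w M) (((1 / 2 : ℝ) ^ k) • p))) ^ 2 ≤ κ ^ 2 :=
      pow_le_pow_left₀ (by positivity) h2 2
    rw [mul_pow, Real.sq_sqrt (by positivity), ← pow_mul, mul_comm k 2, pow_mul] at h4
    norm_num at h4
    linarith
  have h5 := hG.del_iter p k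
  have h6 : 2 ^ k * CGram.del v (((1 / 2 : ℝ) ^ k) • p) ≤ Real.sqrt (4 ^ k *
      (2 * (1 - (Ph w M 1 (((1 / 2 : ℝ) ^ k) • p)).re / om w M 1)) + κ ^ 2 / 2) := by
    apply Real.le_sqrt_of_sq_le
    have h7 := hG.del_sq_le (((1 / 2 : ℝ) ^ k) • p)
    rw [hre] at h7
    rw [mul_pow, ← pow_mul, mul_comm k 2, pow_mul]
    norm_num
    have h8 := mul_le_mul_of_nonneg_left h7 (show (0 : ℝ) ≤ 4 ^ k by positivity)
    linarith
  have h7 : CGram.del v p ≤ Real.sqrt (4 ^ k *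
      (2 * (1 - (Ph w M 1 (((1 / 2 : ℝ) ^ k) • p)).re / om w M 1)) + κ ^ 2 / 2) + κ :=
    h5.trans (add_le_add h6 (hκ k))
  calc _ ≤ (2 * CGram.del v p + 4 * Real.sqrt (TT (Zn w M) p)) * om w M 1 := h1
    _ ≤ (2 * (Real.sqrt (4 ^ k *
      (2 * (1 - (Ph w M 1 (((1 / 2 : ℝ) ^ k) • p)).re / om w M 1)) + κ ^ 2 / 2) + κ) + 4 * κ)
        * om w M 1 := by
        refine mul_le_mul_of_nonneg_right ?_ ho.le
        linarith
    _ = _ := by ring

end

end Vale.Agent.P159.H316
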