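import Vale.Agent.P159.H316.Zb2
import Vale.Agent.P159.H363.Gain
import Vale.Agent.P159.H963.NeuD

/-!
P159, V list part B (VB9 = ZB), helper316: existence of channels, small Gaussian steps.
-/

open MeasureTheory Finset Matrix
open scoped ComplexConjugate
open Vale.Agent.P159.TM.H104 (EM nh li)
open Vale.Agent.P159.H37 (wM ZM qf bf Zn Zq Un Ev gau gau_shift)
open Vale.Agent.P159.H896

set_option linter.unusedSectionVars false

namespace Vale.Agent.P159.H316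

noncomputable section

variable {V : Type} [Fintype V] {I J : Type} [Fintype I] [Fintype J] {w : (V → ℤ) → ℝ}
  {M M' : Matrix V V ℝ}

/-- coercive mass forms -/
def Coe (M : Matrix V V ℝ) : Prop := ∃ m0 : ℝ, 0 < m0 ∧ ∀ u : V → ℝ, m0 * ∑ x, u x ^ 2 ≤ qf M u

/-- weights for which every symmetric coercive mass form is admissible -/
structure Ad (w : (V → ℤ) → ℝ) : Prop where
  nn : ∀ h, 0 ≤ w h
  bdd : ∃ Wb : ℝ, ∀ h, w h ≤ Wb
  wm : ∀ M : Matrix V V ℝ, Mᵀ = M → Coe M → WM w M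

lemma Coe.nonneg (h : Coe M) (u : V → ℝ) : 0 ≤ qf M u := by
  obtain ⟨m0, h0, h1⟩ := h
  exact le_trans (mul_nonneg h0.le (Finset.sum_nonneg fun x _ => sq_nonneg _)) (h1 u)

/-! ### continuity -/

theorem continuous_Zq (h : WM w M) (q : ℤ) : Continuous (Zq w M q) := by
  unfold Zq
  refine intervalIntegral.continuous_parametric_intervalIntegral_of_continuous' ?_ 0 1
  have h1 := continuous_ZM h
  have h2 : Continuous fun p : (V → ℝ) × ℝ => ZM w M (fun x => p.1 x + p.2) :=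
    h1.comp (continuous_pi fun x => by fun_prop)
  exact (Complex.continuous_ofReal.comp h2).mul (by fun_prop)

theorem continuous_Zn (h : WM w M) : Continuous (Zn w M) := by
  have h1 : (Zn w M : (V → ℝ) → ℝ) = fun F => (Zq w M 0 F).re := by
    funext F
    rw [Zq_zero_eq, Complex.ofReal_re]
  rw [h1]
  exact Complex.continuous_re.comp (continuous_Zq h 0)

theorem continuous_Ph (h : WM w M) (q : ℤ) : Continuous (Ph w M q) := by
  unfold Ph
  refine (continuous_Zq h q).div (Complex.continuous_ofReal.comp (continuous_Zn h)) fun F => ?_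
  exact_mod_cast (Zn_pos h F).ne'

/-! ### domination -/

theorem Ad.Zn_le (hw : Ad w) (hM : Mᵀ = M) (hc : Coe M) (F : V → ℝ) : Zn w M F ≤ Zn w M 0 := by
  classical
  have hW := hw.wm M hM hc
  obtain ⟨K, hK0, hK⟩ := H963.Zn_bdd hw.nn hw.bdd hc
  have hZ0 := Zn_pos hW 0
  have h0 : 0 ≤ -Real.log (Zn w M F / Zn w M 0) := by
    refine H963.dbl (φ := fun F => -Real.log (Zn w M F / Zn w M 0))
      (K := Real.log (K / Zn w M 0)) (fun F => ?_) (fun F => ?_) F
    · have h1 := TTn_nonneg hW F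
      rw [TT] at h1
      rw [Real.log_div (Zn_pos hW _).ne' hZ0.ne', Real.log_div (Zn_pos hW _).ne' hZ0.ne']
      linarith
    · rw [neg_le_neg_iff]
      refine Real.log_le_log (div_pos (Zn_pos hW F) hZ0) ?_
      exact div_le_div_of_nonneg_right (hK F) hZ0.le
  have h3 := (Real.log_nonpos_iff (div_pos (Zn_pos hW F) hZ0).le).1 (by linarith)
  rwa [div_le_one hZ0] at h3

/-! ### channels -/

lemma qf_one_add_gram [DecidableEq I] (M : Matrix V V ℝ) (B : Matrix V I ℝ) (v : I → ℝ) :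
    v ⬝ᵥ ((1 + Bᵀ * M * B) *ᵥ v) = v ⬝ᵥ v + qf M (B *ᵥ v) := by
  rw [add_mulVec, one_mulVec, dotProduct_add, H37.qf_eq]
  congr 1
  rw [← mulVec_mulVec, ← mulVec_mulVec, dotProduct_mulVec, vecMul_transpose]

/-- the channel exists for every noise matrix -/
theorem chn_exists (hM : Mᵀ = M) (hn : ∀ u : V → ℝ, 0 ≤ qf M u) (B : Matrix V I ℝ) :
    ∃ (M' : Matrix V V ℝ) (K : Matrix I V ℝ), Chn M M' B K := by
  classical
  have hdet : IsUnit (1 + Bᵀ * M * B).det := by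
    rw [isUnit_iff_ne_zero]
    intro h0
    obtain ⟨v, hv, hv0⟩ := Matrix.exists_mulVec_eq_zero_iff.2 h0
    have h1 := qf_one_add_gram M B v
    rw [hv0, dotProduct_zero] at h1
    have h2 := hn (B *ᵥ v)
    have h3 : v ⬝ᵥ v = 0 := by
      have : 0 ≤ v ⬝ᵥ v := by
        simp only [dotProduct]
        exact Finset.sum_nonneg fun i _ => mul_self_nonneg _
      linarith
    exact hv (dotProduct_self_eq_zero.1 h3)
  refine ⟨M - M * B * ((1 + Bᵀ * M * B)⁻¹ * (Bᵀ * M)), (1 + Bᵀ * M * B)⁻¹ * (Bᵀ * M),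
    hM, hn, ?_, rfl⟩
  have h1 : (1 + Bᵀ * M * B) * ((1 + Bᵀ * M * B)⁻¹ * (Bᵀ * M)) = Bᵀ * M := by
    rw [← Matrix.mul_assoc, Matrix.mul_nonsing_inv _ hdet, Matrix.one_mul]
  calc _ = (1 + Bᵀ * M * B) * ((1 + Bᵀ * M * B)⁻¹ * (Bᵀ * M)) := by
        rw [Matrix.add_mul, Matrix.one_mul]
    _ = _ := h1

lemma sum_sq_mulVec_le (B : Matrix V I ℝ) (v : I → ℝ) :
    ∑ x, (B *ᵥ v) x ^ 2 ≤ (∑ x, ∑ i, B x i ^ 2) * ∑ i, v i ^ 2 := by
  rw [Finset.sum_mul]
  refine Finset.sum_le_sum fun x _ => ?_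
  simp only [mulVec, dotProduct]
  exact Finset.sum_mul_sq_le_sq_mul_sq univ (fun i => B x i) v

/-- the form after the channel, as a minimum -/
lemma Chn.qf_eq {B : Matrix V I ℝ} {K : Matrix I V ℝ} (h : Chn M M' B K) (u : V → ℝ) :
    qf M' u = qf M (u - B *ᵥ (K *ᵥ u)) + ∑ i, (K *ᵥ u) i ^ 2 := by
  set v : I → ℝ := K *ᵥ u with hv
  have hkey : v + Bᵀ *ᵥ (M *ᵥ (B *ᵥ v)) = Bᵀ *ᵥ (M *ᵥ u) := by
    have := congrArg (fun X : Matrix I V ℝ => X *ᵥ u) h.eq1
    simp only [add_mulVec, ← mulVec_mulVec] at this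
    exact this
  have h3 : ∀ (g : I → ℝ) (z : V → ℝ), bf M (B *ᵥ g) z = g ⬝ᵥ (Bᵀ *ᵥ (M *ᵥ z)) := by
    intro g z
    rw [H37.bf_eq, dotProduct_mulVec g, vecMul_transpose]
  have e2 : qf M' u = qf M u - bf M (B *ᵥ v) u := by
    rw [h.eq2]
    have h4 : qf (M - M * B * K) u = qf M u - u ⬝ᵥ (M * B * K) *ᵥ u := by
      rw [H37.qf_eq, H37.qf_eq, sub_mulVec, dotProduct_sub]
    rw [h4, ← mulVec_mulVec, ← mulVec_mulVec, ← hv, H37.bf_comm h.sym, H37.bf_eq]
  have e4 : bf M (B *ᵥ v) u = v ⬝ᵥ v + qf M (B *ᵥ v) := by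
    rw [h3, ← hkey, dotProduct_add, ← h3, H37.bf_self]
  have e5 : v ⬝ᵥ v = ∑ i, v i ^ 2 := by
    simp only [dotProduct, pow_two]
  rw [e2, H37.qf_sub_vec h.sym, H37.bf_comm h.sym u, ← e5, e4]
  ring

/-- coercivity survives -/
theorem Chn.coe {B : Matrix V I ℝ} {K : Matrix I V ℝ} (h : Chn M M' B K) (hc : Coe M) : Coe M' := by
  obtain ⟨m0, h0, hm⟩ := hc
  set C : ℝ := (∑ x, ∑ i, B x i ^ 2) + 1 with hC
  have hC0 : 0 < C := by
    have : 0 ≤ ∑ x, ∑ i, B x i ^ 2 :=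
      Finset.sum_nonneg fun x _ => Finset.sum_nonneg fun i _ => sq_nonneg _
    linarith
  refine ⟨1 / (2 / m0 + 2 * C), by positivity, fun u => ?_⟩
  rw [div_mul_eq_mul_div, one_mul, div_le_iff₀ (by positivity)]
  rw [Chn.qf_eq h u]
  set v := K *ᵥ u with hv
  have h1 := hm (u - B *ᵥ v)
  have h2 := sum_sq_mulVec_le B v
  have hv0 : 0 ≤ ∑ i, v i ^ 2 := Finset.sum_nonneg fun i _ => sq_nonneg _
  have h3 : ∑ x, u x ^ 2 ≤ 2 * ∑ x, (u - B *ᵥ v) x ^ 2 + 2 * ∑ x, (B *ᵥ v) x ^ 2 := by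
    rw [Finset.mul_sum, Finset.mul_sum, ← Finset.sum_add_distrib]
    refine Finset.sum_le_sum fun x _ => ?_
    simp only [Pi.sub_apply]
    nlinarith [sq_nonneg (u x - (B *ᵥ v) x - (B *ᵥ v) x)]
  have h4 : ∑ x, (u - B *ᵥ v) x ^ 2 ≤ qf M (u - B *ᵥ v) / m0 := by
    rw [le_div_iff₀ h0]
    linarith
  have h5 : ∑ x, (B *ᵥ v) x ^ 2 ≤ C * ∑ i, v i ^ 2 := by
    refine h2.trans ?_
    rw [hC]
    nlinarith
  have hq : 0 ≤ qf M (u - B *ᵥ v) := by
    have : 0 ≤ ∑ x, (u - B *ᵥ v) x ^ 2 := Finset.sum_nonneg fun x _ => sq_nonneg _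
    nlinarith
  calc ∑ x, u x ^ 2 ≤ 2 * (qf M (u - B *ᵥ v) / m0) + 2 * (C * ∑ i, v i ^ 2) := by linarith
    _ = 2 / m0 * qf M (u - B *ᵥ v) + 2 * C * ∑ i, v i ^ 2 := by ring
    _ ≤ (qf M (u - B *ᵥ v) + ∑ i, v i ^ 2) * (2 / m0 + 2 * C) := by
        have a1 : 0 ≤ 2 / m0 * ∑ i, v i ^ 2 := by positivity
        have a2 : 0 ≤ 2 * C * qf M (u - B *ᵥ v) := by positivity
        linarith

/-! ### small steps -/

lemma stronglyMeasurable_Zq (h : WM w M) (q : ℤ) : StronglyMeasurable (Zq w M q) :=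
  (continuous_Zq h q).stronglyMeasurable

lemma integrable_Zn_comp (hw : Ad w) (hM : Mᵀ = M) (hc : Coe M) (B : Matrix V I ℝ) (f : V → ℝ) :
    Integrable (fun g => Zn w M (f + B *ᵥ g)) (gau I) := by
  have hW := hw.wm M hM hc
  refine Integrable.of_bound (C := Zn w M 0)
    ((continuous_Zn hW).comp (continuous_chn f)).aestronglyMeasurable
    (Filter.Eventually.of_forall fun g => ?_)
  rw [Real.norm_eq_abs, abs_of_pos (Zn_pos hW _)]
  exact hw.Zn_le hM hc _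

lemma integrable_Zq_comp (hw : Ad w) (hM : Mᵀ = M) (hc : Coe M) (q : ℤ) (B : Matrix V I ℝ)
    (f : V → ℝ) : Integrable (fun g => Zq w M q (f + B *ᵥ g)) (gau I) := by
  have hW := hw.wm M hM hc
  refine Integrable.of_bound (C := Zn w M 0)
    ((continuous_Zq hW q).comp (continuous_chn f)).aestronglyMeasurable
    (Filter.Eventually.of_forall fun g => ?_)
  exact (norm_Zq_le hW q _).trans (hw.Zn_le hM hc _)

/-- the activity after a channel -/
lemma om_chn {B : Matrix V I ℝ} {K : Matrix I V ℝ} (h : Chn M M' B K) (hW' : WM w M') (q : ℤ) :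
    (∫ g, Zq w M q (B *ᵥ g) ∂(gau I)) =
      ((om w M' q * ∫ g, Zn w M (B *ᵥ g) ∂(gau I) : ℝ) : ℂ) := by
  have h1 := chn_Zq h hW' q 0
  have h2 := chn_Zn h hW' 0
  simp only [zero_add] at h1 h2
  rw [h1, h2, Zq_zero hW', Aw_eq hW']
  push_cast
  ring

/-- the activity after a composite channel is at most the one after the first half -/
theorem om_comp_le (hw : Ad w) (hM : Mᵀ = M) (hc : Coe M) {B1 : Matrix V I ℝ} {B2 : Matrix V J ℝ}
    {I' : Type} [Fintype I'] {B : Matrix V I' ℝ} {K : Matrix I' V ℝ} {K1 : Matrix I V ℝ}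
    {Md : Matrix V V ℝ} (hB : B * Bᵀ = B1 * B1ᵀ + B2 * B2ᵀ) (h : Chn M Md B K)
    (h1 : Chn M M' B1 K1) : om w Md 1 ≤ om w M' 1 := by
  classical
  have hW := hw.wm M hM hc
  have hcd : Coe Md := Chn.coe h hc
  have hWd := hw.wm Md h.sym' hcd
  have hc' : Coe M' := Chn.coe h1 hc
  have hW' := hw.wm M' h1.sym' hc'
  have hlaw : B * Bᵀ = fromCols B1 B2 * (fromCols B1 B2)ᵀ := by
    rw [hB, transpose_fromCols, fromCols_mul_fromRows]
  -- the two integrals over the composite noise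
  have hval : ∀ (g : I → ℝ) (g' : J → ℝ), fromCols B1 B2 *ᵥ Sum.elim g g' = B2 *ᵥ g' + B1 *ᵥ g := by
    intro g g'
    rw [fromCols_mulVec]
    simp only [Function.comp_def, Sum.elim_inl, Sum.elim_inr]
    rw [add_comm]
  have hq : ∫ g, Zq w M 1 (B *ᵥ g) ∂(gau I') = ∫ g' : J → ℝ, ∫ g : I → ℝ,
      Zq w M 1 (B2 *ᵥ g' + B1 *ᵥ g) ∂(gau I) ∂(gau J) := by
    have hlaw' : B * Bᵀ = fromCols B2 B1 * (fromCols B2 B1)ᵀ := by
      rw [hB, transpose_fromCols, fromCols_mul_fromRows, add_comm]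
    rw [H363.law_integral_eq B (fromCols B2 B1) hlaw' _ (stronglyMeasurable_Zq hW 1),
      H363.integral_gau_sum _ (by
        have := integrable_Zq_comp hw hM hc 1 (fromCols B2 B1) 0
        simpa using this)]
    refine integral_congr_ae (Filter.Eventually.of_forall fun g' => ?_)
    refine integral_congr_ae (Filter.Eventually.of_forall fun g => ?_)
    simp only
    rw [fromCols_mulVec]
    simp only [Function.comp_def, Sum.elim_inl, Sum.elim_inr]
  have hn : ∫ g, Zn w M (B *ᵥ g) ∂(gau I') = ∫ g' : J → ℝ, ∫ g : I → ℝ,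
      Zn w M (B2 *ᵥ g' + B1 *ᵥ g) ∂(gau I) ∂(gau J) := by
    have hlaw' : B * Bᵀ = fromCols B2 B1 * (fromCols B2 B1)ᵀ := by
      rw [hB, transpose_fromCols, fromCols_mul_fromRows, add_comm]
    rw [H363.law_integral_eq B (fromCols B2 B1) hlaw' _ (continuous_Zn hW).stronglyMeasurable,
      H363.integral_gau_sum _ (by
        have := integrable_Zn_comp hw hM hc (fromCols B2 B1) 0
        simpa using this)]
    refine integral_congr_ae (Filter.Eventually.of_forall fun g' => ?_)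
    refine integral_congr_ae (Filter.Eventually.of_forall fun g => ?_)
    simp only
    rw [fromCols_mulVec]
    simp only [Function.comp_def, Sum.elim_inl, Sum.elim_inr]
  simp only [chn_Zq h1 hW' 1, chn_Zn h1 hW'] at hq hn
  have hcN := cN_pos (B := B1) h1.nn
  have hmain := om_chn h hWd 1
  -- positivity of the denominator
  have hDpos : 0 < ∫ g, Zn w M (B *ᵥ g) ∂(gau I') := by
    have h2 := chn_Zn h hWd 0
    simp only [zero_add] at h2
    rw [h2]
    exact mul_pos (cN_pos h.nn) (Zn_pos hWd 0)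
  have hb : ‖∫ g, Zq w M 1 (B *ᵥ g) ∂(gau I')‖ ≤ om w M' 1 * ∫ g, Zn w M (B *ᵥ g) ∂(gau I') := by
    rw [hq, hn, ← integral_const_mul (om w M' 1)]
    refine norm_integral_le_of_norm_le ?_ (Filter.Eventually.of_forall fun g' => ?_)
    · have := integrable_Zn_comp hw h1.sym' hc' B2 0
      simp only [zero_add] at this
      have h3 := (this.const_mul (cN M B1)).const_mul (om w M' 1)
      refine h3
    · rw [norm_mul, Complex.norm_real, Real.norm_eq_abs, abs_of_pos hcN]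
      have h3 := norm_Ph_le hW' 1 (B2 *ᵥ g')
      rw [Ph_eq hW', norm_mul, Complex.norm_real, Real.norm_eq_abs, abs_of_pos (Zn_pos hW' _)]
      have h4 := mul_le_mul_of_nonneg_right h3 (Zn_pos hW' (B2 *ᵥ g')).le
      have h5 := mul_le_mul_of_nonneg_left h4 hcN.le
      linarith
  rw [hmain, Complex.norm_real, Real.norm_eq_abs,
    abs_of_nonneg (mul_nonneg (om_nonneg hWd 1) hDpos.le)] at hb
  exact le_of_mul_le_mul_right hb hDpos

/-- **small step**: the mean loss of the charge functional under a small noise `B1 g` is at most the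
loss of the activity under any larger noise `B` -/
theorem small_step (hw : Ad w) (hM : Mᵀ = M) (hc : Coe M) {B1 : Matrix V I ℝ} {B2 : Matrix V J ℝ}
    {I' : Type} [Fintype I'] {B : Matrix V I' ℝ} {K : Matrix I' V ℝ}
    {Md : Matrix V V ℝ} (hB : B * Bᵀ = B1 * B1ᵀ + B2 * B2ᵀ) (h : Chn M Md B K) :
    Integrable (fun g => Zn w M (B1 *ᵥ g) * (om w M 1 - (Ph w M 1 (B1 *ᵥ g)).re)) (gau I) ∧
    ∫ g, Zn w M (B1 *ᵥ g) * (om w M 1 - (Ph w M 1 (B1 *ᵥ g)).re) ∂(gau I) ≤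
      Zn w M 0 * (om w M 1 - om w Md 1) := by
  classical
  have hW := hw.wm M hM hc
  obtain ⟨M', K1, h1⟩ := chn_exists hM hc.nonneg B1
  have hc' : Coe M' := Chn.coe h1 hc
  have hW' := hw.wm M' h1.sym' hc'
  have hle := om_comp_le hw hM hc hB h h1
  have e1 : ∀ g : I → ℝ, Zn w M (B1 *ᵥ g) * (om w M 1 - (Ph w M 1 (B1 *ᵥ g)).re) =
      om w M 1 * Zn w M (B1 *ᵥ g) - (Zq w M 1 (B1 *ᵥ g)).re := by
    intro g
    rw [Ph_eq hW 1, Complex.mul_re, Complex.ofReal_re, Complex.ofReal_im]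
    ring
  have i1 : Integrable (fun g => Zn w M (B1 *ᵥ g)) (gau I) := by
    have := integrable_Zn_comp hw hM hc B1 0
    simpa using this
  have i2 : Integrable (fun g => Zq w M 1 (B1 *ᵥ g)) (gau I) := by
    have := integrable_Zq_comp hw hM hc 1 B1 0
    simpa using this
  have i3 : Integrable (fun g => (Zq w M 1 (B1 *ᵥ g)).re) (gau I) := i2.re
  simp only [e1]
  refine ⟨(i1.const_mul _).sub i3, ?_⟩
  rw [integral_sub (i1.const_mul _) i3, integral_const_mul]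
  have h2 : ∫ g, (Zq w M 1 (B1 *ᵥ g)).re ∂(gau I) = om w M' 1 * ∫ g, Zn w M (B1 *ᵥ g) ∂(gau I) := by
    have h3 := om_chn h1 hW' 1
    have h4 : ∫ g, (Zq w M 1 (B1 *ᵥ g)).re ∂(gau I) = (∫ g, Zq w M 1 (B1 *ᵥ g) ∂(gau I)).re :=
      integral_re i2
    rw [h4, h3, Complex.ofReal_re]
  rw [h2]
  have h5 : ∫ g, Zn w M (B1 *ᵥ g) ∂(gau I) ≤ Zn w M 0 := by
    have h6 := integral_mono (μ := gau I) i1 (integrable_const (Zn w M 0))
      fun g => hw.Zn_le hM hc (B1 *ᵥ g)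
    simpa using h6
  have h7 : 0 ≤ ∫ g, Zn w M (B1 *ᵥ g) ∂(gau I) := integral_nonneg fun g => (Zn_pos hW _).le
  have h8 : om w M' 1 ≤ om w M 1 := om_mono h1 hW' 1
  calc _ = (om w M 1 - om w M' 1) * ∫ g, Zn w M (B1 *ᵥ g) ∂(gau I) := by ring
    _ ≤ (om w M 1 - om w M' 1) * Zn w M 0 := mul_le_mul_of_nonneg_left h5 (by linarith)
    _ ≤ (om w M 1 - om w Md 1) * Zn w M 0 :=
        mul_le_mul_of_nonneg_right (by linarith) (Zn_pos hW 0).le
    _ = _ := by ring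

end

end Vale.Agent.P159.H316
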