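import Vale.Agent.P159.H316.Zb3

/-!
P159, V list part B (VB9 = ZB), helper316: Dini lemma, small white neutral steps of a scalar mass,
the Gaussian comparison inequality.
-/

open MeasureTheory Finset Matrix
open scoped ComplexConjugate
open Vale.Agent.P159.TM.H104 (EM nh li)
open Vale.Agent.P159.H37 (wM ZM qf bf Zn Zq Un Ev gau gau_shift)
open Vale.Agent.P159.H896

set_option linter.unusedSectionVars false

namespace Vale.Agent.P159.H316

noncomputable section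

/-- a decreasing function whose total drop is less than `c (b - a)` has a point where some small
steps to the right drop by at most `c` times their length -/
theorem dini {f : ℝ → ℝ} {a b c : ℝ} (hab : a < b) (hf : AntitoneOn f (Set.Icc a b))
    (h : f a - f b < c * (b - a)) :
    ∃ x, a ≤ x ∧ x < b ∧ ∀ δ0 : ℝ, 0 < δ0 → ∃ δ, 0 < δ ∧ δ < δ0 ∧ x + δ ≤ b ∧
      f x - f (x + δ) ≤ c * δ := by
  by_contra hcon
  push Not at hcon
  set S : Set ℝ := {x | x ∈ Set.Icc a b ∧ c * (x - a) ≤ f a - f x} with hS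
  have haS : a ∈ S := ⟨⟨le_rfl, hab.le⟩, by simp⟩
  have hbd : BddAbove S := ⟨b, fun x hx => hx.1.2⟩
  have hne : S.Nonempty := ⟨a, haS⟩
  set s := sSup S with hs
  have has : a ≤ s := le_csSup hbd haS
  have hsb : s ≤ b := csSup_le hne fun x hx => hx.1.2
  have hsS : s ∈ S := by
    refine ⟨⟨has, hsb⟩, ?_⟩
    refine le_of_forall_pos_le_add fun e he => ?_
    obtain ⟨x, hx, hxs⟩ := exists_lt_of_lt_csSup hne (show s - e / (|c| + 1) < s by
      have : 0 < e / (|c| + 1) := by positivity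
      linarith)
    have hxs' : x ≤ s := le_csSup hbd hx
    have h1 : f s ≤ f x := hf hx.1 ⟨has, hsb⟩ hxs'
    have h2 := hx.2
    have h3 : c * (s - x) ≤ e := by
      have h4 : c * (s - x) ≤ |c| * (s - x) :=
        mul_le_mul_of_nonneg_right (le_abs_self c) (by linarith)
      have h5 : |c| * (s - x) ≤ |c| * (e / (|c| + 1)) :=
        mul_le_mul_of_nonneg_left (by linarith) (abs_nonneg c)
      have h6 : |c| * (e / (|c| + 1)) ≤ e := by
        rw [mul_div_assoc', div_le_iff₀ (by positivity)]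
        nlinarith [abs_nonneg c]
      linarith
    nlinarith
  rcases lt_or_eq_of_le hsb with hlt | heq
  · obtain ⟨δ0, hδ0, h1⟩ := hcon s has hlt
    set δ := min (δ0 / 2) (b - s) with hδ
    have hδp : 0 < δ := lt_min (by positivity) (by linarith)
    have hδ1 : δ < δ0 := lt_of_le_of_lt (min_le_left _ _) (by linarith)
    have hδ2 : s + δ ≤ b := by linarith [min_le_right (δ0 / 2) (b - s)]
    have h2 := h1 δ hδp hδ1 hδ2
    have h3 : s + δ ∈ S := ⟨⟨by linarith, hδ2⟩, by nlinarith [hsS.2]⟩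
    have h4 := le_csSup hbd h3
    linarith
  · have := hsS.2
    rw [heq] at this
    linarith

variable {V : Type} [Fintype V] {I J : Type} [Fintype I] [Fintype J] {w : (V → ℤ) → ℝ}

/-! ### the scalar mass -/

lemma coe_smul [DecidableEq V] {t : ℝ} (ht : 0 < t) : Coe (t • (1 : Matrix V V ℝ)) := by
  refine ⟨t, ht, fun u => ?_⟩
  rw [H37.qf_eq, smul_mulVec, one_mulVec, dotProduct_smul, smul_eq_mul]
  simp only [dotProduct, pow_two]
  exact le_rfl

/-- the projection on the constants -/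
def P0 (V : Type) [Fintype V] : Matrix V V ℝ := Matrix.of fun _ _ => (Fintype.card V : ℝ)⁻¹

/-- the neutral projection -/
def Qn (V : Type) [Fintype V] [DecidableEq V] : Matrix V V ℝ := 1 - P0 V

lemma P0_tr : (P0 V)ᵀ = P0 V := rfl

lemma P0_mul [Nonempty V] : P0 V * P0 V = P0 V := by
  ext x y
  have hn : (Fintype.card V : ℝ) ≠ 0 := by
    exact_mod_cast Fintype.card_ne_zero
  rw [Matrix.mul_apply]
  simp only [P0, of_apply, Finset.sum_const, Finset.card_univ, nsmul_eq_mul]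
  field_simp

lemma Qn_tr [DecidableEq V] : (Qn V)ᵀ = Qn V := by
  rw [Qn, transpose_sub, transpose_one, P0_tr]

lemma Qn_mul [DecidableEq V] [Nonempty V] : Qn V * Qn V = Qn V := by
  rw [Qn, Matrix.sub_mul, Matrix.one_mul, Matrix.mul_sub, Matrix.mul_one, P0_mul, sub_self,
    sub_zero]

/-- mass after white neutral noise of variance `σ` -/
def Mn (V : Type) [Fintype V] [DecidableEq V] (t σ : ℝ) : Matrix V V ℝ :=
  t • (1 : Matrix V V ℝ) - (σ * t ^ 2 / (1 + σ * t)) • Qn V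

lemma chn_Mn [DecidableEq V] [Nonempty V] {t σ : ℝ} (ht : 0 < t) (hσ : 0 ≤ σ) :
    Chn (t • (1 : Matrix V V ℝ)) (Mn V t σ) (√σ • Qn V) ((√σ * t / (1 + σ * t)) • Qn V) := by
  refine chn_proj ?_ (coe_smul ht).nonneg Qn_tr Qn_mul ?_ ht.le hσ
  · rw [transpose_smul, transpose_one]
  · rw [Matrix.smul_mul, Matrix.one_mul]

lemma qf_smul_one_one [DecidableEq V] (t : ℝ) :
    qf (t • (1 : Matrix V V ℝ)) 1 = t * Fintype.card V := by
  rw [H37.qf_eq, smul_mulVec, one_mulVec, dotProduct_smul, smul_eq_mul]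
  simp only [dotProduct, Pi.one_apply, mul_one, Finset.sum_const, Finset.card_univ, nsmul_eq_mul]

lemma Mup_scalar [DecidableEq V] [Nonempty V] {t σ : ℝ} (ht : 0 < t) (hσ : 0 ≤ σ) :
    Mup ((t / (1 + σ * t)) • (1 : Matrix V V ℝ)) (σ / Fintype.card V) = Mn V t σ := by
  have hn : (0 : ℝ) < Fintype.card V := by exact_mod_cast Fintype.card_pos
  have h1 : (0 : ℝ) < 1 + σ * t := by positivity
  ext x y
  rw [Mup, qf_smul_one_one, Mn, Qn]
  simp only [Matrix.add_apply, Matrix.sub_apply, Matrix.smul_apply, vecMulVec_apply, smul_eq_mul,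
    P0, of_apply, smul_mulVec, one_mulVec, Pi.smul_apply, Pi.one_apply, mul_one]
  have h2 : 1 - σ / (Fintype.card V : ℝ) * (t / (1 + σ * t) * Fintype.card V) =
      1 / (1 + σ * t) := by
    field_simp
    ring
  rw [h2]
  field_simp
  ring

/-- **the factor of the constant mode** -/
theorem om_Mn (hw : Ad w) [DecidableEq V] [Nonempty V] {t σ : ℝ} (ht : 0 < t) (hσ : 0 ≤ σ) :
    om w ((t / (1 + σ * t)) • (1 : Matrix V V ℝ)) 1 =
      Real.exp (-(2 * Real.pi ^ 2 * (σ / Fintype.card V))) * om w (Mn V t σ) 1 := by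
  have hn : (0 : ℝ) < Fintype.card V := by exact_mod_cast Fintype.card_pos
  have h1 : (0 : ℝ) < 1 + σ * t := by positivity
  have ht' : 0 < t / (1 + σ * t) := by positivity
  have hW := hw.wm _ (by rw [transpose_smul, transpose_one]) (coe_smul (V := V) ht')
  have h2 : σ / Fintype.card V * qf ((t / (1 + σ * t)) • (1 : Matrix V V ℝ)) 1 < 1 := by
    rw [qf_smul_one_one]
    have : σ / (Fintype.card V : ℝ) * (t / (1 + σ * t) * Fintype.card V) =
      σ * t / (1 + σ * t) := by field_simp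
    rw [this, div_lt_one h1]
    linarith
  have h3 := Ph_const hW (coe_smul ht').nonneg (σ := σ / Fintype.card V) (by positivity) h2 1 0
  rw [Mup_scalar ht hσ] at h3
  have hWn : WM w (Mn V t σ) := hw.wm _ (chn_Mn ht hσ).sym' (Chn.coe (chn_Mn ht hσ) (coe_smul ht))
  rw [Ph_zero hW, Ph_zero hWn] at h3
  have h4 : om w ((t / (1 + σ * t)) • (1 : Matrix V V ℝ)) 1 =
      Real.exp (-(2 * Real.pi ^ 2 * ((1 : ℤ) : ℝ) ^ 2 * (σ / Fintype.card V))) *
        om w (Mn V t σ) 1 := by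
    exact_mod_cast h3
  rw [h4]
  norm_num

/-- the logarithm of the activity without the factor of the constant mode, as a function of the
noise `s = 1 / t` -/
def fl (w : (V → ℤ) → ℝ) [DecidableEq V] (s : ℝ) : ℝ :=
  Real.log (om w (s⁻¹ • (1 : Matrix V V ℝ)) 1) + 2 * Real.pi ^ 2 * (s / Fintype.card V)

lemma om_pos_all (hw : Ad w) [DecidableEq V] [Nonempty V] {s δ : ℝ} (hs : 0 < s) (hδ : 0 ≤ δ)
    (h : 0 < om w ((s + δ)⁻¹ • (1 : Matrix V V ℝ)) 1) :
    0 < om w (s⁻¹ • (1 : Matrix V V ℝ)) 1 := by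
  have h1 := om_Mn (w := w) hw (t := s⁻¹) (σ := δ) (by positivity) hδ
  have e1 : s⁻¹ / (1 + δ * s⁻¹) = (s + δ)⁻¹ := by field_simp
  rw [e1] at h1
  rw [h1] at h
  have h2 : 0 < om w (Mn V s⁻¹ δ) 1 := by
    by_contra hcon
    push Not at hcon
    have := mul_nonpos_of_nonneg_of_nonpos (Real.exp_pos (-(2 * Real.pi ^ 2 *
      (δ / Fintype.card V)))).le hcon
    linarith
  have hc := chn_Mn (V := V) (t := s⁻¹) (σ := δ) (by positivity) hδ
  have hWn : WM w (Mn V s⁻¹ δ) :=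
    hw.wm _ hc.sym' (Chn.coe hc (coe_smul (by positivity)))
  exact lt_of_lt_of_le h2 (om_mono hc hWn 1)

/-- the activity after small white neutral noise -/
lemma om_Mn_fl (hw : Ad w) [DecidableEq V] [Nonempty V] {s δ : ℝ} (hs : 0 < s) (hδ : 0 ≤ δ)
    (h : 0 < om w ((s + δ)⁻¹ • (1 : Matrix V V ℝ)) 1) :
    om w (Mn V s⁻¹ δ) 1 = om w (s⁻¹ • (1 : Matrix V V ℝ)) 1 * Real.exp (fl w (s + δ) - fl w s) := by
  have h0 := om_pos_all hw hs hδ h
  have h1 := om_Mn (w := w) hw (t := s⁻¹) (σ := δ) (by positivity) hδ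
  have e1 : s⁻¹ / (1 + δ * s⁻¹) = (s + δ)⁻¹ := by field_simp
  rw [e1] at h1
  have h2 : om w (Mn V s⁻¹ δ) 1 =
      Real.exp (2 * Real.pi ^ 2 * (δ / Fintype.card V)) *
        om w ((s + δ)⁻¹ • (1 : Matrix V V ℝ)) 1 := by
    rw [h1, ← mul_assoc, ← Real.exp_add, add_neg_cancel, Real.exp_zero, one_mul]
  rw [h2, fl, fl]
  have e3 : Real.log (om w ((s + δ)⁻¹ • (1 : Matrix V V ℝ)) 1) +
      2 * Real.pi ^ 2 * ((s + δ) / Fintype.card V) -
      (Real.log (om w (s⁻¹ • (1 : Matrix V V ℝ)) 1) + 2 * Real.pi ^ 2 * (s / Fintype.card V)) =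
      Real.log (om w ((s + δ)⁻¹ • (1 : Matrix V V ℝ)) 1) +
      2 * Real.pi ^ 2 * (δ / Fintype.card V) -
      Real.log (om w (s⁻¹ • (1 : Matrix V V ℝ)) 1) := by ring
  rw [e3, Real.exp_sub, Real.exp_add, Real.exp_log h, Real.exp_log h0]
  field_simp [h0.ne']

lemma fl_anti (hw : Ad w) [DecidableEq V] [Nonempty V] {s δ : ℝ} (hs : 0 < s) (hδ : 0 ≤ δ)
    (h : 0 < om w ((s + δ)⁻¹ • (1 : Matrix V V ℝ)) 1) : fl w (s + δ) ≤ fl w s := by
  have h0 := om_pos_all hw hs hδ h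
  have h1 := om_Mn_fl hw hs hδ h
  have hc := chn_Mn (V := V) (t := s⁻¹) (σ := δ) (by positivity) hδ
  have hWn : WM w (Mn V s⁻¹ δ) :=
    hw.wm _ hc.sym' (Chn.coe hc (coe_smul (by positivity)))
  have h2 := om_mono hc hWn 1
  rw [h1] at h2
  have h3 : Real.exp (fl w (s + δ) - fl w s) ≤ 1 := by
    by_contra hcon
    push Not at hcon
    have := mul_lt_mul_of_pos_left hcon h0
    linarith
  rw [Real.exp_le_one_iff] at h3
  linarith

/-- `1 - Re Φ / ω` is between `0` and `2` -/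
lemma one_sub_nonneg {M : Matrix V V ℝ} (hW : WM w M) (ho : 0 < om w M 1) (F : V → ℝ) :
    0 ≤ 1 - (Ph w M 1 F).re / om w M 1 := by
  have h1 := norm_Ph_le hW 1 F
  have h2 := (Complex.re_le_norm (Ph w M 1 F)).trans h1
  have h3 : (Ph w M 1 F).re / om w M 1 ≤ 1 := by rwa [div_le_one ho]
  linarith

/-- mean of the small scale loss, scale `2^(-k)` -/
theorem step_scale (hw : Ad w) [DecidableEq V] [Nonempty V] {s β c : ℝ} (hs : 0 < s)
    (hβ : 0 < β) (hc : 0 ≤ c) {B1 : Matrix V I ℝ} {B2 : Matrix V J ℝ}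
    (hB : B1 * B1ᵀ + B2 * B2ᵀ = β • Qn V)
    (hpos : ∀ δ, 0 ≤ δ → 0 < om w ((s + δ)⁻¹ • (1 : Matrix V V ℝ)) 1)
    (hd : ∀ δ0 : ℝ, 0 < δ0 → ∃ δ, 0 < δ ∧ δ < δ0 ∧ fl w s - fl w (s + δ) ≤ c * δ) (k0 : ℕ) :
    ∃ k, k0 ≤ k ∧
      Integrable (fun g => Zn w (s⁻¹ • (1 : Matrix V V ℝ)) (((1 / 2 : ℝ) ^ k) • B1 *ᵥ g) *
        (1 - (Ph w (s⁻¹ • (1 : Matrix V V ℝ)) 1 (((1 / 2 : ℝ) ^ k) • B1 *ᵥ g)).re /
          om w (s⁻¹ • (1 : Matrix V V ℝ)) 1)) (gau I) ∧
      4 ^ k * ∫ g, Zn w (s⁻¹ • (1 : Matrix V V ℝ)) (((1 / 2 : ℝ) ^ k) • B1 *ᵥ g) *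
        (1 - (Ph w (s⁻¹ • (1 : Matrix V V ℝ)) 1 (((1 / 2 : ℝ) ^ k) • B1 *ᵥ g)).re /
          om w (s⁻¹ • (1 : Matrix V V ℝ)) 1) ∂(gau I) ≤
        Zn w (s⁻¹ • (1 : Matrix V V ℝ)) 0 * (4 * c * β) := by
  set M : Matrix V V ℝ := s⁻¹ • (1 : Matrix V V ℝ) with hM
  have hs' : 0 < s⁻¹ := by positivity
  have hMs : Mᵀ = M := by rw [hM, transpose_smul, transpose_one]
  have hcM : Coe M := coe_smul hs'
  have hW := hw.wm M hMs hcM
  have ho : 0 < om w M 1 := by
    have := hpos 0 le_rfl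
    rwa [add_zero] at this
  obtain ⟨δ, hδ0, hδ1, hδ2⟩ := hd (β / 4 ^ k0) (by positivity)
  -- choice of `k`
  obtain ⟨k, hk1, hk2⟩ : ∃ k : ℕ, β / 4 ^ k ≤ δ ∧ δ < 4 * (β / 4 ^ k) := by
    have h1 : ∃ k : ℕ, β / 4 ^ k ≤ δ := by
      obtain ⟨n, hn⟩ := pow_unbounded_of_one_lt (β / δ) (by norm_num : (1 : ℝ) < 4)
      refine ⟨n, ?_⟩
      rw [div_le_iff₀ (by positivity)]
      rw [div_lt_iff₀ hδ0] at hn
      linarith
    classical
    have h2 := Nat.find_spec h1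
    refine ⟨Nat.find h1, h2, ?_⟩
    have h3 : Nat.find h1 ≠ 0 := by
      intro h0
      rw [h0] at h2
      simp only [pow_zero, div_one] at h2
      have h4 : β / 4 ^ k0 ≤ β := by
        apply div_le_self hβ.le
        exact one_le_pow₀ (by norm_num)
      linarith
    obtain ⟨m, hm⟩ := Nat.exists_eq_succ_of_ne_zero h3
    have h4 : ¬ (β / 4 ^ m ≤ δ) := Nat.find_min h1 (by omega)
    rw [hm, pow_succ]
    push Not at h4
    have e : 4 * (β / (4 ^ m * 4)) = β / 4 ^ m := by field_simp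
    rw [e]
    exact h4
  have hk0 : k0 ≤ k := by
    by_contra hlt
    push Not at hlt
    have h1 : β / 4 ^ k0 ≤ β / 4 ^ k := by
      apply div_le_div_of_nonneg_left hβ.le (by positivity)
      exact pow_le_pow_right₀ (by norm_num) hlt.le
    linarith
  set r : ℝ := (1 / 2 : ℝ) ^ k with hr
  have hr2 : r ^ 2 = 1 / 4 ^ k := by
    rw [hr, ← pow_mul, mul_comm k 2, pow_mul]
    norm_num
    rw [one_div, inv_pow]
  set σ : ℝ := β / 4 ^ k with hσ
  have hσ0 : 0 < σ := by positivity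
  have hcov : (√σ • Qn V) * (√σ • Qn V)ᵀ = (r • B1) * (r • B1)ᵀ + (r • B2) * (r • B2)ᵀ := by
    rw [transpose_smul, transpose_smul, transpose_smul, Matrix.smul_mul, Matrix.mul_smul, smul_smul,
      Matrix.smul_mul, Matrix.mul_smul, smul_smul, Matrix.smul_mul, Matrix.mul_smul, smul_smul,
      Qn_tr, Qn_mul, Real.mul_self_sqrt hσ0.le, ← smul_add, hB, smul_smul, ← pow_two, hr2]
    congr 1
    rw [hσ]
    ring
  have hch := chn_Mn (V := V) (t := s⁻¹) (σ := σ) hs' hσ0.le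
  obtain ⟨i1, h1⟩ := small_step hw hMs hcM hcov hch
  have hom := om_Mn_fl hw hs hσ0.le (hpos σ hσ0.le)
  rw [← hM] at hom
  have e1 : ∀ g : I → ℝ, (r • B1) *ᵥ g = r • B1 *ᵥ g := fun g => smul_mulVec _ _ _
  simp only [e1] at i1 h1
  have e2 : ∀ g : I → ℝ, Zn w M (r • B1 *ᵥ g) * (1 - (Ph w M 1 (r • B1 *ᵥ g)).re / om w M 1) =
      (om w M 1)⁻¹ * (Zn w M (r • B1 *ᵥ g) * (om w M 1 - (Ph w M 1 (r • B1 *ᵥ g)).re)) := by
    intro g
    field_simp
  refine ⟨k, hk0, ?_⟩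
  simp only [← hr, e2]
  refine ⟨i1.const_mul _, ?_⟩
  rw [integral_const_mul]
  rw [hom] at h1
  -- the drop of `fl`
  have hdrop : fl w s - fl w (s + σ) ≤ c * δ := by
    have h2 : fl w (s + δ) ≤ fl w (s + σ) := by
      have h3 := fl_anti hw (s := s + σ) (δ := δ - σ) (by positivity) (by linarith) (by
        have := hpos δ hδ0.le
        have e : s + σ + (δ - σ) = s + δ := by ring
        rwa [e])
      have e : s + σ + (δ - σ) = s + δ := by ring
      rwa [e] at h3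
    linarith
  have hexp : 1 - Real.exp (fl w (s + σ) - fl w s) ≤ c * δ := by
    have := Real.add_one_le_exp (fl w (s + σ) - fl w s)
    linarith
  have h4k : (0 : ℝ) < 4 ^ k := by positivity
  have hδk : 4 ^ k * δ ≤ 4 * β := by
    have : 4 ^ k * (4 * (β / 4 ^ k)) = 4 * β := by field_simp
    nlinarith
  have hZ := Zn_pos hW 0
  calc 4 ^ k * ((om w M 1)⁻¹ * ∫ g, Zn w M (r • B1 *ᵥ g) *
        (om w M 1 - (Ph w M 1 (r • B1 *ᵥ g)).re) ∂(gau I))
      ≤ 4 ^ k * ((om w M 1)⁻¹ * (Zn w M 0 * (om w M 1 -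
        om w M 1 * Real.exp (fl w (s + σ) - fl w s)))) := by
        refine mul_le_mul_of_nonneg_left (mul_le_mul_of_nonneg_left h1 ?_) h4k.le
        exact (inv_pos.2 ho).le
    _ = Zn w M 0 * (4 ^ k * (1 - Real.exp (fl w (s + σ) - fl w s))) := by
        field_simp
    _ ≤ Zn w M 0 * (4 * c * β) := by
        refine mul_le_mul_of_nonneg_left ?_ hZ.le
        have h5 := mul_le_mul_of_nonneg_left hexp h4k.le
        have h6 := mul_le_mul_of_nonneg_left hδk hc
        linarith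

end

end Vale.Agent.P159.H316
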