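import Vale.Agent.P159.H316.Zb4

/-!
P159, V list part B (VB9 = ZB), helper316: the Gaussian comparison inequality.
-/

open MeasureTheory Finset Matrix
open scoped ComplexConjugate
open Vale.Agent.P159.TM.H104 (EM nh li)
open Vale.Agent.P159.H37 (wM ZM qf bf Zn Zq Un Ev gau gau_shift)
open Vale.Agent.P159.H896

set_option linter.unusedSectionVars false

namespace Vale.Agent.P159.H316

noncomputable section

variable {V : Type} [Fintype V] {I J J' : Type} [Fintype I] [Fintype J] [Fintype J']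
  {w : (V → ℤ) → ℝ}

lemma continuous_mv (B : Matrix V I ℝ) : Continuous fun g : I → ℝ => B *ᵥ g :=
  Continuous.matrix_mulVec continuous_const continuous_id

/-- tails of a linear image of a Gaussian vector -/
lemma tail_zero (B : Matrix V I ℝ) {e : ℝ} (he : 0 < e) :
    ∃ L : ℝ, 0 < L ∧ (gau I).real {g | L < ‖B *ᵥ g‖} ≤ e := by
  have hm : ∀ n : ℕ, MeasurableSet {g : I → ℝ | (n : ℝ) < ‖B *ᵥ g‖} := fun n =>
    measurableSet_lt measurable_const (continuous_mv B).norm.measurable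
  have h1 : Filter.Tendsto (fun n : ℕ => (gau I) {g | (n : ℝ) < ‖B *ᵥ g‖}) Filter.atTop
      (nhds ((gau I) (⋂ n : ℕ, {g | (n : ℝ) < ‖B *ᵥ g‖}))) := by
    refine tendsto_measure_iInter_atTop (fun n => (hm n).nullMeasurableSet) ?_ ⟨0, measure_ne_top _ _⟩
    intro m n hmn g hg
    simp only [Set.mem_ofPred_eq] at hg ⊢
    exact lt_of_le_of_lt (by exact_mod_cast hmn) hg
  have h2 : (⋂ n : ℕ, {g : I → ℝ | (n : ℝ) < ‖B *ᵥ g‖}) = ∅ := by
    ext g
    simp only [Set.mem_iInter, Set.mem_ofPred_eq, Set.mem_empty_iff_false, iff_false, not_forall,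
      not_lt]
    obtain ⟨n, hn⟩ := exists_nat_ge ‖B *ᵥ g‖
    exact ⟨n, hn⟩
  rw [h2, measure_empty] at h1
  have h3 := (ENNReal.tendsto_toReal ENNReal.zero_ne_top).comp h1
  have h4 := (h3.eventually (gt_mem_nhds (show (0 : ENNReal).toReal < e by simpa using he))).and
    (Filter.eventually_gt_atTop 0)
  obtain ⟨n, hn, hn0⟩ := h4.exists
  refine ⟨n, by exact_mod_cast hn0, ?_⟩
  exact hn.le

lemma int_three {Ω : Type*} [MeasurableSpace Ω] {μ : Measure Ω} [IsProbabilityMeasure μ]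
    {f k : Ω → ℝ} (hf : Integrable f μ) (hk : Integrable k μ) (o C : ℝ) :
    Integrable (fun x => o * (f x + C + 2 * k x)) μ ∧
      ∫ x, o * (f x + C + 2 * k x) ∂μ = o * (∫ x, f x ∂μ + C + 2 * ∫ x, k x ∂μ) := by
  have i1 : Integrable (fun x => f x + C) μ := hf.add (integrable_const _)
  have i2 : Integrable (fun x => f x + C + 2 * k x) μ := i1.add (hk.const_mul 2)
  refine ⟨i2.const_mul o, ?_⟩
  rw [integral_const_mul, integral_add i1 (hk.const_mul 2), integral_add hf (integrable_const _),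
    integral_const_mul, integral_const, probReal_univ, one_smul]

/-- **the Gaussian comparison inequality** -/
theorem zb_gauss (hw : Ad w) [DecidableEq V] [Nonempty V] {s β c κ a : ℝ} (hs : 0 < s)
    (hβ : 0 < β) (hc : 0 ≤ c) {A1 : Matrix V I ℝ} {B1 : Matrix V J ℝ} {B2 : Matrix V J' ℝ}
    (hB : B1 * B1ᵀ + B2 * B2ᵀ = β • Qn V)
    (hpos : ∀ δ, 0 ≤ δ → 0 < om w ((s + δ)⁻¹ • (1 : Matrix V V ℝ)) 1)
    (hd : ∀ δ0 : ℝ, 0 < δ0 → ∃ δ, 0 < δ ∧ δ < δ0 ∧ fl w s - fl w (s + δ) ≤ c * δ)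
    {S1 : Set (I → ℝ)} {S2 : Set (J → ℝ)} (hS1 : MeasurableSet S1) (hS2 : MeasurableSet S2)
    (h1 : ∀ g ∈ S1, TT (Zn w (s⁻¹ • (1 : Matrix V V ℝ))) (A1 *ᵥ g) ≤ 1 / 4)
    (h2 : ∀ g ∈ S2, TT (Zn w (s⁻¹ • (1 : Matrix V V ℝ))) (B1 *ᵥ g) ≤ 1 / 4)
    (h3 : ∀ g ∈ S2, ∀ k, dbl w (s⁻¹ • (1 : Matrix V V ℝ)) (B1 *ᵥ g) k ≤ κ) (hκ : 0 ≤ κ)
    (ha : 0 < a) (haE : 16 * c * β + κ ^ 2 / 2 ≤ a ^ 2) :
    ∫ g, ∫ g', ‖Ph w (s⁻¹ • (1 : Matrix V V ℝ)) 1 (A1 *ᵥ g + B1 *ᵥ g') -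
        Ph w (s⁻¹ • (1 : Matrix V V ℝ)) 1 (A1 *ᵥ g)‖ ∂(gau J) ∂(gau I) ≤
      om w (s⁻¹ • (1 : Matrix V V ℝ)) 1 *
        (2 * a + 6 * κ + 2 * (gau I).real S1ᶜ + 2 * (gau J).real S2ᶜ) := by
  set M : Matrix V V ℝ := s⁻¹ • (1 : Matrix V V ℝ) with hM
  have hs' : 0 < s⁻¹ := by positivity
  have hMs : Mᵀ = M := by rw [hM, transpose_smul, transpose_one]
  have hcM : Coe M := coe_smul hs'
  have hW := hw.wm M hMs hcM
  have ho : 0 < om w M 1 := by
    have := hpos 0 le_rfl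
    rwa [add_zero] at this
  have hZ0 := Zn_pos hW 0
  refine le_of_forall_pos_le_add fun e he => ?_
  obtain ⟨L, hL0, hL⟩ := tail_zero B1 (e := e / (2 * om w M 1)) (by positivity)
  -- continuity of `Zn` at `0`
  obtain ⟨r, hr0, hr⟩ : ∃ r, 0 < r ∧ ∀ F : V → ℝ, ‖F‖ < r → Zn w M 0 / 2 ≤ Zn w M F := by
    have h4 := (continuous_Zn hW).continuousAt (x := 0)
    have h5 := h4.eventually (lt_mem_nhds (show Zn w M 0 / 2 < Zn w M 0 by linarith))
    obtain ⟨r, hr0, hr⟩ := Metric.eventually_nhds_iff.1 h5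
    refine ⟨r, hr0, fun F hF => ?_⟩
    have := hr (y := F) (by rwa [dist_zero_right])
    exact this.le
  obtain ⟨k0, hk0⟩ := pow_unbounded_of_one_lt (L / r) (by norm_num : (1 : ℝ) < 2)
  obtain ⟨k, hk, ik, hbk⟩ := step_scale hw hs hβ hc hB hpos hd k0
  rw [← hM] at ik hbk
  -- the random variable
  set X : (J → ℝ) → ℝ := fun g => 4 * (4 ^ k / Zn w M 0) *
    (Zn w M (((1 / 2 : ℝ) ^ k) • B1 *ᵥ g) *
      (1 - (Ph w M 1 (((1 / 2 : ℝ) ^ k) • B1 *ᵥ g)).re / om w M 1)) with hX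
  have hX0 : ∀ g, 0 ≤ X g := by
    intro g
    rw [hX]
    exact mul_nonneg (by positivity) (mul_nonneg (Zn_pos hW _).le (one_sub_nonneg hW ho _))
  have iX : Integrable X (gau J) := ik.const_mul _
  have bX : ∫ g, X g ∂(gau J) ≤ 16 * c * β := by
    rw [hX]
    simp only
    rw [integral_const_mul]
    have e1 : 4 * (4 ^ k / Zn w M 0) * ∫ g, Zn w M (((1 / 2 : ℝ) ^ k) • B1 *ᵥ g) *
        (1 - (Ph w M 1 (((1 / 2 : ℝ) ^ k) • B1 *ᵥ g)).re / om w M 1) ∂(gau J) =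
        4 / Zn w M 0 * (4 ^ k * ∫ g, Zn w M (((1 / 2 : ℝ) ^ k) • B1 *ᵥ g) *
        (1 - (Ph w M 1 (((1 / 2 : ℝ) ^ k) • B1 *ᵥ g)).re / om w M 1) ∂(gau J)) := by ring
    rw [e1]
    calc _ ≤ 4 / Zn w M 0 * (Zn w M 0 * (4 * c * β)) :=
          mul_le_mul_of_nonneg_left hbk (by positivity)
      _ = _ := by field_simp; ring
  -- the good set
  set S : Set (J → ℝ) := S2 ∩ {g | ‖B1 *ᵥ g‖ ≤ L} with hS
  have hSm : MeasurableSet S := hS2.inter
    (measurableSet_le (continuous_mv B1).norm.measurable measurable_const)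
  have hPS : (gau J).real Sᶜ ≤ (gau J).real S2ᶜ + e / (2 * om w M 1) := by
    have e1 : Sᶜ ⊆ S2ᶜ ∪ {g | L < ‖B1 *ᵥ g‖} := by
      intro g hg
      by_cases h4 : g ∈ S2
      · right
        by_contra h5
        exact hg ⟨h4, (not_lt.1 h5 : ‖B1 *ᵥ g‖ ≤ L)⟩
      · left; exact h4
    calc (gau J).real Sᶜ ≤ (gau J).real (S2ᶜ ∪ {g | L < ‖B1 *ᵥ g‖}) := measureReal_mono e1
      _ ≤ (gau J).real S2ᶜ + (gau J).real {g | L < ‖B1 *ᵥ g‖} := measureReal_union_le _ _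
      _ ≤ _ := by linarith
  -- the pointwise bound
  have hpt : ∀ (g : I → ℝ) (g' : J → ℝ), ‖Ph w M 1 (A1 *ᵥ g + B1 *ᵥ g') - Ph w M 1 (A1 *ᵥ g)‖ ≤
      om w M 1 * ((X g' + κ ^ 2 / 2) / a + a + 6 * κ + 2 * S1ᶜ.indicator (fun _ => (1 : ℝ)) g +
        2 * Sᶜ.indicator (fun _ => (1 : ℝ)) g') := by
    intro g g'
    have hx0 := hX0 g'
    have hn1 : ‖Ph w M 1 (A1 *ᵥ g + B1 *ᵥ g') - Ph w M 1 (A1 *ᵥ g)‖ ≤ om w M 1 * 2 := by
      refine (norm_sub_le _ _).trans ?_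
      linarith [norm_Ph_le hW 1 (A1 *ᵥ g + B1 *ᵥ g'), norm_Ph_le hW 1 (A1 *ᵥ g)]
    by_cases hg : g ∈ S1
    · by_cases hg' : g' ∈ S
      · rw [Set.indicator_of_notMem (by simpa using hg), Set.indicator_of_notMem (by simpa using hg')]
        have h4 := Ph_diff_small hW ho (h1 g hg) (h2 g' hg'.1) (h3 g' hg'.1) k
        refine h4.trans (mul_le_mul_of_nonneg_left ?_ ho.le)
        have h5 : ‖((1 / 2 : ℝ) ^ k) • B1 *ᵥ g'‖ < r := by
          rw [norm_smul, Real.norm_eq_abs, abs_of_pos (by positivity)]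
          have h6 : ‖B1 *ᵥ g'‖ ≤ L := hg'.2
          have h7 : (1 / 2 : ℝ) ^ k ≤ (1 / 2) ^ k0 :=
            pow_le_pow_of_le_one (by norm_num) (by norm_num) hk
          have h8 : (1 / 2 : ℝ) ^ k0 * L < r := by
            rw [one_div, inv_pow, inv_mul_lt_iff₀ (by positivity)]
            rw [div_lt_iff₀ hr0] at hk0
            linarith
          calc (1 / 2 : ℝ) ^ k * ‖B1 *ᵥ g'‖ ≤ (1 / 2) ^ k0 * L :=
                mul_le_mul h7 h6 (norm_nonneg _) (by positivity)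
            _ < r := h8
        have h6 := hr _ h5
        have h7 := one_sub_nonneg hW ho (((1 / 2 : ℝ) ^ k) • B1 *ᵥ g')
        have h8 : 4 ^ k * (2 * (1 - (Ph w M 1 (((1 / 2 : ℝ) ^ k) • B1 *ᵥ g')).re / om w M 1)) ≤
            X g' := by
          rw [hX]
          simp only
          have h9 : (1 : ℝ) / 2 ≤ Zn w M (((1 / 2 : ℝ) ^ k) • B1 *ᵥ g') / Zn w M 0 := by
            rw [le_div_iff₀ hZ0]
            linarith
          have h10 : 4 * (4 ^ k / Zn w M 0) * (Zn w M (((1 / 2 : ℝ) ^ k) • B1 *ᵥ g') *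
              (1 - (Ph w M 1 (((1 / 2 : ℝ) ^ k) • B1 *ᵥ g')).re / om w M 1)) =
              (4 * 4 ^ k * (1 - (Ph w M 1 (((1 / 2 : ℝ) ^ k) • B1 *ᵥ g')).re / om w M 1)) *
                (Zn w M (((1 / 2 : ℝ) ^ k) • B1 *ᵥ g') / Zn w M 0) := by ring
          rw [h10]
          have h11 := mul_le_mul_of_nonneg_left h9 (show 0 ≤ 4 * 4 ^ k *
            (1 - (Ph w M 1 (((1 / 2 : ℝ) ^ k) • B1 *ᵥ g')).re / om w M 1) by positivity)
          linarith
        -- `2 √y ≤ y / a + a`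
        have h9 : ∀ y : ℝ, 0 ≤ y → 2 * Real.sqrt y ≤ y / a + a := by
          intro y hy
          have h10 := Real.sq_sqrt hy
          have h11 : 0 ≤ (Real.sqrt y - a) ^ 2 / a := by positivity
          have h12 : (Real.sqrt y - a) ^ 2 / a = y / a + a - 2 * Real.sqrt y := by
            field_simp
            rw [sub_sq, h10]
            ring
          linarith
        have h10 := h9 (4 ^ k * (2 * (1 - (Ph w M 1 (((1 / 2 : ℝ) ^ k) • B1 *ᵥ g')).re /
          om w M 1)) + κ ^ 2 / 2) (by positivity)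
        have h11 : (4 ^ k * (2 * (1 - (Ph w M 1 (((1 / 2 : ℝ) ^ k) • B1 *ᵥ g')).re /
          om w M 1)) + κ ^ 2 / 2) / a ≤ (X g' + κ ^ 2 / 2) / a :=
          div_le_div_of_nonneg_right (by linarith) ha.le
        linarith
      · rw [Set.indicator_of_mem (a := g') (by exact hg')]
        refine hn1.trans (mul_le_mul_of_nonneg_left ?_ ho.le)
        have h4 : 0 ≤ S1ᶜ.indicator (fun _ => (1 : ℝ)) g :=
          Set.indicator_nonneg (fun _ _ => zero_le_one) _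
        have h5 : 0 ≤ (X g' + κ ^ 2 / 2) / a := by positivity
        linarith
    · rw [Set.indicator_of_mem (a := g) (by exact hg)]
      refine hn1.trans (mul_le_mul_of_nonneg_left ?_ ho.le)
      have h4 : 0 ≤ Sᶜ.indicator (fun _ => (1 : ℝ)) g' :=
        Set.indicator_nonneg (fun _ _ => zero_le_one) _
      have h5 : 0 ≤ (X g' + κ ^ 2 / 2) / a := by positivity
      linarith
  -- integration
  have hcP := continuous_Ph hW 1
  have iind : Integrable (fun g' => Sᶜ.indicator (fun _ => (1 : ℝ)) g') (gau J) :=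
    (integrable_const 1).indicator hSm.compl
  have vind : ∫ g', Sᶜ.indicator (fun _ => (1 : ℝ)) g' ∂(gau J) = (gau J).real Sᶜ := by
    rw [integral_indicator hSm.compl, setIntegral_const, smul_eq_mul, mul_one]
  have iXa : Integrable (fun g' => (X g' + κ ^ 2 / 2) / a) (gau J) :=
    (iX.add (integrable_const _)).div_const a
  have vXa : ∫ g', (X g' + κ ^ 2 / 2) / a ∂(gau J) ≤ a := by
    rw [integral_div, integral_add iX (integrable_const _), integral_const, probReal_univ, one_smul,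
      div_le_iff₀ ha]
    have : a * a = a ^ 2 := by ring
    linarith
  have hin : ∀ g : I → ℝ, ∫ g', ‖Ph w M 1 (A1 *ᵥ g + B1 *ᵥ g') - Ph w M 1 (A1 *ᵥ g)‖ ∂(gau J) ≤
      om w M 1 * (0 + (2 * a + 6 * κ + 2 * ((gau J).real S2ᶜ + e / (2 * om w M 1))) +
        2 * S1ᶜ.indicator (fun _ => (1 : ℝ)) g) := by
    intro g
    obtain ⟨i3, e3⟩ := int_three (μ := gau J) iXa iind (om w M 1)
      (a + 6 * κ + 2 * S1ᶜ.indicator (fun _ => (1 : ℝ)) g)
    have h4 := integral_mono_of_nonneg (μ := gau J)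
      (Filter.Eventually.of_forall fun g' => norm_nonneg _) i3
      (Filter.Eventually.of_forall fun g' => (hpt g g').trans (le_of_eq (by ring)))
    refine h4.trans ?_
    rw [e3]
    refine mul_le_mul_of_nonneg_left ?_ ho.le
    rw [vind]
    linarith
  have i1 : Integrable (fun g : I → ℝ => S1ᶜ.indicator (fun _ => (1 : ℝ)) g) (gau I) :=
    (integrable_const 1).indicator hS1.compl
  have v1 : ∫ g, S1ᶜ.indicator (fun _ => (1 : ℝ)) g ∂(gau I) = (gau I).real S1ᶜ := by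
    rw [integral_indicator hS1.compl, setIntegral_const, smul_eq_mul, mul_one]
  obtain ⟨i4, e4⟩ := int_three (μ := gau I) (integrable_const (0 : ℝ)) i1 (om w M 1)
    (2 * a + 6 * κ + 2 * ((gau J).real S2ᶜ + e / (2 * om w M 1)))
  have h5 := integral_mono_of_nonneg (μ := gau I)
    (Filter.Eventually.of_forall fun g => integral_nonneg fun g' => norm_nonneg _) i4
    (Filter.Eventually.of_forall hin)
  refine h5.trans (le_of_eq ?_)
  rw [e4, v1]
  simp only [integral_const, probReal_univ, one_smul]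
  field_simp
  ring

end

end Vale.Agent.P159.H316
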