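import Vale.Agent.P159.H316.Zb5
import Vale.Agent.P159.H363.TiltE

/-!
P159, V list part B (VB9 = ZB), helper316: the activities after two large neutral noises (cells)
are close: tilted Gaussian laws, abstract cell letters.
-/

open MeasureTheory Finset Matrix
open scoped ComplexConjugate
open Vale.Agent.P159.TM.H104 (EM nh li)
open Vale.Agent.P159.H37 (wM ZM qf bf Zn Zq Un Ev gau gau_shift)
open Vale.Agent.P159.H896
open Vale.Agent.P159.H363 (cTf cTf_pos tiltE tilt_integrable_iff)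

set_option linter.unusedSectionVars false

namespace Vale.Agent.P159.H316

noncomputable section

variable {V Λ : Type} [Fintype V] [Fintype Λ] {I J J' I₂ : Type} [Fintype I] [Fintype J]
  [Fintype J'] [Fintype I₂] {w : (V → ℤ) → ℝ}

/-- isometric lift of cell fields, constants to constants -/
structure Lift [DecidableEq Λ] (R : Matrix V Λ ℝ) : Prop where
  iso : Rᵀ * R = 1
  cst : R * P0 Λ * Rᵀ = P0 V

/-- the neutral cell projection -/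
def Qc [DecidableEq Λ] (R : Matrix V Λ ℝ) : Matrix V V ℝ := R * Qn Λ * Rᵀ

variable [DecidableEq Λ] [Nonempty Λ] {R : Matrix V Λ ℝ}

lemma Qc_tr : (Qc R)ᵀ = Qc R := by
  rw [Qc, transpose_mul, transpose_mul, transpose_transpose, Qn_tr, Matrix.mul_assoc]

lemma Qc_mul (hR : Lift R) : Qc R * Qc R = Qc R := by
  have h1 : R * Qn Λ * Rᵀ * (R * Qn Λ * Rᵀ) = R * (Qn Λ * (Rᵀ * R) * Qn Λ) * Rᵀ := by
    simp only [Matrix.mul_assoc]
  rw [Qc, h1, hR.iso, Matrix.mul_one, Qn_mul]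

lemma Qc_eq (hR : Lift R) : Qc R = R * Rᵀ - P0 V := by
  rw [Qc, Qn, Matrix.mul_sub, Matrix.mul_one, Matrix.sub_mul, hR.cst]

/-- mass after neutral cell noise of variance `σ` -/
def Mc [DecidableEq V] (R : Matrix V Λ ℝ) (t σ : ℝ) : Matrix V V ℝ :=
  t • (1 : Matrix V V ℝ) - (σ * t ^ 2 / (1 + σ * t)) • Qc R

lemma chn_Mc [DecidableEq V] (hR : Lift R) {t σ : ℝ} (ht : 0 < t) (hσ : 0 ≤ σ) :
    Chn (t • (1 : Matrix V V ℝ)) (Mc R t σ) (√σ • Qc R) ((√σ * t / (1 + σ * t)) • Qc R) := by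
  refine chn_proj ?_ (coe_smul ht).nonneg Qc_tr (Qc_mul hR) ?_ ht.le hσ
  · rw [transpose_smul, transpose_one]
  · rw [Matrix.smul_mul, Matrix.one_mul]

/-- the nonlinear part of the neutral free energy on cell fields -/
def Rr (w : (V → ℤ) → ℝ) (M : Matrix V V ℝ) (R : Matrix V Λ ℝ) (A : Matrix Λ Λ ℝ) (f : Λ → ℝ) : ℝ :=
  Real.log (Zn w M (R *ᵥ f) / Zn w M 0) + qf A f / 2

variable {M : Matrix V V ℝ} {A : Matrix Λ Λ ℝ}

omit [DecidableEq Λ] [Nonempty Λ] in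
lemma Zn_lift (hW : WM w M) (f : Λ → ℝ) :
    Zn w M (R *ᵥ f) = Zn w M 0 * (Real.exp (Rr w M R A f) * Real.exp (-(qf A f / 2))) := by
  rw [← Real.exp_add, Rr]
  have h1 : 0 < Zn w M (R *ᵥ f) / Zn w M 0 := div_pos (Zn_pos hW _) (Zn_pos hW 0)
  rw [show Real.log (Zn w M (R *ᵥ f) / Zn w M 0) + qf A f / 2 + -(qf A f / 2) =
    Real.log (Zn w M (R *ᵥ f) / Zn w M 0) by ring, Real.exp_log h1, mul_div_cancel₀ _ (Zn_pos hW 0).ne']

omit [DecidableEq Λ] [Nonempty Λ] in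
lemma continuous_Rr (hW : WM w M) : Continuous (Rr w M R A) := by
  unfold Rr
  refine Continuous.add ?_ (continuous_qf.div_const 2)
  refine Continuous.log ?_ fun f => (div_pos (Zn_pos hW _) (Zn_pos hW 0)).ne'
  exact ((continuous_Zn hW).comp (continuous_mv R)).div_const _

lemma qf_Qn (hA : Aᵀ = A) (h1 : A *ᵥ 1 = 0) (f : Λ → ℝ) : qf A (Qn Λ *ᵥ f) = qf A f := by
  have h2 : A * P0 Λ = 0 := by
    ext x y
    have := congrFun h1 x
    simp only [mulVec, dotProduct, Pi.one_apply, mul_one, Pi.zero_apply] at this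
    rw [Matrix.mul_apply]
    simp only [P0, of_apply]
    rw [← Finset.sum_mul, this, zero_mul]
    rfl
  have h3 : A * Qn Λ = A := by rw [Qn, Matrix.mul_sub, Matrix.mul_one, h2, sub_zero]
  have h4 : Qn Λ * A = A := by
    have := congrArg transpose h3
    rwa [transpose_mul, Qn_tr, hA] at this
  rw [H37.qf_eq, H37.qf_eq, mulVec_mulVec, h3, dotProduct_comm, dotProduct_mulVec,
    ← mulVec_transpose, Qn_tr, mulVec_mulVec, h4, dotProduct_comm]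

/-- **tilted representation** of the activity after neutral cell noise -/
theorem om_tilt (hw : Ad w) [DecidableEq V] (hR : Lift R) {t σ : ℝ} (ht : 0 < t) (hσ : 0 < σ)
    (hA : Aᵀ = A) (hA0 : ∀ u, 0 ≤ qf A u) (hA1 : A *ᵥ 1 = 0) {G : Matrix Λ I ℝ}
    (hG : G * Gᵀ * (1 + σ • A) = σ • 1)
    (hr : ∀ f, 0 ≤ Rr w (t • (1 : Matrix V V ℝ)) R A f) {η : ℝ}
    (hη : ∫ g, Real.exp (Rr w (t • (1 : Matrix V V ℝ)) R A (Qn Λ *ᵥ G *ᵥ g)) ∂(gau I) ≤ 1 + η) :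
    ‖(om w (Mc R t σ) 1 : ℂ) -
        ∫ g, Ph w (t • (1 : Matrix V V ℝ)) 1 (R *ᵥ Qn Λ *ᵥ G *ᵥ g) ∂(gau I)‖ ≤
      2 * η * om w (t • (1 : Matrix V V ℝ)) 1 := by
  set M : Matrix V V ℝ := t • (1 : Matrix V V ℝ) with hM
  have hMs : Mᵀ = M := by rw [hM, transpose_smul, transpose_one]
  have hcM : Coe M := coe_smul ht
  have hW := hw.wm M hMs hcM
  have hch := chn_Mc hR ht hσ.le
  rw [← hM] at hch
  have hcm : Coe (Mc R t σ) := Chn.coe hch hcM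
  have hWm := hw.wm _ hch.sym' hcm
  have hom := om_chn hch hWm 1
  have hs : √σ ^ 2 = σ := Real.sq_sqrt hσ.le
  have hs0 : √σ ≠ 0 := (Real.sqrt_pos.2 hσ).ne'
  -- law of the noise
  have hlaw : (√σ • Qc R) * (√σ • Qc R)ᵀ = (√σ • (R * Qn Λ)) * (√σ • (R * Qn Λ))ᵀ := by
    rw [transpose_smul, transpose_smul, Matrix.smul_mul, Matrix.mul_smul, Matrix.smul_mul,
      Matrix.mul_smul, Qc_tr, Qc_mul hR, transpose_mul, Qn_tr]
    have : R * Qn Λ * (Qn Λ * Rᵀ) = R * (Qn Λ * Qn Λ) * Rᵀ := by simp only [Matrix.mul_assoc]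
    rw [this, Qn_mul, Qc]
  have hmv : ∀ g : Λ → ℝ, (√σ • (R * Qn Λ)) *ᵥ g = R *ᵥ Qn Λ *ᵥ (√σ • g) := by
    intro g
    rw [smul_mulVec, mulVec_smul, mulVec_smul, mulVec_mulVec]
  have hq : ∫ g, Zq w M 1 ((√σ • Qc R) *ᵥ g) ∂(gau V) =
      ∫ g, Zq w M 1 (R *ᵥ Qn Λ *ᵥ (√σ • g)) ∂(gau Λ) := by
    rw [H363.law_integral_eq _ _ hlaw _ (stronglyMeasurable_Zq hW 1)]
    simp only [hmv]
  have hn : ∫ g, Zn w M ((√σ • Qc R) *ᵥ g) ∂(gau V) =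
      ∫ g, Zn w M (R *ᵥ Qn Λ *ᵥ (√σ • g)) ∂(gau Λ) := by
    rw [H363.law_integral_eq _ _ hlaw _ (continuous_Zn hW).stronglyMeasurable]
    simp only [hmv]
  have hG' : G * Gᵀ * (1 + √σ ^ 2 • A) = √σ ^ 2 • 1 := by rw [hs]; exact hG
  obtain ⟨ah, hah⟩ : ∃ ah : Matrix Λ Λ ℝ, ah * (1 + √σ ^ 2 • A) = 1 := by
    refine ⟨σ⁻¹ • (G * Gᵀ), ?_⟩
    rw [Matrix.smul_mul, hG', hs, smul_smul, inv_mul_cancel₀ hσ.ne', one_smul]
  have hcQ : Continuous fun f : Λ → ℝ => Qn Λ *ᵥ f := continuous_mv _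
  have hcRQ : Continuous fun f : Λ → ℝ => R *ᵥ Qn Λ *ᵥ f := (continuous_mv R).comp hcQ
  -- the two tilted integrals
  have hcW : Continuous fun f : Λ → ℝ => Real.exp (Rr w M R A (Qn Λ *ᵥ f)) :=
    Real.continuous_exp.comp ((continuous_Rr hW).comp hcQ)
  have hcP : Continuous fun f : Λ → ℝ => Ph w M 1 (R *ᵥ Qn Λ *ᵥ f) := (continuous_Ph hW 1).comp hcRQ
  set c0 : ℝ := cTf A √σ ah 0 with hc0
  have hc0p : 0 < c0 := cTf_pos hA0 ah 0
  have e1 : ∀ f : Λ → ℝ, Zn w M (R *ᵥ Qn Λ *ᵥ f) =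
      Zn w M 0 * (Real.exp (-(qf A f / 2)) * Real.exp (Rr w M R A (Qn Λ *ᵥ f))) := by
    intro f
    rw [Zn_lift (A := A) hW, qf_Qn hA hA1]
    ring
  have tn := tiltE hA hA0 hs0 hG' hah 0 hcW.stronglyMeasurable
  have hcWP : Continuous fun f : Λ → ℝ => Real.exp (Rr w M R A (Qn Λ *ᵥ f)) •
      Ph w M 1 (R *ᵥ Qn Λ *ᵥ f) := hcW.smul hcP
  have tq := tiltE hA hA0 hs0 hG' hah 0 hcWP.stronglyMeasurable
  simp only [zero_add, mulVec_zero] at tn tq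
  have hn' : ∫ g, Zn w M ((√σ • Qc R) *ᵥ g) ∂(gau V) =
      Zn w M 0 * (c0 * ∫ g, Real.exp (Rr w M R A (Qn Λ *ᵥ G *ᵥ g)) ∂(gau I)) := by
    rw [hn]
    simp only [e1]
    rw [integral_const_mul]
    congr 1
  have hq' : ∫ g, Zq w M 1 ((√σ • Qc R) *ᵥ g) ∂(gau V) =
      (Zn w M 0 : ℂ) * ((c0 : ℂ) * ∫ g, ((Real.exp (Rr w M R A (Qn Λ *ᵥ G *ᵥ g)) : ℝ) : ℂ) *
        Ph w M 1 (R *ᵥ Qn Λ *ᵥ G *ᵥ g) ∂(gau I)) := by
    rw [hq]
    have e2 : ∀ f : Λ → ℝ, Zq w M 1 (R *ᵥ Qn Λ *ᵥ f) =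
        (Zn w M 0 : ℂ) * (Real.exp (-(qf A f / 2)) • (Real.exp (Rr w M R A (Qn Λ *ᵥ f)) •
          Ph w M 1 (R *ᵥ Qn Λ *ᵥ f))) := by
      intro f
      rw [Ph_eq hW, e1]
      simp only [Complex.real_smul]
      push_cast
      ring
    simp only [e2]
    rw [integral_const_mul, tq]
    simp only [Complex.real_smul]
    rfl
  -- positivity and integrability of the tilt
  have hDpos : 0 < ∫ g, Zn w M ((√σ • Qc R) *ᵥ g) ∂(gau V) := by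
    have h2 := chn_Zn hch hWm 0
    simp only [zero_add] at h2
    rw [h2]
    exact mul_pos (cN_pos hch.nn) (Zn_pos hWm 0)
  set D : ℝ := ∫ g, Real.exp (Rr w M R A (Qn Λ *ᵥ G *ᵥ g)) ∂(gau I) with hD
  have hD0 : 0 < D := by
    rw [hn'] at hDpos
    exact (mul_pos_iff_of_pos_left hc0p).1 ((mul_pos_iff_of_pos_left (Zn_pos hW 0)).1 hDpos)
  have iW : Integrable (fun g => Real.exp (Rr w M R A (Qn Λ *ᵥ G *ᵥ g))) (gau I) := by
    by_contra hcon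
    have : D = 0 := integral_undef hcon
    linarith
  have hkey : (om w (Mc R t σ) 1 : ℂ) * (D : ℂ) =
      ∫ g, ((Real.exp (Rr w M R A (Qn Λ *ᵥ G *ᵥ g)) : ℝ) : ℂ) *
        Ph w M 1 (R *ᵥ Qn Λ *ᵥ G *ᵥ g) ∂(gau I) := by
    rw [hq', hn'] at hom
    have h3 : (Zn w M 0 : ℂ) ≠ 0 := by exact_mod_cast (Zn_pos hW 0).ne'
    have h4 : (c0 : ℂ) ≠ 0 := by exact_mod_cast hc0p.ne'
    have h5 : (Zn w M 0 : ℂ) * ((c0 : ℂ) * ((om w (Mc R t σ) 1 : ℂ) * (D : ℂ))) =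
        (Zn w M 0 : ℂ) * ((c0 : ℂ) * ∫ g, ((Real.exp (Rr w M R A (Qn Λ *ᵥ G *ᵥ g)) : ℝ) : ℂ) *
        Ph w M 1 (R *ᵥ Qn Λ *ᵥ G *ᵥ g) ∂(gau I)) := by
      rw [hom]
      push_cast
      ring
    exact mul_left_cancel₀ h4 (mul_left_cancel₀ h3 h5)
  have iP : Integrable (fun g => Ph w M 1 (R *ᵥ Qn Λ *ᵥ G *ᵥ g)) (gau I) := by
    refine Integrable.of_bound (C := om w M 1) ?_ (Filter.Eventually.of_forall fun g =>
      norm_Ph_le hW 1 _)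
    exact (hcP.comp (continuous_mv G)).aestronglyMeasurable
  have iWP : Integrable (fun g => ((Real.exp (Rr w M R A (Qn Λ *ᵥ G *ᵥ g)) : ℝ) : ℂ) *
      Ph w M 1 (R *ᵥ Qn Λ *ᵥ G *ᵥ g)) (gau I) := by
    refine iW.ofReal.mul_bdd (c := om w M 1) ?_ (Filter.Eventually.of_forall fun g =>
      norm_Ph_le hW 1 _)
    exact (hcP.comp (continuous_mv G)).aestronglyMeasurable
  have hD1 : 1 ≤ D := by
    have h3 := integral_mono (μ := gau I) (integrable_const (1 : ℝ)) iW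
      fun g => Real.one_le_exp (hr _)
    rwa [integral_const, probReal_univ, one_smul] at h3
  have ho := om_nonneg hW 1
  -- the comparison
  have hω : om w (Mc R t σ) 1 ≤ om w M 1 := om_mono hch hWm 1
  have hω0 := om_nonneg hWm 1
  have e3 : (om w (Mc R t σ) 1 : ℂ) - ∫ g, Ph w M 1 (R *ᵥ Qn Λ *ᵥ G *ᵥ g) ∂(gau I) =
      (∫ g, ((Real.exp (Rr w M R A (Qn Λ *ᵥ G *ᵥ g)) - 1 : ℝ) : ℂ) *
        Ph w M 1 (R *ᵥ Qn Λ *ᵥ G *ᵥ g) ∂(gau I)) -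
        ((D - 1 : ℝ) : ℂ) * (om w (Mc R t σ) 1 : ℂ) := by
    have e4 : ∫ g, ((Real.exp (Rr w M R A (Qn Λ *ᵥ G *ᵥ g)) - 1 : ℝ) : ℂ) *
        Ph w M 1 (R *ᵥ Qn Λ *ᵥ G *ᵥ g) ∂(gau I) =
        (om w (Mc R t σ) 1 : ℂ) * (D : ℂ) - ∫ g, Ph w M 1 (R *ᵥ Qn Λ *ᵥ G *ᵥ g) ∂(gau I) := by
      rw [hkey, ← integral_sub iWP iP]
      refine integral_congr_ae (Filter.Eventually.of_forall fun g => ?_)
      push_cast
      ring
    rw [e4]
    push_cast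
    ring
  rw [e3]
  have b1 : ‖∫ g, ((Real.exp (Rr w M R A (Qn Λ *ᵥ G *ᵥ g)) - 1 : ℝ) : ℂ) *
      Ph w M 1 (R *ᵥ Qn Λ *ᵥ G *ᵥ g) ∂(gau I)‖ ≤ (D - 1) * om w M 1 := by
    have iW1 : Integrable (fun g => (Real.exp (Rr w M R A (Qn Λ *ᵥ G *ᵥ g)) - 1) * om w M 1)
        (gau I) := (iW.sub (integrable_const _)).mul_const _
    refine (norm_integral_le_of_norm_le iW1 (Filter.Eventually.of_forall fun g => ?_)).trans
      (le_of_eq ?_)
    · have h3 : 0 ≤ Real.exp (Rr w M R A (Qn Λ *ᵥ G *ᵥ g)) - 1 := by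
        linarith [Real.one_le_exp (hr (Qn Λ *ᵥ G *ᵥ g))]
      rw [norm_mul, Complex.norm_real, Real.norm_eq_abs, abs_of_nonneg h3]
      exact mul_le_mul_of_nonneg_left (norm_Ph_le hW 1 _) h3
    · rw [integral_mul_const, integral_sub iW (integrable_const _), integral_const, probReal_univ,
        one_smul]
  have b2 : ‖((D - 1 : ℝ) : ℂ) * (om w (Mc R t σ) 1 : ℂ)‖ ≤ (D - 1) * om w M 1 := by
    rw [norm_mul, Complex.norm_real, Complex.norm_real, Real.norm_eq_abs, Real.norm_eq_abs,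
      abs_of_nonneg (by linarith : (0 : ℝ) ≤ D - 1), abs_of_nonneg hω0]
    exact mul_le_mul_of_nonneg_left hω (by linarith)
  refine (norm_sub_le _ _).trans ((add_le_add b1 b2).trans ?_)
  have h6 : D - 1 ≤ η := by linarith
  have h7 := mul_le_mul_of_nonneg_right h6 ho
  linarith

end

end Vale.Agent.P159.H316
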