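import Vale.Agent.P159.H316.Zb6

/-!
P159, V list part B (VB9 = ZB), helper316: the comparison of the activities after two large neutral
cell noises, abstract form.
-/

open MeasureTheory Finset Matrix
open scoped ComplexConjugate
open Vale.Agent.P159.TM.H104 (EM nh li)
open Vale.Agent.P159.H37 (wM ZM qf bf Zn Zq Un Ev gau gau_shift)
open Vale.Agent.P159.H896

set_option linter.unusedSectionVars false

namespace Vale.Agent.P159.H316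

noncomputable section

variable {V Λ : Type} [Fintype V] [Fintype Λ] {I J J' I₂ : Type} [Fintype I] [Fintype J]
  [Fintype J'] [Fintype I₂] {w : (V → ℤ) → ℝ}

/-- a nonnegative symmetric form is a Gram matrix -/
lemma gram_exists {S : Matrix V V ℝ} (hS : Sᵀ = S) (h0 : ∀ u, 0 ≤ qf S u) :
    ∃ (m : ℕ) (B : Matrix V (Fin m) ℝ), B * Bᵀ = S := by
  have hps : S.PosSemidef := by
    refine Matrix.PosSemidef.of_dotProduct_mulVec_nonneg ?_ fun u => ?_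
    · rw [Matrix.IsHermitian, conjTranspose_eq_transpose_of_trivial, hS]
    · have := h0 u
      rw [H37.qf_eq] at this
      simpa using this
  obtain ⟨m, v, hv⟩ := Matrix.posSemidef_iff_eq_sum_vecMulVec.1 hps
  refine ⟨m, Matrix.of fun x i => v i x, ?_⟩
  rw [hv]
  ext x y
  rw [Matrix.mul_apply, Matrix.sum_apply]
  simp only [transpose_apply, of_apply, vecMulVec_apply, star_trivial]

variable [DecidableEq Λ] [Nonempty Λ] {R : Matrix V Λ ℝ}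

lemma sum_Qn (u : Λ → ℝ) : ∑ x, (Qn Λ *ᵥ u) x = 0 := by
  have h1 : ∀ x, (Qn Λ *ᵥ u) x = u x - (Fintype.card Λ : ℝ)⁻¹ * ∑ y, u y := by
    intro x
    rw [Qn, sub_mulVec, one_mulVec, Pi.sub_apply]
    simp only [P0, mulVec, dotProduct, of_apply, Finset.mul_sum]
  simp only [h1]
  rw [Finset.sum_sub_distrib, Finset.sum_const, Finset.card_univ, nsmul_eq_mul]
  have hn : (Fintype.card Λ : ℝ) ≠ 0 := by exact_mod_cast Fintype.card_ne_zero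
  field_simp
  ring

lemma sum_mulVec_sq (B : Matrix V I ℝ) (u : V → ℝ) :
    ∑ i, (Bᵀ *ᵥ u) i ^ 2 = qf (B * Bᵀ) u := by
  rw [H37.qf_eq, ← mulVec_mulVec, dotProduct_mulVec, ← mulVec_transpose]
  simp only [dotProduct, pow_two]

lemma qf_proj {P : Matrix V V ℝ} (h1 : Pᵀ = P) (h2 : P * P = P) (u : V → ℝ) :
    qf P u = ∑ x, (P *ᵥ u) x ^ 2 := by
  conv_rhs => rw [← h1, sum_mulVec_sq, h1, h2]

/-- complement of a neutral cell noise inside white neutral noise -/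
lemma compl_exists [DecidableEq V] [Nonempty V] (hR : Lift R) {H : Matrix Λ J ℝ} {β : ℝ} (hβ : 0 ≤ β)
    (hH : ∀ u : Λ → ℝ, ∑ x, u x = 0 → qf (H * Hᵀ) u ≤ β * ∑ x, u x ^ 2) :
    ∃ (m : ℕ) (B2 : Matrix V (Fin m) ℝ),
      (R * Qn Λ * H) * (R * Qn Λ * H)ᵀ + B2 * B2ᵀ = β • Qn V := by
  set B1 := R * Qn Λ * H with hB1
  have hsym : (β • Qn V - B1 * B1ᵀ)ᵀ = β • Qn V - B1 * B1ᵀ := by
    rw [transpose_sub, transpose_smul, Qn_tr, transpose_mul, transpose_transpose]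
  have hnn : ∀ u, 0 ≤ qf (β • Qn V - B1 * B1ᵀ) u := by
    intro u
    have e1 : qf (β • Qn V - B1 * B1ᵀ) u = β * qf (Qn V) u - qf (B1 * B1ᵀ) u := by
      rw [H37.qf_eq, H37.qf_eq, H37.qf_eq, sub_mulVec, dotProduct_sub, smul_mulVec,
        dotProduct_smul, smul_eq_mul]
    -- the cell part
    have e2 : qf (B1 * B1ᵀ) u = qf (H * Hᵀ) (Qn Λ *ᵥ Rᵀ *ᵥ u) := by
      rw [← sum_mulVec_sq, ← sum_mulVec_sq, hB1, transpose_mul, transpose_mul, Qn_tr]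
      simp only [← mulVec_mulVec]
    have e3 := hH (Qn Λ *ᵥ Rᵀ *ᵥ u) (sum_Qn _)
    have e4 : ∑ x, (Qn Λ *ᵥ Rᵀ *ᵥ u) x ^ 2 = qf (Qc R) u := by
      have h3 := sum_mulVec_sq (R * Qn Λ) u
      rw [transpose_mul, Qn_tr] at h3
      simp only [← mulVec_mulVec] at h3
      rw [h3]
      congr 1
      have : R * Qn Λ * (Qn Λ * Rᵀ) = R * (Qn Λ * Qn Λ) * Rᵀ := by simp only [Matrix.mul_assoc]
      rw [this, Qn_mul, Qc]
    -- `Qc ≤ Qn V`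
    have e5 : qf (Qc R) u ≤ qf (Qn V) u := by
      have hD1 : (Qn V - Qc R)ᵀ = Qn V - Qc R := by rw [transpose_sub, Qn_tr, Qc_tr]
      have hRR : Qn V - Qc R = 1 - R * Rᵀ := by
        rw [Qc_eq hR, Qn]
        abel
      have hD2 : (Qn V - Qc R) * (Qn V - Qc R) = Qn V - Qc R := by
        rw [hRR, Matrix.sub_mul, Matrix.one_mul, Matrix.mul_sub, Matrix.mul_one]
        have : R * Rᵀ * (R * Rᵀ) = R * (Rᵀ * R) * Rᵀ := by simp only [Matrix.mul_assoc]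
        rw [this, hR.iso, Matrix.mul_one, sub_self, sub_zero]
      have h4 := qf_proj hD1 hD2 u
      have h5 : qf (Qn V - Qc R) u = qf (Qn V) u - qf (Qc R) u := by
        rw [H37.qf_eq, H37.qf_eq, H37.qf_eq, sub_mulVec, dotProduct_sub]
      have h6 : 0 ≤ ∑ x, ((Qn V - Qc R) *ᵥ u) x ^ 2 := Finset.sum_nonneg fun x _ => sq_nonneg _
      linarith
    rw [e1, e2]
    rw [e4] at e3
    have := mul_le_mul_of_nonneg_left e5 hβ
    linarith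
  obtain ⟨m, B2, hB2⟩ := gram_exists hsym hnn
  exact ⟨m, B2, by rw [hB2]; abel⟩

variable {A : Matrix Λ Λ ℝ}

/-- **ZB, abstract form** -/
theorem zb_main (hw : Ad w) [DecidableEq V] [Nonempty V] (hR : Lift R) {s σ1 σ2 β c κ a η : ℝ}
    (hs : 0 < s) (hσ1 : 0 < σ1) (hσ2 : 0 < σ2) (hβ : 0 < β) (hc : 0 ≤ c)
    (hA : Aᵀ = A) (hA0 : ∀ u, 0 ≤ qf A u) (hA1 : A *ᵥ 1 = 0) {G1 : Matrix Λ I ℝ}
    {G2 : Matrix Λ I₂ ℝ} {H : Matrix Λ J ℝ}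
    (hG1 : G1 * G1ᵀ * (1 + σ1 • A) = σ1 • 1) (hG2 : G2 * G2ᵀ * (1 + σ2 • A) = σ2 • 1)
    (hGH : G2 * G2ᵀ = G1 * G1ᵀ + H * Hᵀ)
    (hH : ∀ u : Λ → ℝ, ∑ x, u x = 0 → qf (H * Hᵀ) u ≤ β * ∑ x, u x ^ 2)
    (hr : ∀ f, 0 ≤ Rr w (s⁻¹ • (1 : Matrix V V ℝ)) R A f)
    (hη1 : ∫ g, Real.exp (Rr w (s⁻¹ • (1 : Matrix V V ℝ)) R A (Qn Λ *ᵥ G1 *ᵥ g)) ∂(gau I) ≤ 1 + η)
    (hη2 : ∫ g, Real.exp (Rr w (s⁻¹ • (1 : Matrix V V ℝ)) R A (Qn Λ *ᵥ G2 *ᵥ g)) ∂(gau I₂) ≤ 1 + η)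
    (hpos : ∀ δ, 0 ≤ δ → 0 < om w ((s + δ)⁻¹ • (1 : Matrix V V ℝ)) 1)
    (hd : ∀ δ0 : ℝ, 0 < δ0 → ∃ δ, 0 < δ ∧ δ < δ0 ∧ fl w s - fl w (s + δ) ≤ c * δ)
    {S1 : Set (I → ℝ)} {S2 : Set (J → ℝ)} (hS1 : MeasurableSet S1) (hS2 : MeasurableSet S2)
    (h1 : ∀ g ∈ S1, TT (Zn w (s⁻¹ • (1 : Matrix V V ℝ))) (R *ᵥ Qn Λ *ᵥ G1 *ᵥ g) ≤ 1 / 4)
    (h2 : ∀ g ∈ S2, TT (Zn w (s⁻¹ • (1 : Matrix V V ℝ))) (R *ᵥ Qn Λ *ᵥ H *ᵥ g) ≤ 1 / 4)
    (h3 : ∀ g ∈ S2, ∀ k, dbl w (s⁻¹ • (1 : Matrix V V ℝ)) (R *ᵥ Qn Λ *ᵥ H *ᵥ g) k ≤ κ)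
    (hκ : 0 ≤ κ) (ha : 0 < a) (haE : 16 * c * β + κ ^ 2 / 2 ≤ a ^ 2) :
    |om w (Mc R s⁻¹ σ2) 1 - om w (Mc R s⁻¹ σ1) 1| ≤ om w (s⁻¹ • (1 : Matrix V V ℝ)) 1 *
      (4 * η + 2 * a + 6 * κ + 2 * (gau I).real S1ᶜ + 2 * (gau J).real S2ᶜ) := by
  set M : Matrix V V ℝ := s⁻¹ • (1 : Matrix V V ℝ) with hM
  have hs' : 0 < s⁻¹ := by positivity
  have hMs : Mᵀ = M := by rw [hM, transpose_smul, transpose_one]
  have hcM : Coe M := coe_smul hs'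
  have hW := hw.wm M hMs hcM
  obtain ⟨m, B2, hB2⟩ := compl_exists hR hβ.le hH
  have eG : ∀ g, (R * Qn Λ * G1) *ᵥ g = R *ᵥ Qn Λ *ᵥ G1 *ᵥ g := fun g => by
    simp only [← mulVec_mulVec]
  have eH : ∀ g, (R * Qn Λ * H) *ᵥ g = R *ᵥ Qn Λ *ᵥ H *ᵥ g := fun g => by
    simp only [← mulVec_mulVec]
  have hz := zb_gauss hw hs hβ hc (A1 := R * Qn Λ * G1) hB2 hpos hd hS1 hS2
    (by intro g hg; rw [eG]; exact h1 g hg) (by intro g hg; rw [eH]; exact h2 g hg)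
    (by intro g hg k; rw [eH]; exact h3 g hg k) hκ ha haE
  rw [← hM] at hz
  have t1 := om_tilt hw hR hs' hσ1 hA hA0 hA1 hG1 hr hη1
  have t2 := om_tilt hw hR hs' hσ2 hA hA0 hA1 hG2 hr hη2
  rw [← hM] at t1 t2
  -- law of the second noise
  have hcP := continuous_Ph hW 1
  have hlaw : (R * Qn Λ * G2) * (R * Qn Λ * G2)ᵀ =
      fromCols (R * Qn Λ * G1) (R * Qn Λ * H) * (fromCols (R * Qn Λ * G1) (R * Qn Λ * H))ᵀ := by
    rw [transpose_fromCols, fromCols_mul_fromRows]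
    simp only [transpose_mul]
    have e1 : ∀ X : Type, ∀ [Fintype X], ∀ (T : Matrix Λ X ℝ),
        R * Qn Λ * T * (Tᵀ * ((Qn Λ)ᵀ * Rᵀ)) = R * Qn Λ * (T * Tᵀ) * ((Qn Λ)ᵀ * Rᵀ) := by
      intro X _ T
      simp only [Matrix.mul_assoc]
    rw [e1, e1, e1, hGH, Matrix.mul_add, Matrix.add_mul]
  have iP : ∀ (X : Type) [Fintype X] (T : Matrix V X ℝ),
      Integrable (fun g => Ph w M 1 (T *ᵥ g)) (gau X) := by
    intro X _ T
    refine Integrable.of_bound (C := om w M 1) ?_ (Filter.Eventually.of_forall fun g =>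
      norm_Ph_le hW 1 _)
    exact (hcP.comp (continuous_mv T)).aestronglyMeasurable
  have h4 : ∫ g, Ph w M 1 (R *ᵥ Qn Λ *ᵥ G2 *ᵥ g) ∂(gau I₂) =
      ∫ g : I → ℝ, ∫ g' : J → ℝ, Ph w M 1 ((R * Qn Λ * G1) *ᵥ g + (R * Qn Λ * H) *ᵥ g')
        ∂(gau J) ∂(gau I) := by
    have e2 : ∀ g, R *ᵥ Qn Λ *ᵥ G2 *ᵥ g = (R * Qn Λ * G2) *ᵥ g := fun g => by
      simp only [← mulVec_mulVec]
    simp only [e2]
    rw [H363.law_integral_eq _ _ hlaw _ hcP.stronglyMeasurable, H363.integral_gau_sum _ (iP _ _)]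
    refine integral_congr_ae (Filter.Eventually.of_forall fun g => ?_)
    refine integral_congr_ae (Filter.Eventually.of_forall fun g' => ?_)
    simp only
    rw [fromCols_mulVec]
    simp only [Function.comp_def, Sum.elim_inl, Sum.elim_inr]
  -- integrability of the inner integral
  have hjm : StronglyMeasurable (Function.uncurry fun (g : I → ℝ) (g' : J → ℝ) =>
      Ph w M 1 ((R * Qn Λ * G1) *ᵥ g + (R * Qn Λ * H) *ᵥ g')) := by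
    refine Continuous.stronglyMeasurable ?_
    exact hcP.comp (((continuous_mv _).comp continuous_fst).add
      ((continuous_mv _).comp continuous_snd))
  have hjm' : StronglyMeasurable (Function.uncurry fun (g : I → ℝ) (g' : J → ℝ) =>
      ‖Ph w M 1 ((R * Qn Λ * G1) *ᵥ g + (R * Qn Λ * H) *ᵥ g') - Ph w M 1 ((R * Qn Λ * G1) *ᵥ g)‖) := by
    refine Continuous.stronglyMeasurable ?_
    refine Continuous.norm (Continuous.sub ?_ ?_)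
    · exact hcP.comp (((continuous_mv _).comp continuous_fst).add
        ((continuous_mv _).comp continuous_snd))
    · exact hcP.comp ((continuous_mv _).comp continuous_fst)
  have i1 : Integrable (fun g : I → ℝ => ∫ g' : J → ℝ,
      Ph w M 1 ((R * Qn Λ * G1) *ᵥ g + (R * Qn Λ * H) *ᵥ g') ∂(gau J)) (gau I) := by
    refine Integrable.of_bound (C := om w M 1) ?_ (Filter.Eventually.of_forall fun g => ?_)
    · exact (hjm.integral_prod_right (ν := gau J)).aestronglyMeasurable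
    · refine (norm_integral_le_of_norm_le (integrable_const (om w M 1))
        (Filter.Eventually.of_forall fun g' => norm_Ph_le hW 1 _)).trans ?_
      rw [integral_const, probReal_univ, one_smul]
  have i2 : ∀ g : I → ℝ, Integrable (fun g' : J → ℝ =>
      Ph w M 1 ((R * Qn Λ * G1) *ᵥ g + (R * Qn Λ * H) *ᵥ g')) (gau J) := by
    intro g
    refine Integrable.of_bound (C := om w M 1) ?_ (Filter.Eventually.of_forall fun g' =>
      norm_Ph_le hW 1 _)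
    exact (hcP.comp (continuous_const.add (continuous_mv _))).aestronglyMeasurable
  have i3 : Integrable (fun g : I → ℝ => ∫ g' : J → ℝ,
      ‖Ph w M 1 ((R * Qn Λ * G1) *ᵥ g + (R * Qn Λ * H) *ᵥ g') -
        Ph w M 1 ((R * Qn Λ * G1) *ᵥ g)‖ ∂(gau J)) (gau I) := by
    refine Integrable.of_bound (C := 2 * om w M 1) ?_ (Filter.Eventually.of_forall fun g => ?_)
    · exact (hjm'.integral_prod_right (ν := gau J)).aestronglyMeasurable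
    · rw [Real.norm_eq_abs, abs_of_nonneg (integral_nonneg fun g' => norm_nonneg _)]
      have h5 := integral_mono_of_nonneg (μ := gau J)
        (f := fun g' => ‖Ph w M 1 ((R * Qn Λ * G1) *ᵥ g + (R * Qn Λ * H) *ᵥ g') -
        Ph w M 1 ((R * Qn Λ * G1) *ᵥ g)‖) (g := fun _ => 2 * om w M 1)
        (Filter.Eventually.of_forall fun g' => norm_nonneg _) (integrable_const _)
        (Filter.Eventually.of_forall fun g' => by
          refine (norm_sub_le _ _).trans ?_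
          linarith [norm_Ph_le hW 1 ((R * Qn Λ * G1) *ᵥ g + (R * Qn Λ * H) *ᵥ g'),
            norm_Ph_le hW 1 ((R * Qn Λ * G1) *ᵥ g)])
      rwa [integral_const, probReal_univ, one_smul] at h5
  have h5 : ‖(∫ g, Ph w M 1 (R *ᵥ Qn Λ *ᵥ G2 *ᵥ g) ∂(gau I₂)) -
      ∫ g, Ph w M 1 (R *ᵥ Qn Λ *ᵥ G1 *ᵥ g) ∂(gau I)‖ ≤ om w M 1 *
        (2 * a + 6 * κ + 2 * (gau I).real S1ᶜ + 2 * (gau J).real S2ᶜ) := by
    refine le_trans ?_ hz
    have e3 : ∀ g, R *ᵥ Qn Λ *ᵥ G1 *ᵥ g = (R * Qn Λ * G1) *ᵥ g := fun g => by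
      simp only [← mulVec_mulVec]
    simp only [e3]
    rw [h4, ← integral_sub i1 (iP _ _)]
    refine norm_integral_le_of_norm_le i3 (Filter.Eventually.of_forall fun g => ?_)
    have e4 : (∫ g' : J → ℝ, Ph w M 1 ((R * Qn Λ * G1) *ᵥ g + (R * Qn Λ * H) *ᵥ g') ∂(gau J)) -
        Ph w M 1 ((R * Qn Λ * G1) *ᵥ g) = ∫ g' : J → ℝ,
        (Ph w M 1 ((R * Qn Λ * G1) *ᵥ g + (R * Qn Λ * H) *ᵥ g') -
          Ph w M 1 ((R * Qn Λ * G1) *ᵥ g)) ∂(gau J) := by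
      rw [integral_sub (i2 g) (integrable_const _), integral_const, probReal_univ, one_smul]
    rw [e4]
    exact norm_integral_le_integral_norm _
  have h6 : ((om w (Mc R s⁻¹ σ2) 1 - om w (Mc R s⁻¹ σ1) 1 : ℝ) : ℂ) =
      (((om w (Mc R s⁻¹ σ2) 1 : ℝ) : ℂ) - ∫ g, Ph w M 1 (R *ᵥ Qn Λ *ᵥ G2 *ᵥ g) ∂(gau I₂)) +
      ((∫ g, Ph w M 1 (R *ᵥ Qn Λ *ᵥ G2 *ᵥ g) ∂(gau I₂)) -
      ∫ g, Ph w M 1 (R *ᵥ Qn Λ *ᵥ G1 *ᵥ g) ∂(gau I)) -
      (((om w (Mc R s⁻¹ σ1) 1 : ℝ) : ℂ) - ∫ g, Ph w M 1 (R *ᵥ Qn Λ *ᵥ G1 *ᵥ g) ∂(gau I)) := by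
    push_cast
    ring
  rw [← Real.norm_eq_abs, ← Complex.norm_real, h6]
  refine (norm_sub_le _ _).trans ?_
  have h7 := norm_add_le (((om w (Mc R s⁻¹ σ2) 1 : ℝ) : ℂ) -
    ∫ g, Ph w M 1 (R *ᵥ Qn Λ *ᵥ G2 *ᵥ g) ∂(gau I₂))
    ((∫ g, Ph w M 1 (R *ᵥ Qn Λ *ᵥ G2 *ᵥ g) ∂(gau I₂)) -
      ∫ g, Ph w M 1 (R *ᵥ Qn Λ *ᵥ G1 *ᵥ g) ∂(gau I))
  linarith

end

end Vale.Agent.P159.H316
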