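import Vale.Agent.P159.H316.Zb7
import Vale.Agent.P159.H363.Brd
import Vale.Agent.P159.H375.FineV

/-!
P159, V list part B (VB9 = ZB), helper316: torus letters for the comparison of the activities.
-/

open MeasureTheory Finset Matrix
open scoped ComplexConjugate
open Vale.Agent.P159.TM.H104 (EM nh li Ex)
open Vale.Agent.P159.H37 (wM ZM qf bf Zn Zq Un Ev gau gau_shift cellP)
open Vale.Agent.P159.H896
open Vale.Agent.P159.TM.Spec (V)
open Vale.Agent.P159.TM.SpecC (Tor wT)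
open Vale.Agent.P159.TM.H764 (EE)
open Vale.Agent.P159.H864 (TI sym MC cl cobV fc)
open Vale.Agent.P159.H963 (Pn nMC nM ntr gw_wT mf_MC eq2)
open Vale.Agent.P159.H363 (acl lf Rcl Wcl gm sn)

set_option linter.unusedSectionVars false

namespace Vale.Agent.P159.H316

noncomputable section

variable {N l : ℕ} [NeZero N] {b t τ τ' : ℝ}

theorem ad_wT (hb : 0 ≤ b) : Ad (wT b N) where
  nn := (gw_wT hb).nn
  bdd := (gw_wT hb).bdd
  wm M hM hc := by
    obtain ⟨m0, h0, h1⟩ := hc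
    exact H896.wm_wT hb h0 hM h1

variable [NeZero (N / l)]

lemma cobV_tr_one (x : V N) : ∑ c, cobV N l c x = (l : ℝ)⁻¹ := by
  simp only [H864.cobV_apply]
  rw [Finset.sum_ite_eq, if_pos (Finset.mem_univ _)]

theorem lift_cob (hl : l ∣ N) : Lift (cobV N l)ᵀ where
  iso := by rw [transpose_transpose]; exact H864.cobV_mul_tr hl
  cst := by
    have hlp : (0 : ℝ) < l := by exact_mod_cast H864.l_pos hl
    have hn : (0 : ℝ) < ((N / l : ℕ) : ℝ) := by exact_mod_cast NeZero.pos (N / l)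
    have hN : ((N / l : ℕ) : ℝ) * (l : ℝ) = (N : ℝ) := by exact_mod_cast Nat.div_mul_cancel hl
    ext x y
    rw [transpose_transpose, Matrix.mul_apply]
    have h1 : ∀ c', ((cobV N l)ᵀ * P0 (V (N / l))) x c' =
        (l : ℝ)⁻¹ * (((N / l : ℕ) : ℝ) ^ 2)⁻¹ := by
      intro c'
      rw [Matrix.mul_apply]
      simp only [P0, of_apply, transpose_apply]
      rw [← Finset.sum_mul, cobV_tr_one, TM.H764.card_V]
    simp only [h1]
    rw [← Finset.mul_sum, cobV_tr_one]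
    simp only [P0, of_apply]
    rw [TM.H764.card_V, ← hN]
    field_simp

/-- the mass after neutral cell noise in terms of the cell mass -/
lemma Mc_eq (hl : l ∣ N) (ht : 0 < t) (hτ : 0 < τ) :
    Mc (cobV N l)ᵀ t (τ⁻¹ - t⁻¹) = MC N l t τ + (t - τ) • P0 (V N) := by
  have h4 : (τ⁻¹ - t⁻¹) * t ^ 2 / (1 + (τ⁻¹ - t⁻¹) * t) = t - τ := by
    have h5 : 1 + (τ⁻¹ - t⁻¹) * t = t / τ := by field_simp; ring
    rw [h5]
    field_simp
  rw [Mc, h4, Qc_eq (lift_cob hl), transpose_transpose, ← H864.cellP_eq hl, H864.MC_eq]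
  module

lemma Mup_MC (hl : l ∣ N) (ht : 0 < t) (hτ : 0 < τ) :
    Mup (MC N l t τ) ((τ⁻¹ - t⁻¹) / Fintype.card (V N)) = Mc (cobV N l)ᵀ t (τ⁻¹ - t⁻¹) := by
  have hn : (0 : ℝ) < Fintype.card (V N) := by exact_mod_cast Fintype.card_pos
  rw [Mc_eq hl ht hτ, Mup]
  have h1 : MC N l t τ *ᵥ (1 : V N → ℝ) = fun _ => τ := by
    funext x
    have := H864.MC_row hl t τ x
    simpa [mulVec, dotProduct] using this
  have h2 : qf (MC N l t τ) 1 = τ * Fintype.card (V N) := by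
    rw [H37.qf_eq, h1]
    simp only [dotProduct, Pi.one_apply, one_mul, Finset.sum_const, Finset.card_univ,
      nsmul_eq_mul]
    ring
  rw [h1, h2]
  congr 1
  ext x y
  simp only [Matrix.smul_apply, vecMulVec_apply, smul_eq_mul, P0, of_apply]
  have h3 : 1 - (τ⁻¹ - t⁻¹) / (Fintype.card (V N) : ℝ) * (τ * Fintype.card (V N)) = τ / t := by
    field_simp
    ring
  rw [h3]
  field_simp

/-- the activity after the constant mode is taken out -/
theorem om_MC_eq (hb : 0 ≤ b) (hl : l ∣ N) (hτ : 0 < τ) (h : τ ≤ t) :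
    om (wT b N) (MC N l t τ) 1 =
      Real.exp (-(2 * Real.pi ^ 2 * ((τ⁻¹ - t⁻¹) / Fintype.card (V N)))) *
        om (wT b N) (Mc (cobV N l)ᵀ t (τ⁻¹ - t⁻¹)) 1 := by
  have ht : 0 < t := hτ.trans_le h
  have hn : (0 : ℝ) < Fintype.card (V N) := by exact_mod_cast Fintype.card_pos
  have hσ : 0 ≤ τ⁻¹ - t⁻¹ := sub_nonneg.2 (inv_anti₀ hτ h)
  have hW := H363.wm_MC (b := b) (N := N) hb hl hτ h
  have hnn : ∀ u : V N → ℝ, 0 ≤ qf (MC N l t τ) u := fun u =>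
    le_trans (mul_nonneg hτ.le (Finset.sum_nonneg fun _ _ => sq_nonneg _)) (H864.qf_MC_ge hl h u)
  have h1 : MC N l t τ *ᵥ (1 : V N → ℝ) = fun _ => τ := by
    funext x
    have := H864.MC_row hl t τ x
    simpa [mulVec, dotProduct] using this
  have h2 : qf (MC N l t τ) 1 = τ * Fintype.card (V N) := by
    rw [H37.qf_eq, h1]
    simp only [dotProduct, Pi.one_apply, one_mul, Finset.sum_const, Finset.card_univ,
      nsmul_eq_mul]
    ring
  have h3 : (τ⁻¹ - t⁻¹) / (Fintype.card (V N) : ℝ) * qf (MC N l t τ) 1 < 1 := by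
    rw [h2]
    have : (τ⁻¹ - t⁻¹) / (Fintype.card (V N) : ℝ) * (τ * Fintype.card (V N)) = 1 - τ / t := by
      field_simp
    rw [this]
    have : 0 < τ / t := by positivity
    linarith
  have h4 := Ph_const hW hnn (σ := (τ⁻¹ - t⁻¹) / Fintype.card (V N)) (by positivity) h3 1 0
  rw [Mup_MC hl ht hτ, Ph_zero hW] at h4
  have hch := chn_Mc (lift_cob hl) ht hσ
  have hWc : WM (wT b N) (Mc (cobV N l)ᵀ t (τ⁻¹ - t⁻¹)) :=
    (ad_wT hb).wm _ hch.sym' (Chn.coe hch (coe_smul ht))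
  rw [Ph_zero hWc] at h4
  have h5 : om (wT b N) (MC N l t τ) 1 =
      Real.exp (-(2 * Real.pi ^ 2 * ((1 : ℤ) : ℝ) ^ 2 * ((τ⁻¹ - t⁻¹) / Fintype.card (V N)))) *
        om (wT b N) (Mc (cobV N l)ᵀ t (τ⁻¹ - t⁻¹)) 1 := by
    exact_mod_cast h4
  rw [h5]
  norm_num

/-- the neutral expectation of the charge in terms of the activity of `Mc` -/
theorem Ex_MC_eq (hb : 0 ≤ b) (hl : l ∣ N) (hτ : 0 < τ) (h : τ ≤ t) (x₀ : V N) :
    Ex (nM (wT b N) (MC N l t τ) τ x₀) 0 (H963.cq 1 0) =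
      Real.exp (2 * Real.pi ^ 2 / (t * Fintype.card (V N))) *
        om (wT b N) (Mc (cobV N l)ᵀ t (τ⁻¹ - t⁻¹)) 1 := by
  have ht : 0 < t := hτ.trans_le h
  have hn : (0 : ℝ) < Fintype.card (V N) := by exact_mod_cast Fintype.card_pos
  have h1 := (gw_wT hb).om_eq (mf_MC hl hτ h) (H363.wm_MC (b := b) (N := N) hb hl hτ h) x₀ 1
  rw [om_MC_eq hb hl hτ h] at h1
  have h2 : Real.exp (-(2 * Real.pi ^ 2 * ((τ⁻¹ - t⁻¹) / Fintype.card (V N)))) =
      eq2 (V N) τ 1 * Real.exp (2 * Real.pi ^ 2 / (t * Fintype.card (V N))) := by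
    rw [eq2, ← Real.exp_add]
    congr 1
    push_cast
    field_simp
    ring
  rw [h2, mul_assoc] at h1
  exact (mul_left_cancel₀ (H963.eq2_pos (V := V N) τ 1).ne' h1).symm

/-! ### the remainder -/

lemma lf_inv (hl : l ∣ N) (f : V (N / l) → ℝ) : lf N l ((l : ℝ)⁻¹ • f) = (cobV N l)ᵀ *ᵥ f := by
  have hlp : (0 : ℝ) < l := by exact_mod_cast H864.l_pos hl
  rw [H363.lf_eq hl, mulVec_smul, smul_smul, mul_inv_cancel₀ hlp.ne', one_smul]

theorem Rr_eq (hb : 0 ≤ b) (hl : l ∣ N) (ht : 0 < t) (f : V (N / l) → ℝ) :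
    Rr (wT b N) (t • (1 : Matrix (V N) (V N) ℝ)) (cobV N l)ᵀ (((l : ℝ) ^ 2)⁻¹ • acl N l b t t) f =
      Rcl N l b t t ((l : ℝ)⁻¹ • f) := by
  have h1 := H363.Zn_lf (b := b) hb hl ht le_rfl ((l : ℝ)⁻¹ • f)
  rw [H864.MC_self, lf_inv hl] at h1
  have hW := (ad_wT (N := N) hb).wm (t • (1 : Matrix (V N) (V N) ℝ))
    (by rw [transpose_smul, transpose_one]) (coe_smul ht)
  have h0 := Zn_pos hW 0
  rw [Rr, h1, mul_div_cancel_left₀ _ h0.ne', Real.log_mul (Real.exp_pos _).ne'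
    (Real.exp_pos _).ne', Real.log_exp, Real.log_exp, H37.qf_smul, H864.qf_smul_mat]
  ring

/-- the remainder does not see constants -/
theorem Rcl_Qn (hl : l ∣ N) (hτ : 0 < τ) (h : τ ≤ t) (F : V (N / l) → ℝ) :
    Rcl N l b t τ (Qn (V (N / l)) *ᵥ F) = Rcl N l b t τ F := by
  have hrow : ∀ x, ∑ y, MC N l t τ x y = τ := (mf_MC hl hτ h).row
  have h1 : lf N l (Qn (V (N / l)) *ᵥ F) = lf N l F -
      ((Fintype.card (V (N / l)) : ℝ)⁻¹ * ∑ y, F y) • (fun _ : V N => (1 : ℝ)) := by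
    funext v
    simp only [lf, Pi.sub_apply, Pi.smul_apply, smul_eq_mul, mul_one]
    rw [Qn, sub_mulVec, one_mulVec, Pi.sub_apply]
    simp only [P0, mulVec, dotProduct, of_apply, Finset.mul_sum]
  have h2 : ntr (MC N l t τ) τ *ᵥ (fun _ : V N => (1 : ℝ)) = 0 := by
    funext v
    have := H963.ntr_row hrow v
    simpa [mulVec, dotProduct] using this
  unfold Rcl
  rw [h1, mulVec_sub, mulVec_smul, h2, smul_zero, sub_zero]

lemma Rcl_smul_src (c : ℝ) (F : V (N / l) → ℝ) : Rcl N l b t τ (c • F) =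
    H37.Rs (nMC N l b t τ 0) (c • (ntr (MC N l t τ) τ *ᵥ lf N l F)) := by
  unfold Rcl
  rw [H363.lf_smul, mulVec_smul]

lemma Rcl_mono (hb : 0 ≤ b) (hl : l ∣ N) (hτ : 0 < τ) (h : τ ≤ t) (F : V (N / l) → ℝ) {c c' : ℝ}
    (hc : 0 ≤ c) (hcc : c ≤ c') : Rcl N l b t τ (c • F) ≤ Rcl N l b t τ (c' • F) := by
  rw [Rcl_smul_src, Rcl_smul_src]
  exact H789.Rs_ray_mono ((gw_wT hb).em_nM (mf_MC hl hτ h) 0) ((gw_wT hb).ev_nM _ _ 0)
    ((gw_wT hb).pk_nM (mf_MC hl hτ h) 0) _ hc hcc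

/-- the quartic cumulant of a cell field -/
def K4c (N l : ℕ) [NeZero N] [NeZero (N / l)] (b t τ : ℝ) (F : V (N / l) → ℝ) : ℝ :=
  H37.K4 (nMC N l b t τ 0) (ntr (MC N l t τ) τ *ᵥ lf N l F) (ntr (MC N l t τ) τ *ᵥ lf N l F)
    (ntr (MC N l t τ) τ *ᵥ lf N l F) (ntr (MC N l t τ) τ *ᵥ lf N l F)

/-- TT on lifted fields -/
theorem TT_lf (hb : 0 ≤ b) (hl : l ∣ N) (ht : 0 < t) (F : V (N / l) → ℝ) :
    TT (Zn (wT b N) (t • (1 : Matrix (V N) (V N) ℝ))) (lf N l F) =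
      Rcl N l b t t ((2 : ℝ) • F) - 4 * Rcl N l b t t F := by
  have h1 := H363.Zn_lf (b := b) hb hl ht le_rfl F
  have h2 := H363.Zn_lf (b := b) hb hl ht le_rfl ((2 : ℝ) • F)
  rw [H864.MC_self] at h1 h2
  have hW := (ad_wT (N := N) hb).wm (t • (1 : Matrix (V N) (V N) ℝ))
    (by rw [transpose_smul, transpose_one]) (coe_smul ht)
  have h0 := Zn_pos hW 0
  rw [TT, ← H363.lf_smul, h1, h2, Real.log_mul h0.ne' (mul_pos (Real.exp_pos _)
    (Real.exp_pos _)).ne', Real.log_mul (Real.exp_pos _).ne' (Real.exp_pos _).ne',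
    Real.log_mul h0.ne' (mul_pos (Real.exp_pos _) (Real.exp_pos _)).ne',
    Real.log_mul (Real.exp_pos _).ne' (Real.exp_pos _).ne', Real.log_exp, Real.log_exp,
    Real.log_exp, Real.log_exp, H37.qf_smul]
  ring

lemma TT_lf_le (hb : 0 ≤ b) (hl : l ∣ N) (ht : 0 < t) (F : V (N / l) → ℝ) :
    TT (Zn (wT b N) (t • (1 : Matrix (V N) (V N) ℝ))) (lf N l F) ≤
      Rcl N l b t t ((2 : ℝ) • F) := by
  rw [TT_lf hb hl ht]
  have := H363.Rcl_nonneg (b := b) hb hl ht le_rfl F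
  linarith

end

end Vale.Agent.P159.H316
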