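import Vale.Agent.P159.H316.Zb8
import Vale.Agent.P159.H447.MassF

/-!
P159, V list part B (VB9 = ZB), helper316: torus form of the comparison of the activities.
-/

open MeasureTheory Finset Matrix
open scoped ComplexConjugate
open Vale.Agent.P159.TM.H104 (EM nh li Ex)
open Vale.Agent.P159.H37 (wM ZM qf bf Zn Zq Un Ev gau gau_shift cellP)
open Vale.Agent.P159.H896
open Vale.Agent.P159.TM.Spec (V)
open Vale.Agent.P159.TM.SpecC (Tor wT)
open Vale.Agent.P159.TM.H764 (EE)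
open Vale.Agent.P159.H864 (TI sym MC cl cobV fc)
open Vale.Agent.P159.H963 (Pn nMC nM ntr gw_wT mf_MC eq2)
open Vale.Agent.P159.H363 (acl lf Rcl Wcl gm sn)

set_option linter.unusedSectionVars false

namespace Vale.Agent.P159.H316

noncomputable section

lemma K4_smul {W : Type*} [Fintype W] (μ : (W → ℤ) → ℝ) (c : ℝ) (a : W → ℝ) :
    H37.K4 μ (c • a) (c • a) (c • a) (c • a) = c ^ 4 * H37.K4 μ a a a a := by
  have hl : ∀ h : W → ℤ, li (c • a) h = c * li a h := by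
    intro h
    unfold li
    simp only [Pi.smul_apply, smul_eq_mul, Finset.mul_sum, mul_assoc]
  unfold H37.K4
  simp only [hl]
  have e1 : (fun h : W → ℤ => c * li a h * (c * li a h) * (c * li a h) * (c * li a h)) =
      fun h => c ^ 4 * (li a h * li a h * li a h * li a h) := by
    funext h
    ring
  have e2 : (fun h : W → ℤ => c * li a h * (c * li a h)) = fun h => c ^ 2 * (li a h * li a h) := by
    funext h
    ring
  rw [e1, e2, TM.H104.Ex_cmul, TM.H104.Ex_cmul]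
  ring

variable {N l : ℕ} [NeZero N] [NeZero (N / l)] {b t τ τ' : ℝ}

lemma sum_geo_le (k : ℕ) : ∑ j ∈ Finset.range k, (√2)⁻¹ ^ j ≤ 3.42 := by
  have h2 : (0 : ℝ) < √2 := by positivity
  have hs : √2 ^ 2 = 2 := Real.sq_sqrt (by norm_num)
  have h1 : (√2)⁻¹ < 1 := by
    rw [inv_lt_one₀ h2]
    nlinarith
  have h3 := Summable.sum_le_tsum (Finset.range k) (fun j _ => by positivity)
    (summable_geometric_of_lt_one (by positivity : (0 : ℝ) ≤ (√2)⁻¹) h1)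
  rw [tsum_geometric_of_lt_one (by positivity) h1] at h3
  refine h3.trans ?_
  have h4 : (√2)⁻¹ = √2 / 2 := by
    field_simp
    linarith
  have h5 : √2 ≤ 1.4143 := by
    rw [Real.sqrt_le_left (by norm_num)]
    norm_num
  rw [h4, inv_le_comm₀ (by linarith) (by norm_num)]
  norm_num
  linarith

/-- one term of the series of the doubling lemma, from the quartic cumulant -/
theorem dbl_term_K (hb : 0 ≤ b) (hl : l ∣ N) (ht : 0 < t) (F : V (N / l) → ℝ)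
    (hR : Rcl N l b t t ((8 : ℝ) • F) ≤ 1) (j : ℕ) :
    2 ^ j * Real.sqrt (3 * TT (Zn (wT b N) (t • (1 : Matrix (V N) (V N) ℝ)))
      (((1 / 2 : ℝ) ^ (j + 1)) • lf N l F) + 2 * TT (Zn (wT b N) (t • (1 : Matrix (V N) (V N) ℝ)))
      (((1 / 2 : ℝ) ^ j) • lf N l F)) ≤
      18 * √(K4c N l b t t F / 2) ^ (3 / 4 : ℝ) * (√2)⁻¹ ^ j := by
  set μ := nMC N l b t t 0 with hμ
  set J : V N → ℝ := ntr (MC N l t t) t *ᵥ lf N l F with hJ
  have hE := (gw_wT (N := N) hb).em_nM (mf_MC hl ht le_rfl) 0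
  have hEv := (gw_wT (N := N) hb).ev_nM (MC N l t t) t 0
  have hPK := (gw_wT (N := N) hb).pk_nM (mf_MC hl ht le_rfl) 0
  set m : ℝ := √(K4c N l b t t F / 2) with hm
  have hm0 : 0 ≤ m := Real.sqrt_nonneg _
  -- closure at each scale
  have hcl : ∀ j : ℕ, Rcl N l b t t ((2 * (1 / 2 : ℝ) ^ j) • F) ≤ 64 * ((1 / 8 : ℝ) ^ j * m ^ (3 / 2 : ℝ)) := by
    intro j
    set r : ℝ := (1 / 2 : ℝ) ^ j with hr
    have hr0 : 0 < r := by positivity
    have hr1 : r ≤ 1 := pow_le_one₀ (by norm_num) (by norm_num)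
    rw [Rcl_smul_src]
    have h1 := H789.Rs_closure hE hEv hPK ((2 * r) • J) 2 (by
      have h2 := Rcl_mono (b := b) hb hl ht le_rfl F (c := 8 * r) (c' := 8) (by positivity)
        (by linarith)
      rw [Rcl_smul_src, ← hJ] at h2
      have e : (2 : ℝ) ^ 2 • (2 * r) • J = (8 * r) • J := by
        rw [smul_smul]
        norm_num
        ring_nf
      rw [e]
      exact h2.trans hR)
    refine h1.trans ?_
    have e2 : (2 : ℝ) - 2 * (1 / 2) ^ 2 = 3 / 2 := by norm_num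
    have e3 : √(H37.K4 (nM (wT b N) (MC N l t t) t 0) ((2 * r) • J) ((2 * r) • J) ((2 * r) • J) ((2 * r) • J) / 2) =
        4 * r ^ 2 * m := by
      rw [K4_smul, hm]
      have e4 : (2 * r) ^ 4 * H37.K4 (nM (wT b N) (MC N l t t) t 0) J J J J / 2 =
          (4 * r ^ 2) ^ 2 * (K4c N l b t t F / 2) := by
        rw [show K4c N l b t t F = H37.K4 (nM (wT b N) (MC N l t t) t 0) J J J J from rfl]
        ring
      rw [e4, Real.sqrt_mul (by positivity), Real.sqrt_sq (by positivity)]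
    rw [e2, e3, Real.mul_rpow (by positivity) hm0, Real.mul_rpow (by norm_num) (by positivity)]
    have e5 : (4 : ℝ) ^ (3 / 2 : ℝ) = 8 := by
      rw [show (4 : ℝ) = 2 ^ (2 : ℝ) by norm_num, ← Real.rpow_mul (by norm_num)]
      norm_num
    have e6 : (r ^ 2) ^ (3 / 2 : ℝ) = (1 / 8 : ℝ) ^ j := by
      rw [← Real.rpow_natCast r 2, ← Real.rpow_mul hr0.le]
      norm_num
      rw [hr, ← pow_mul, mul_comm, pow_mul]
      norm_num
    rw [e5, e6]
    apply le_of_eq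
    ring
  set r : ℝ := (1 / 2 : ℝ) ^ j with hr
  have hr0 : 0 < r := by positivity
  have t1 := TT_lf_le (b := b) hb hl ht (((1 / 2 : ℝ) ^ (j + 1)) • F)
  have t2 := TT_lf_le (b := b) hb hl ht (r • F)
  rw [H363.lf_smul] at t1 t2
  rw [smul_smul] at t1 t2
  have m1 : Rcl N l b t t ((2 * (1 / 2 : ℝ) ^ (j + 1)) • F) ≤ Rcl N l b t t ((2 * r) • F) := by
    refine Rcl_mono hb hl ht le_rfl F (by positivity) ?_
    rw [pow_succ, ← hr]
    nlinarith
  have h1 : 3 * TT (Zn (wT b N) (t • (1 : Matrix (V N) (V N) ℝ)))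
      (((1 / 2 : ℝ) ^ (j + 1)) • lf N l F) + 2 * TT (Zn (wT b N) (t • (1 : Matrix (V N) (V N) ℝ)))
      (r • lf N l F) ≤ 320 * ((1 / 8 : ℝ) ^ j * m ^ (3 / 2 : ℝ)) := by
    have := hcl j
    linarith
  have h2 := Real.sqrt_le_sqrt h1
  have h3 : √(320 * ((1 / 8 : ℝ) ^ j * m ^ (3 / 2 : ℝ))) =
      √320 * (√((1 / 8 : ℝ) ^ j) * m ^ (3 / 4 : ℝ)) := by
    rw [Real.sqrt_mul (by norm_num), Real.sqrt_mul (by positivity)]
    congr 2
    rw [Real.sqrt_eq_rpow, ← Real.rpow_mul hm0]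
    norm_num
  rw [h3] at h2
  have h4 : 2 ^ j * √((1 / 8 : ℝ) ^ j) = (√2)⁻¹ ^ j := by
    have e1 : (2 : ℝ) ^ j = √((4 : ℝ) ^ j) := by
      rw [show (4 : ℝ) ^ j = (2 ^ j) ^ 2 by rw [← pow_mul, mul_comm, pow_mul]; norm_num,
        Real.sqrt_sq (by positivity)]
    rw [e1, ← Real.sqrt_mul (by positivity), ← mul_pow]
    have e2 : ((4 : ℝ) * (1 / 8)) ^ j = ((√2)⁻¹ ^ j) ^ 2 := by
      rw [← pow_mul, mul_comm j 2, pow_mul, inv_pow, Real.sq_sqrt (by norm_num)]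
      norm_num
    rw [e2, Real.sqrt_sq (by positivity)]
  have h5 : √(320 : ℝ) ≤ 18 := by
    rw [Real.sqrt_le_left (by norm_num)]
    norm_num
  have h6 : 0 ≤ m ^ (3 / 4 : ℝ) := by positivity
  calc _ ≤ 2 ^ j * (√320 * (√((1 / 8 : ℝ) ^ j) * m ^ (3 / 4 : ℝ))) :=
        mul_le_mul_of_nonneg_left h2 (by positivity)
    _ = √320 * m ^ (3 / 4 : ℝ) * (2 ^ j * √((1 / 8 : ℝ) ^ j)) := by ring
    _ = √320 * (m ^ (3 / 4 : ℝ) * (√2)⁻¹ ^ j) := by rw [h4]; ring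
    _ ≤ 18 * (m ^ (3 / 4 : ℝ) * (√2)⁻¹ ^ j) :=
        mul_le_mul_of_nonneg_right h5 (by positivity)
    _ = _ := by ring

lemma dbl_split (b : ℝ) (N : ℕ) [NeZero N] (t : ℝ) (X : V N → ℝ) (k : ℕ) :
    dbl (wT b N) (t • (1 : Matrix (V N) (V N) ℝ)) X k = ∑ j ∈ Finset.range k,
    2 ^ j * Real.sqrt (3 * TT (Zn (wT b N) (t • (1 : Matrix (V N) (V N) ℝ)))
      (((1 / 2 : ℝ) ^ (j + 1)) • X) + 2 * TT (Zn (wT b N) (t • (1 : Matrix (V N) (V N) ℝ)))
      (((1 / 2 : ℝ) ^ j) • X)) := rfl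

/-- the series of the doubling lemma for a cell field, from the quartic cumulant -/
theorem dbl_lf_le (hb : 0 ≤ b) (hl : l ∣ N) (ht : 0 < t) (F : V (N / l) → ℝ)
    (hR : Rcl N l b t t ((8 : ℝ) • F) ≤ 1) (k : ℕ) :
    dbl (wT b N) (t • (1 : Matrix (V N) (V N) ℝ)) (lf N l F) k ≤
      62 * √(K4c N l b t t F / 2) ^ (3 / 4 : ℝ) := by
  rw [dbl_split]
  refine (Finset.sum_le_sum fun j _ => dbl_term_K hb hl ht F hR j).trans ?_
  rw [← Finset.mul_sum]
  have h7 := mul_le_mul_of_nonneg_left (sum_geo_le k)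
    (show 0 ≤ 18 * √(K4c N l b t t F / 2) ^ (3 / 4 : ℝ) by positivity)
  refine h7.trans ?_
  have h6 : 0 ≤ √(K4c N l b t t F / 2) ^ (3 / 4 : ℝ) := by positivity
  nlinarith

lemma Rcl_quarter (hb : 0 ≤ b) (hl : l ∣ N) (ht : 0 < t) (F : V (N / l) → ℝ) (j : ℕ) :
    Rcl N l b t t (((1 / 2 : ℝ) ^ j) • F) ≤ (1 / 4 : ℝ) ^ j * Rcl N l b t t F := by
  have hW := (ad_wT (N := N) hb).wm (t • (1 : Matrix (V N) (V N) ℝ))
    (by rw [transpose_smul, transpose_one]) (coe_smul ht)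
  induction j with
  | zero => simp
  | succ j ih =>
    have h1 := TTn_nonneg hW (lf N l (((1 / 2 : ℝ) ^ (j + 1)) • F))
    rw [TT_lf hb hl ht, smul_smul] at h1
    have e : (2 : ℝ) * (1 / 2) ^ (j + 1) = (1 / 2) ^ j := by rw [pow_succ]; ring
    rw [e] at h1
    rw [pow_succ (1 / 4 : ℝ)]
    linarith

/-- one term of the series of the doubling lemma, from the remainder -/
theorem dbl_term_R (hb : 0 ≤ b) (hl : l ∣ N) (ht : 0 < t) (F : V (N / l) → ℝ) (j : ℕ) :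
    2 ^ j * Real.sqrt (3 * TT (Zn (wT b N) (t • (1 : Matrix (V N) (V N) ℝ)))
      (((1 / 2 : ℝ) ^ (j + 1)) • lf N l F) + 2 * TT (Zn (wT b N) (t • (1 : Matrix (V N) (V N) ℝ)))
      (((1 / 2 : ℝ) ^ j) • lf N l F)) ≤ √(5 * Rcl N l b t t ((2 : ℝ) • F)) := by
  set r : ℝ := (1 / 2 : ℝ) ^ j with hr
  have hr0 : 0 < r := by positivity
  have t1 := TT_lf_le (b := b) hb hl ht (((1 / 2 : ℝ) ^ (j + 1)) • F)
  have t2 := TT_lf_le (b := b) hb hl ht (r • F)
  rw [H363.lf_smul] at t1 t2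
  rw [smul_smul] at t1 t2
  have m1 : Rcl N l b t t ((2 * (1 / 2 : ℝ) ^ (j + 1)) • F) ≤ Rcl N l b t t ((2 * r) • F) := by
    refine Rcl_mono hb hl ht le_rfl F (by positivity) ?_
    rw [pow_succ, ← hr]
    nlinarith
  have m2 := Rcl_quarter (b := b) hb hl ht ((2 : ℝ) • F) j
  rw [smul_smul, ← hr, mul_comm r 2] at m2
  have h1 : 3 * TT (Zn (wT b N) (t • (1 : Matrix (V N) (V N) ℝ)))
      (((1 / 2 : ℝ) ^ (j + 1)) • lf N l F) + 2 * TT (Zn (wT b N) (t • (1 : Matrix (V N) (V N) ℝ)))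
      (r • lf N l F) ≤ (1 / 4 : ℝ) ^ j * (5 * Rcl N l b t t ((2 : ℝ) • F)) := by
    linarith
  have h2 := Real.sqrt_le_sqrt h1
  have h3 : √((1 / 4 : ℝ) ^ j * (5 * Rcl N l b t t ((2 : ℝ) • F))) =
      (1 / 2 : ℝ) ^ j * √(5 * Rcl N l b t t ((2 : ℝ) • F)) := by
    rw [Real.sqrt_mul (by positivity)]
    congr 1
    have : (1 / 4 : ℝ) ^ j = ((1 / 2) ^ j) ^ 2 := by
      rw [← pow_mul, mul_comm, pow_mul]
      norm_num
    rw [this, Real.sqrt_sq (by positivity)]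
  rw [h3] at h2
  calc _ ≤ 2 ^ j * ((1 / 2 : ℝ) ^ j * √(5 * Rcl N l b t t ((2 : ℝ) • F))) :=
        mul_le_mul_of_nonneg_left h2 (by positivity)
    _ = (2 * (1 / 2 : ℝ)) ^ j * √(5 * Rcl N l b t t ((2 : ℝ) • F)) := by
        rw [mul_pow]
        ring
    _ = _ := by norm_num

/-- the series of the doubling lemma: the first `J` terms from the remainder, the others from the
quartic cumulant -/
theorem dbl_lf_R (hb : 0 ≤ b) (hl : l ∣ N) (ht : 0 < t) (F : V (N / l) → ℝ)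
    (hR : Rcl N l b t t ((8 : ℝ) • F) ≤ 1) (J k : ℕ) :
    dbl (wT b N) (t • (1 : Matrix (V N) (V N) ℝ)) (lf N l F) k ≤
      J * √(5 * Rcl N l b t t ((2 : ℝ) • F)) +
        62 * √(K4c N l b t t F / 2) ^ (3 / 4 : ℝ) * (√2)⁻¹ ^ J := by
  have hW := (ad_wT (N := N) hb).wm (t • (1 : Matrix (V N) (V N) ℝ))
    (by rw [transpose_smul, transpose_one]) (coe_smul ht)
  have hm0 : 0 ≤ √(K4c N l b t t F / 2) ^ (3 / 4 : ℝ) := by positivity
  -- enlarge the range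
  have h1 : dbl (wT b N) (t • (1 : Matrix (V N) (V N) ℝ)) (lf N l F) k ≤
      dbl (wT b N) (t • (1 : Matrix (V N) (V N) ℝ)) (lf N l F) (J + k) := by
    unfold dbl
    exact Finset.sum_le_sum_of_subset_of_nonneg
      (Finset.range_subset_range.2 (Nat.le_add_left k J)) fun j _ _ => dbl_term_nonneg _ _ _ j
  refine h1.trans ?_
  rw [dbl_split, Finset.sum_range_add]
  refine add_le_add ?_ ?_
  · refine (Finset.sum_le_sum fun j _ => dbl_term_R hb hl ht F j).trans ?_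
    rw [Finset.sum_const, Finset.card_range, nsmul_eq_mul]
  · refine (Finset.sum_le_sum fun j _ => dbl_term_K hb hl ht F hR (J + j)).trans ?_
    rw [← Finset.mul_sum]
    have h2 : ∑ i ∈ Finset.range k, (√2)⁻¹ ^ (J + i) = (√2)⁻¹ ^ J * ∑ i ∈ Finset.range k,
        (√2)⁻¹ ^ i := by
      rw [Finset.mul_sum]
      exact Finset.sum_congr rfl fun i _ => pow_add _ _ _
    rw [h2]
    have h3 : 0 ≤ (√2)⁻¹ ^ J := by positivity
    have h4 := mul_le_mul_of_nonneg_left (sum_geo_le k)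
      (show 0 ≤ 18 * √(K4c N l b t t F / 2) ^ (3 / 4 : ℝ) * (√2)⁻¹ ^ J by positivity)
    nlinarith [mul_nonneg hm0 h3]

end

end Vale.Agent.P159.H316
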